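import Vale.Agent.P167.H685.Weight
import Vale.Agent.P167.H685.Flow
import Vale.Agent.P167.Iface

/-!
Block B, identity: the product over the loops of the plane and the torus product.
-/

namespace Vale.Agent.P167.H685

open Finset
open Vale.Agent.P167.A (Grid plane torus red redE plane_nx plane_hd plane_sg par_red e1_red e2_red
  e1s_red e2s_red nx_red)
open Vale.Agent.P152 (Edge Ori vw wt)

/-! ### Stokes for the loops of the plane -/

/-- The face function of `a`, in terms of sites. -/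
def fs (a : Ed → ℝ) (s : ℤ × ℤ) : ℝ := dv a (s.1 - 1, s.2 - 1)

lemma jump_h (hj : S_jump) {ω : Cfg} {ℓ : Finset Ed} (h : IsLoop ω ℓ) (v : ℤ × ℤ) :
    (if (Sum.inl v : Ed) ∈ ℓ then (sg (Sum.inl v : Ed) : ℝ) else 0)
      = (W ℓ (v.1 + 1, v.2 + 1) : ℝ) - W ℓ (v.1 + 1, v.2) := by
  have := hj ω ℓ h (Sum.inl v)
  simp only [ls, rs] at this
  by_cases hp : Even (v.1 + v.2)
  · simp only [if_pos hp] at this
    rw [this]
    simp only [sg, if_pos hp]
    split_ifs <;> push_cast <;> ring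
  · simp only [if_neg hp] at this
    rw [this]
    simp only [sg, if_neg hp]
    split_ifs <;> push_cast <;> ring

lemma jump_v (hj : S_jump) {ω : Cfg} {ℓ : Finset Ed} (h : IsLoop ω ℓ) (v : ℤ × ℤ) :
    (if (Sum.inr v : Ed) ∈ ℓ then (sg (Sum.inr v : Ed) : ℝ) else 0)
      = (W ℓ (v.1, v.2 + 1) : ℝ) - W ℓ (v.1 + 1, v.2 + 1) := by
  have := hj ω ℓ h (Sum.inr v)
  simp only [ls, rs] at this
  by_cases hp : Even (v.1 + v.2)
  · simp only [if_pos hp] at this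
    rw [this]
    simp only [sg, if_pos hp]
    split_ifs <;> push_cast <;> ring
  · simp only [if_neg hp] at this
    rw [this]
    simp only [sg, if_neg hp]
    split_ifs <;> push_cast <;> ring

lemma stokes (hj : S_jump) {ω : Cfg} {ℓ : Finset Ed} (h : IsLoop ω ℓ) {E : Finset Ed}
    {a : Ed → ℝ} (ha : ∀ e ∉ E, a e = 0) :
    ∑ e ∈ ℓ, a e * sg e = ∑' s : ℤ × ℤ, (W ℓ s : ℝ) * fs a s := by
  classical
  have h1 : ∑ e ∈ ℓ, a e * sg e = ∑ e ∈ E, a e * (if e ∈ ℓ then (sg e : ℝ) else 0) := by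
    rw [← sum_filter_add_sum_filter_not ℓ (fun e => e ∈ E)]
    have : ∑ e ∈ ℓ.filter (fun e => e ∉ E), a e * (sg e : ℝ) = 0 :=
      sum_eq_zero fun e he => by rw [ha e (mem_filter.1 he).2, zero_mul]
    rw [this, add_zero]
    rw [← sum_filter_add_sum_filter_not E (fun e => e ∈ ℓ)]
    have h2 : ∑ e ∈ E.filter (fun e => e ∉ ℓ), a e * (if e ∈ ℓ then (sg e : ℝ) else 0) = 0 :=
      sum_eq_zero fun e he => by rw [if_neg (mem_filter.1 he).2, mul_zero]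
    rw [h2, add_zero]
    have h3 : ℓ.filter (fun e => e ∈ E) = E.filter (fun e => e ∈ ℓ) := by
      ext e; simp only [mem_filter]; tauto
    rw [h3]
    exact sum_congr rfl fun e he => by rw [if_pos (mem_filter.1 he).2]
  rw [h1, sum_diff (h := fun v => (W ℓ (v.1 + 1, v.2 + 1) : ℝ))
    (s := fun e => if e ∈ ℓ then (sg e : ℝ) else 0) ?_ ?_ ha]
  · let e : ℤ × ℤ ≃ ℤ × ℤ := ⟨fun v => (v.1 + 1, v.2 + 1), fun v => (v.1 - 1, v.2 - 1),
      fun v => by simp, fun v => by simp⟩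
    rw [← e.tsum_eq (fun s : ℤ × ℤ => (W ℓ s : ℝ) * fs a s)]
    refine tsum_congr fun v => ?_
    simp [e, fs]
  · intro v
    rw [jump_h hj h v]
    simp
  · intro v
    rw [jump_v hj h v]
    simp

/-- The factor of a loop of the plane is the weight of the enclosed mass. -/
lemma fac_plane (hj : S_jump) (ht : S_turn) {ω : Cfg} {ℓ : Finset Ed} (h : IsLoop ω ℓ)
    {E : Finset Ed} {a : Ed → ℝ} (ha : ∀ e ∉ E, a e = 0) (hfin : (fs a).support.Finite) :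
    fac plane a ω ℓ = wf (G (fs a) ℓ) := by
  classical
  have h0 : ∀ (ε : ℤ), (∀ s, W ℓ s = 0 ∨ W ℓ s = ε) → ε ≠ 0 →
      ∑' s : ℤ × ℤ, (W ℓ s : ℝ) * fs a s = ε * G (fs a) ℓ := by
    intro ε hε hne
    have hG : G (fs a) ℓ = ∑' s : ℤ × ℤ, (ins ℓ).indicator (fs a) s := by
      unfold G
      rw [finsum_mem_def]
      rw [tsum_eq_finsum]
      exact hfin.subset fun s hs => by
        rw [Function.mem_support] at hs ⊢
        intro h0
        apply hs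
        by_cases hm : s ∈ ins ℓ
        · rw [Set.indicator_of_mem hm, h0]
        · rw [Set.indicator_of_notMem hm]
    rw [hG, ← tsum_mul_left]
    refine tsum_congr fun s => ?_
    by_cases hm : s ∈ ins ℓ
    · rw [Set.indicator_of_mem hm]
      rcases hε s with h1 | h1
      · exact absurd h1 hm
      · rw [h1]
    · rw [Set.indicator_of_notMem hm]
      have : W ℓ s = 0 := by
        by_contra hn
        exact hm hn
      rw [this]
      simp
  unfold fac wf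
  congr 1
  rw [sum_add_distrib, ← mul_sum]
  have hsg : ∑ e ∈ ℓ, a e * (plane.sg e : ℝ) = ∑ e ∈ ℓ, a e * (sg e : ℝ) :=
    sum_congr rfl fun e _ => by rw [plane_sg]
  rw [hsg, stokes hj h ha]
  have hT : ∑ e ∈ ℓ, ((plane.turn ω e : ℤ) : ℝ) = ((∑ e ∈ ℓ, plane.turn ω e : ℤ) : ℝ) := by
    push_cast; rfl
  rw [hT]
  rcases ht ω ℓ h with ⟨h1, h2⟩ | ⟨h1, h2⟩
  · rw [h1, h0 1 h2 one_ne_zero]
    congr 1
    push_cast
    ring
  · rw [h1, h0 (-1) h2 (by norm_num), ← Real.cos_neg]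
    congr 1
    push_cast
    ring

lemma fac_plane_zero (ht : S_turn) {ω : Cfg} {ℓ : Finset Ed} (h : IsLoop ω ℓ) :
    fac plane 0 ω ℓ = 1 := by
  rw [fac_zero]
  rcases ht ω ℓ h with ⟨h1, _⟩ | ⟨h1, _⟩
  · rw [h1]
    have : Real.pi / 3 / 4 * ((4 : ℤ) : ℝ) = Real.pi / 3 := by push_cast; ring
    rw [this, Real.cos_pi_div_three]; norm_num
  · rw [h1]
    have : Real.pi / 3 / 4 * ((-4 : ℤ) : ℝ) = -(Real.pi / 3) := by push_cast; ring
    rw [this, Real.cos_neg, Real.cos_pi_div_three]; norm_num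

/-! ### the loops meeting a finite set of edges -/

open Classical in
/-- The loop through an edge (or `∅`). -/
noncomputable def lp (ω : Cfg) (e : Ed) : Finset Ed :=
  if h : ∃ ℓ, IsLoop ω ℓ ∧ e ∈ ℓ then h.choose else ∅

lemma lp_spec {ω : Cfg} {e : Ed} (h : ∃ ℓ, IsLoop ω ℓ ∧ e ∈ ℓ) :
    IsLoop ω (lp ω e) ∧ e ∈ lp ω e := by
  unfold lp
  rw [dif_pos h]
  exact h.choose_spec

lemma lp_eq {ω : Cfg} {ℓ : Finset Ed} (h : IsLoop ω ℓ) {e : Ed} (he : e ∈ ℓ) : lp ω e = ℓ := by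
  have := lp_spec ⟨ℓ, h, he⟩
  exact loop_unique this.1 h this.2 he

open Classical in
/-- The loops which meet `E`. -/
noncomputable def LE (ω : Cfg) (E : Finset Ed) : Finset (Finset Ed) :=
  (E.filter fun e => ∃ ℓ, IsLoop ω ℓ ∧ e ∈ ℓ).image (lp ω)

lemma mem_LE {ω : Cfg} {E : Finset Ed} {ℓ : Finset Ed} :
    ℓ ∈ LE ω E ↔ IsLoop ω ℓ ∧ ∃ e ∈ E, e ∈ ℓ := by
  classical
  unfold LE
  rw [mem_image]
  constructor
  · rintro ⟨e, he, rfl⟩
    rw [mem_filter] at he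
    have := lp_spec he.2
    exact ⟨this.1, e, he.1, this.2⟩
  · rintro ⟨h, e, he, heℓ⟩
    exact ⟨e, mem_filter.2 ⟨he, ℓ, h, heℓ⟩, lp_eq h heℓ⟩

lemma card_LE_le (ω : Cfg) (E : Finset Ed) : (LE ω E).card ≤ E.card := by
  classical
  unfold LE
  exact card_image_le.trans (card_filter_le _ _)

/-- The product over all loops is a product over the loops which meet the support of the flow. -/
lemma X_eq (hj : S_jump) (ht : S_turn) (ω : Cfg) {E : Finset Ed} {a : Ed → ℝ}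
    (ha : ∀ e ∉ E, a e = 0) (hfin : (fs a).support.Finite) :
    X (fs a) ω = ∏ ℓ ∈ LE ω E, wf (G (fs a) ℓ) := by
  classical
  unfold X
  apply finprod_mem_eq_prod_of_inter_mulSupport_eq
  ext ℓ
  simp only [Set.mem_inter_iff, Set.mem_ofPred_eq, Function.mem_mulSupport, mem_coe, mem_LE]
  constructor
  · rintro ⟨h1, h2⟩
    refine ⟨⟨h1, ?_⟩, h2⟩
    by_contra hn
    apply h2
    push Not at hn
    rw [← fac_plane hj ht h1 ha hfin, fac_of_off plane ω (fun e he => ha e fun hE => hn e hE he),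
      fac_plane_zero ht h1]
  · rintro ⟨⟨h1, _⟩, h2⟩
    exact ⟨h1, h2⟩

lemma abs_wf_le (t : ℝ) : |wf t| ≤ 2 := by
  unfold wf
  rw [abs_mul, abs_two]
  have := Real.abs_cos_le_one (Real.pi / 3 + t)
  linarith

lemma abs_X_le (hj : S_jump) (ht : S_turn) (ω : Cfg) {E : Finset Ed} {a : Ed → ℝ}
    (ha : ∀ e ∉ E, a e = 0) (hfin : (fs a).support.Finite) :
    |X (fs a) ω| ≤ 2 ^ E.card := by
  rw [X_eq hj ht ω ha hfin, abs_prod]
  calc ∏ ℓ ∈ LE ω E, |wf (G (fs a) ℓ)| ≤ ∏ _ℓ ∈ LE ω E, (2 : ℝ) :=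
        prod_le_prod (fun _ _ => abs_nonneg _) fun _ _ => abs_wf_le _
    _ = 2 ^ (LE ω E).card := by rw [prod_const]
    _ ≤ 2 ^ E.card := pow_le_pow_right₀ (by norm_num) (card_LE_le ω E)

/-- The event that the loops through `E` stay in the box of size `K`. -/
def GK (E : Finset Ed) (K : ℕ) : Set Cfg :=
  {ω | ∀ e ∈ E, ∃ ℓ, IsLoop ω ℓ ∧ e ∈ ℓ ∧ ∀ v ∈ vs ℓ, v ∈ bx K}

lemma GK_dep (E : Finset Ed) (K : ℕ) : Dep (fun ω => ω ∈ GK E K) (bx K : Set (ℤ × ℤ)) := by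
  have key : ∀ ω ω' : Cfg, (∀ v ∈ (bx K : Set (ℤ × ℤ)), ω v = ω' v) → ω ∈ GK E K → ω' ∈ GK E K := by
    intro ω ω' h hω e he
    obtain ⟨ℓ, h1, h2, h3⟩ := hω e he
    exact ⟨ℓ, loop_loc h1 fun v hv => h v (mem_coe.2 (h3 v hv)), h2, h3⟩
  intro ω ω' h
  exact propext ⟨key ω ω' h, key ω' ω fun v hv => (h v hv).symm⟩

lemma LE_box {E : Finset Ed} {K : ℕ} {ω : Cfg} (h : ω ∈ GK E K) {ℓ : Finset Ed}
    (hℓ : ℓ ∈ LE ω E) : ∀ v ∈ vs ℓ, v ∈ bx K := by
  obtain ⟨h1, e, he, heℓ⟩ := mem_LE.1 hℓ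
  obtain ⟨ℓ', h1', h2', h3'⟩ := h e he
  rw [loop_unique h1 h1' heℓ h2']
  exact h3'

lemma X_dep (hj : S_jump) (ht : S_turn) {E : Finset Ed} {a : Ed → ℝ}
    (ha : ∀ e ∉ E, a e = 0) (hfin : (fs a).support.Finite) (K : ℕ) :
    ∀ ω ∈ GK E K, ∀ ω' ∈ GK E K, (∀ v ∈ bx K, ω v = ω' v) → X (fs a) ω = X (fs a) ω' := by
  intro ω hω ω' hω' h
  have key : ∀ ω ∈ GK E K, ∀ ω' ∈ GK E K, (∀ v ∈ bx K, ω v = ω' v) → LE ω E ⊆ LE ω' E := by
    intro ω hω ω' _ h ℓ hℓ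
    have hb := LE_box hω hℓ
    obtain ⟨h1, h2⟩ := mem_LE.1 hℓ
    exact mem_LE.2 ⟨loop_loc h1 fun v hv => h v (hb v hv), h2⟩
  rw [X_eq hj ht ω ha hfin, X_eq hj ht ω' ha hfin,
    subset_antisymm (key ω hω ω' hω' h) (key ω' hω' ω hω fun v hv => (h v hv).symm)]

/-! ### comparison with the torus -/

section torus

variable {M L : ℕ} [NeZero M] [NeZero L] (hM : Even M) (hL : Even L)

/-- push forward of the flow -/
noncomputable def pa (M L : ℕ) (E : Finset Ed) (a : Ed → ℝ) (x : Edge (ZMod M × ZMod L)) : ℝ :=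
  ∑ e ∈ E with redE M L e = x, a e

lemma redE_inj {K : ℕ} (h1 : 2 * K + 1 ≤ M) (h2 : 2 * K + 1 ≤ L) {e e' : Ed} (he : bs e ∈ bx K)
    (he' : bs e' ∈ bx K) (h : redE M L e = redE M L e') : e = e' := by
  have hi := injOn_bx (M := M) (L := L) h1 h2
  rcases e with v | v <;> rcases e' with w | w
  · simp only [redE, Sum.map_inl, Sum.inl.injEq] at h
    exact congrArg Sum.inl (hi (mem_coe.2 he) (mem_coe.2 he') h)
  · simp [redE] at h
  · simp [redE] at h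
  · simp only [redE, Sum.map_inr, Sum.inr.injEq] at h
    exact congrArg Sum.inr (hi (mem_coe.2 he) (mem_coe.2 he') h)

lemma bs_mem {K : ℕ} {ℓ : Finset Ed} (h : ∀ v ∈ vs ℓ, v ∈ bx K) {e : Ed} (he : e ∈ ℓ) :
    bs e ∈ bx (K + 1) := by
  have h1 := h (hdv e) (mem_image_of_mem _ he)
  have h2 := bs_hdv e
  rw [abs_le, abs_le] at h2
  rw [mem_bx] at h1 ⊢
  push_cast
  omega

lemma orb_image {ρ : ZMod M × ZMod L → Bool} {ℓ : Finset Ed} (h : IsLoop (unR ρ) ℓ) {e : Ed}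
    (he : e ∈ ℓ) : orb ((torus M L hM hL).nxP ρ) (redE M L e) = ℓ.image (redE M L) := by
  ext y
  rw [mem_orb_iff, mem_image]
  constructor
  · rintro ⟨n, rfl⟩
    exact ⟨(nx (unR ρ))^[n] e, (loop_gen h he _).2 ⟨n, rfl⟩, (nx_iter_red hM hL ρ e n).symm⟩
  · rintro ⟨e', he', rfl⟩
    obtain ⟨n, rfl⟩ := (loop_gen h he e').1 he'
    exact ⟨n, nx_iter_red hM hL ρ e n⟩

/-- **Torus versus plane.** -/
lemma Pr_eq (hj : S_jump) (ht : S_turn) {E : Finset Ed} {a : Ed → ℝ}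
    (ha : ∀ e ∉ E, a e = 0) (hfin : (fs a).support.Finite) {K : ℕ} (hMK : 2 * (K + 1) + 1 ≤ M)
    (hLK : 2 * (K + 1) + 1 ≤ L) (ρ : ZMod M × ZMod L → Bool) (hG : unR ρ ∈ GK E K) :
    Pr (torus M L hM hL) (pa M L E a) ρ = Pr (torus M L hM hL) 0 ρ * X (fs a) (unR ρ) := by
  classical
  set gT := torus M L hM hL with hgT
  set ω : Cfg := unR ρ with hω
  have hEb : ∀ e ∈ E, bs e ∈ bx (K + 1) := by
    intro e he
    obtain ⟨ℓ, _, h2, h3⟩ := hG e he
    exact bs_mem h3 h2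
  -- the pushed forward flow on the edges of the box
  have hpa : ∀ e : Ed, bs e ∈ bx (K + 1) → pa M L E a (redE M L e) = a e := by
    intro e he
    unfold pa
    have hfil : ∀ e' ∈ E.filter (fun e' => redE M L e' = redE M L e), e' = e := by
      intro e' he'
      rw [mem_filter] at he'
      exact redE_inj hMK hLK (hEb e' he'.1) he he'.2
    by_cases hE : e ∈ E
    · rw [sum_eq_single e]
      · intro e' he' hne
        exact absurd (hfil e' he') hne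
      · intro hn
        exact (hn (mem_filter.2 ⟨hE, rfl⟩)).elim
    · rw [sum_eq_zero, ha e hE]
      intro e' he'
      have := hfil e' he'
      rw [this] at he'
      exact absurd (mem_filter.1 he').1 hE
  -- factors of the images
  have hfac : ∀ ℓ ∈ LE ω E, ∀ (b : Ed → ℝ) (c : Edge (ZMod M × ZMod L) → ℝ),
      (∀ e ∈ ℓ, c (redE M L e) = b e) → fac gT c ρ (ℓ.image (redE M L)) = fac plane b ω ℓ := by
    intro ℓ hℓ b c hbc
    have hb := LE_box hG hℓ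
    unfold fac
    rw [sum_image]
    · congr 2
      refine sum_congr rfl fun e he => ?_
      rw [hbc e he, hgT, turn_red, sg_red, plane_sg]
    · intro e he e' he' h
      exact redE_inj hMK hLK (bs_mem hb he) (bs_mem hb he') h
  -- the orbits which meet the image of `E`
  have himg : (orbs (gT.nxP ρ)).filter (fun O => ∃ x ∈ E.image (redE M L), x ∈ O)
      = (LE ω E).image (fun ℓ => ℓ.image (redE M L)) := by
    ext O
    rw [mem_filter, mem_image]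
    constructor
    · rintro ⟨h1, x, hx, hxO⟩
      obtain ⟨e, he, rfl⟩ := mem_image.1 hx
      obtain ⟨ℓ, h1', h2', _⟩ := hG e he
      refine ⟨ℓ, mem_LE.2 ⟨h1', e, he, h2'⟩, ?_⟩
      rw [eq_orb_of_mem h1 hxO, hgT, orb_image hM hL h1' h2']
    · rintro ⟨ℓ, hℓ, rfl⟩
      obtain ⟨h1, e, he, heℓ⟩ := mem_LE.1 hℓ
      refine ⟨?_, redE M L e, mem_image_of_mem _ he, mem_image_of_mem _ heℓ⟩
      rw [← orb_image hM hL h1 heℓ]
      exact orb_mem_orbs _
  have hinj : ∀ ℓ ∈ LE ω E, ∀ ℓ' ∈ LE ω E, ℓ.image (redE M L) = ℓ'.image (redE M L) → ℓ = ℓ' := by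
    intro ℓ hℓ ℓ' hℓ' h
    obtain ⟨h1, e, _, heℓ⟩ := mem_LE.1 hℓ
    obtain ⟨h1', _⟩ := mem_LE.1 hℓ'
    have : redE M L e ∈ ℓ'.image (redE M L) := h ▸ mem_image_of_mem _ heℓ
    obtain ⟨e', he', hee'⟩ := mem_image.1 this
    have := redE_inj hMK hLK (bs_mem (LE_box hG hℓ') he') (bs_mem (LE_box hG hℓ) heℓ) hee'
    rw [this] at he'
    exact loop_unique h1 h1' heℓ he'
  have hprod : ∀ c : Edge (ZMod M × ZMod L) → ℝ, Pr gT c ρ
      = (∏ ℓ ∈ LE ω E, fac gT c ρ (ℓ.image (redE M L))) *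
        ∏ O ∈ (orbs (gT.nxP ρ)).filter (fun O => ¬ ∃ x ∈ E.image (redE M L), x ∈ O),
          fac gT c ρ O := by
    intro c
    unfold Pr
    rw [← prod_filter_mul_prod_filter_not (orbs (gT.nxP ρ))
      (fun O => ∃ x ∈ E.image (redE M L), x ∈ O), himg, prod_image]
    intro ℓ hℓ ℓ' hℓ' h
    exact hinj ℓ hℓ ℓ' hℓ' h
  rw [hprod, hprod, X_eq hj ht ω ha hfin]
  have e1 : ∏ ℓ ∈ LE ω E, fac gT (pa M L E a) ρ (ℓ.image (redE M L))
      = ∏ ℓ ∈ LE ω E, wf (G (fs a) ℓ) := by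
    refine prod_congr rfl fun ℓ hℓ => ?_
    rw [hfac ℓ hℓ a _ fun e he => hpa e (bs_mem (LE_box hG hℓ) he)]
    exact fac_plane hj ht (mem_LE.1 hℓ).1 ha hfin
  have e2 : ∏ ℓ ∈ LE ω E, fac gT 0 ρ (ℓ.image (redE M L)) = 1 := by
    refine prod_eq_one fun ℓ hℓ => ?_
    rw [hfac ℓ hℓ 0 _ fun e he => rfl]
    exact fac_plane_zero ht (mem_LE.1 hℓ).1
  have e3 : ∏ O ∈ (orbs (gT.nxP ρ)).filter (fun O => ¬ ∃ x ∈ E.image (redE M L), x ∈ O),
      fac gT (pa M L E a) ρ O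
      = ∏ O ∈ (orbs (gT.nxP ρ)).filter (fun O => ¬ ∃ x ∈ E.image (redE M L), x ∈ O),
      fac gT 0 ρ O := by
    refine prod_congr rfl fun O hO => ?_
    apply fac_of_off
    intro x hx
    unfold pa
    refine sum_eq_zero fun e he => ?_
    rw [mem_filter] at he
    exact absurd ⟨x, mem_image.2 ⟨e, he.1, he.2⟩, hx⟩ (mem_filter.1 hO).2
  rw [e1, e2, e3]
  ring

end torus

end Vale.Agent.P167.H685
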