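import Mathlib

/-!
Block B of the P167 percolation theorem: a translation invariant weight on configurations of a
large torus, whose density with respect to fair coin flips is bounded above by `e^{o(area)}`
and has total mass at least `e^{-o(area)}`, looks locally like fair coin flips.
-/

namespace Vale.Agent.P167.H685

open Finset

section avg

variable {V : Type*} [Fintype V] [DecidableEq V]

/-- Average of a function of the fair coin flips `V → Bool`. -/
noncomputable def avg (F : (V → Bool) → ℝ) : ℝ := (∑ ω, F ω) / (Fintype.card (V → Bool) : ℝ)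

/-- `F` depends only on the coordinates in `S`. -/
def Dep {V β : Type*} (F : (V → Bool) → β) (S : Set V) : Prop :=
  ∀ ω ω' : V → Bool, (∀ v ∈ S, ω v = ω' v) → F ω = F ω'

lemma Dep.mono {V β : Type*} {F : (V → Bool) → β} {S T : Set V} (h : Dep F S) (hST : S ⊆ T) :
    Dep F T := fun ω ω' hh => h ω ω' fun v hv => hh v (hST hv)

lemma card_pos' : (0 : ℝ) < (Fintype.card (V → Bool) : ℝ) := by
  exact_mod_cast Fintype.card_pos

lemma avg_const (c : ℝ) : avg (fun _ : V → Bool => c) = c := by
  unfold avg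
  rw [sum_const, card_univ, nsmul_eq_mul, mul_comm, mul_div_assoc, div_self card_pos'.ne', mul_one]

lemma avg_add (F G : (V → Bool) → ℝ) : avg (fun ω => F ω + G ω) = avg F + avg G := by
  unfold avg
  rw [sum_add_distrib, add_div]

lemma avg_mono {F G : (V → Bool) → ℝ} (h : ∀ ω, F ω ≤ G ω) : avg F ≤ avg G := by
  unfold avg
  exact div_le_div_of_nonneg_right (sum_le_sum fun ω _ => h ω) card_pos'.le

open Classical in
/-- `ω` on `S`, `ω'` off `S`. -/
noncomputable def merge (S : Set V) (ω ω' : V → Bool) : V → Bool :=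
  fun v => if v ∈ S then ω v else ω' v

lemma avg_mul {F G : (V → Bool) → ℝ} {S T : Set V} (hF : Dep F S) (hG : Dep G T)
    (hST : Disjoint S T) : avg (fun ω => F ω * G ω) = avg F * avg G := by
  classical
  have inv : Function.Involutive
      (fun p : (V → Bool) × (V → Bool) => (merge S p.1 p.2, merge S p.2 p.1)) := by
    rintro ⟨a, b⟩
    ext v <;> simp only [merge] <;> by_cases hv : v ∈ S <;> simp [hv]
  have key : (∑ p : (V → Bool) × (V → Bool), F p.1 * G p.2)
      = ∑ p : (V → Bool) × (V → Bool), F p.1 * G p.1 := by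
    rw [← Equiv.sum_comp inv.toPerm (fun p : (V → Bool) × (V → Bool) => F p.1 * G p.1)]
    refine sum_congr rfl fun p _ => ?_
    show F p.1 * G p.2 = F (merge S p.1 p.2) * G (merge S p.1 p.2)
    congr 1
    · exact hF _ _ fun v hv => by simp [merge, hv]
    · exact hG _ _ fun v hv => by
        have : v ∉ S := fun h => Set.disjoint_left.1 hST h hv
        simp [merge, this]
  have e1 : (∑ p : (V → Bool) × (V → Bool), F p.1 * G p.2) = (∑ ω, F ω) * ∑ ω, G ω := by
    rw [Fintype.sum_prod_type, sum_mul_sum]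
  have e2 : (∑ p : (V → Bool) × (V → Bool), F p.1 * G p.1)
      = (∑ ω, F ω * G ω) * (Fintype.card (V → Bool) : ℝ) := by
    rw [Fintype.sum_prod_type, sum_mul]
    refine sum_congr rfl fun ω _ => ?_
    show ∑ y : V → Bool, F ω * G ω = _
    rw [sum_const, card_univ, nsmul_eq_mul]
    ring
  unfold avg
  rw [div_mul_div_comm, ← e1, key, e2]
  rw [mul_div_mul_right _ _ card_pos'.ne']

lemma avg_prod {ι : Type*} (J : Finset ι) (F : ι → (V → Bool) → ℝ) (S : ι → Set V)
    (hF : ∀ j ∈ J, Dep (F j) (S j))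
    (hd : ∀ i ∈ J, ∀ j ∈ J, i ≠ j → Disjoint (S i) (S j)) :
    avg (fun ω => ∏ j ∈ J, F j ω) = ∏ j ∈ J, avg (F j) := by
  classical
  induction J using Finset.induction_on with
  | empty => simp [avg_const]
  | insert i J hi ih =>
    rw [prod_insert hi]
    rw [← ih (fun j hj => hF j (mem_insert_of_mem hj))
      (fun a ha b hb => hd a (mem_insert_of_mem ha) b (mem_insert_of_mem hb))]
    rw [← avg_mul (S := S i) (T := ⋃ j ∈ J, S j) (hF i (mem_insert_self _ _))]
    · congr 1
      ext ω
      rw [prod_insert hi]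
    · intro ω ω' h
      refine prod_congr rfl fun j hj => hF j (mem_insert_of_mem hj) _ _ fun v hv => h v ?_
      simp only [Set.mem_iUnion]
      exact ⟨j, hj, hv⟩
    · rw [Set.disjoint_iUnion₂_right]
      intro j hj
      exact hd i (mem_insert_self _ _) j (mem_insert_of_mem hj) (fun h => hi (h ▸ hj))

lemma avg_exp_le {F : (V → Bool) → ℝ} (h1 : ∀ ω, |F ω| ≤ 1) (h0 : avg F = 0) {t : ℝ}
    (ht : |t| ≤ 1) : avg (fun ω => Real.exp (t * F ω)) ≤ Real.exp (t ^ 2) := by
  have hb : ∀ ω, Real.exp (t * F ω) ≤ (1 + t * F ω) + t ^ 2 := by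
    intro ω
    have hx : |t * F ω| ≤ 1 := by
      rw [abs_mul]
      calc |t| * |F ω| ≤ 1 * 1 := mul_le_mul ht (h1 ω) (abs_nonneg _) zero_le_one
        _ = 1 := one_mul 1
    have := Real.abs_exp_sub_one_sub_id_le hx
    have h2 : (t * F ω) ^ 2 ≤ t ^ 2 := by
      rw [mul_pow]
      have : F ω ^ 2 ≤ 1 := by
        rw [← sq_abs]; exact pow_le_one₀ (abs_nonneg _) (h1 ω)
      nlinarith [sq_nonneg t]
    have := abs_le.1 this
    linarith [this.2]
  calc avg (fun ω => Real.exp (t * F ω)) ≤ avg (fun ω => (1 + t * F ω) + t ^ 2) := avg_mono hb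
    _ = 1 + t ^ 2 := by
        rw [avg_add, avg_add, avg_const, avg_const]
        have : avg (fun ω => t * F ω) = t * avg F := by
          unfold avg
          rw [← mul_sum, mul_div_assoc]
        rw [this, h0]; ring
    _ ≤ Real.exp (t ^ 2) := by linarith [Real.add_one_le_exp (t ^ 2)]

end avg

section group

variable {V : Type*} [Fintype V] [DecidableEq V] [AddCommGroup V]

/-- The translate of a configuration. -/
def shift (a : V) (ω : V → Bool) : V → Bool := fun v => ω (v + a)

lemma sum_shift (a : V) (G : (V → Bool) → ℝ) : ∑ ω, G (shift a ω) = ∑ ω, G ω := by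
  let e : (V → Bool) ≃ (V → Bool) :=
    ⟨shift a, shift (-a), fun ω => by funext v; simp [shift], fun ω => by funext v; simp [shift]⟩
  exact Equiv.sum_comp e G

/-- Main finite estimate, one sided. -/
lemma weighted_le {W F : (V → Bool) → ℝ} {S : Set V} {A : Finset V} {B z t : ℝ}
    (hW0 : ∀ ω, 0 ≤ W ω) (hWB : ∀ ω, W ω ≤ B) (hinv : ∀ a ∈ A, ∀ ω, W (shift a ω) = W ω)
    (hz : 0 < z) (hZ : z * (Fintype.card (V → Bool) : ℝ) ≤ ∑ ω, W ω)
    (hF : Dep F S) (h1 : ∀ ω, |F ω| ≤ 1) (h0 : avg F = 0)
    (hA : A.Nonempty)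
    (hd : ∀ a ∈ A, ∀ b ∈ A, a ≠ b → Disjoint ((· + a) '' S) ((· + b) '' S))
    (ht0 : 0 < t) (ht1 : t ≤ 1) :
    (∑ ω, W ω * F ω) / (∑ ω, W ω) ≤ Real.log (B / z) / (t * A.card) + t := by
  classical
  set Z := ∑ ω, W ω with hZdef
  have hcard : (0 : ℝ) < (Fintype.card (V → Bool) : ℝ) := card_pos'
  have hZpos : 0 < Z := lt_of_lt_of_le (mul_pos hz hcard) hZ
  set m := (∑ ω, W ω * F ω) / Z with hm
  -- the sum of the translates
  let Y : (V → Bool) → ℝ := fun ω => t * ∑ a ∈ A, F (shift a ω)
  have hYmean : ∑ ω, W ω * Y ω = (t * A.card * m) * Z := by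
    have : ∀ a ∈ A, ∑ ω, W ω * F (shift a ω) = m * Z := by
      intro a ha
      have : ∑ ω, W ω * F (shift a ω) = ∑ ω, W (shift a ω) * F (shift a ω) :=
        sum_congr rfl fun ω _ => by rw [hinv a ha ω]
      rw [this, sum_shift a (fun ω => W ω * F ω), hm, div_mul_cancel₀ _ hZpos.ne']
    calc ∑ ω, W ω * Y ω = t * ∑ a ∈ A, ∑ ω, W ω * F (shift a ω) := by
          rw [sum_comm, mul_sum]
          refine sum_congr rfl fun ω _ => ?_
          simp only [Y, mul_sum]
          refine sum_congr rfl fun a _ => ?_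
          ring
      _ = t * ∑ a ∈ A, m * Z := by rw [sum_congr rfl this]
      _ = _ := by rw [sum_const, nsmul_eq_mul]; ring
  -- Jensen
  have hJ : Real.exp (t * A.card * m) * Z ≤ ∑ ω, W ω * Real.exp (Y ω) := by
    have h : ∀ ω, W ω * (Real.exp (t * A.card * m) * (1 + Y ω - t * A.card * m))
        ≤ W ω * Real.exp (Y ω) := by
      intro ω
      refine mul_le_mul_of_nonneg_left ?_ (hW0 ω)
      have := Real.add_one_le_exp (Y ω - t * A.card * m)
      calc Real.exp (t * A.card * m) * (1 + Y ω - t * A.card * m)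
          ≤ Real.exp (t * A.card * m) * Real.exp (Y ω - t * A.card * m) :=
            mul_le_mul_of_nonneg_left (by linarith) (Real.exp_pos _).le
        _ = Real.exp (Y ω) := by rw [← Real.exp_add]; ring_nf
    calc Real.exp (t * A.card * m) * Z
        = ∑ ω, W ω * (Real.exp (t * A.card * m) * (1 + Y ω - t * A.card * m)) := by
          have : ∀ ω, W ω * (Real.exp (t * A.card * m) * (1 + Y ω - t * A.card * m))
              = (Real.exp (t * A.card * m) * (1 - t * A.card * m)) * W ω
                + Real.exp (t * A.card * m) * (W ω * Y ω) := fun ω => by ring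
          rw [sum_congr rfl fun ω _ => this ω, sum_add_distrib, ← mul_sum, ← mul_sum, hYmean]
          ring
      _ ≤ _ := sum_le_sum fun ω _ => h ω
  -- product bound
  have hP : avg (fun ω => Real.exp (Y ω)) ≤ Real.exp (A.card * t ^ 2) := by
    have e : (fun ω => Real.exp (Y ω))
        = fun ω => ∏ a ∈ A, Real.exp (t * F (shift a ω)) := by
      funext ω
      rw [← Real.exp_sum, ← mul_sum]
    rw [e, avg_prod A (fun a ω => Real.exp (t * F (shift a ω))) (fun a => (· + a) '' S) ?_ hd]
    · calc ∏ a ∈ A, avg (fun ω => Real.exp (t * F (shift a ω)))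
          ≤ ∏ a ∈ A, Real.exp (t ^ 2) := by
            refine prod_le_prod (fun a _ => ?_) (fun a _ => ?_)
            · exact div_nonneg (sum_nonneg fun _ _ => (Real.exp_pos _).le) hcard.le
            · have : avg (fun ω => Real.exp (t * F (shift a ω)))
                  = avg (fun ω => Real.exp (t * F ω)) := by
                unfold avg
                rw [sum_shift a (fun ω => Real.exp (t * F ω))]
              rw [this]
              exact avg_exp_le h1 h0 (by rw [abs_of_pos ht0]; exact ht1)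
        _ = Real.exp (A.card * t ^ 2) := by
            rw [prod_const, ← Real.exp_nat_mul]
    · intro a _ ω ω' h
      have : F (shift a ω) = F (shift a ω') := by
        refine hF _ _ fun v hv => ?_
        exact h (v + a) ⟨v, hv, rfl⟩
      simp only [this]
  have hsum : ∑ ω, W ω * Real.exp (Y ω)
      ≤ B * ((Fintype.card (V → Bool) : ℝ) * Real.exp (A.card * t ^ 2)) := by
    calc ∑ ω, W ω * Real.exp (Y ω) ≤ ∑ ω, B * Real.exp (Y ω) :=
          sum_le_sum fun ω _ => mul_le_mul_of_nonneg_right (hWB ω) (Real.exp_pos _).le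
      _ = B * ((Fintype.card (V → Bool) : ℝ) * avg (fun ω => Real.exp (Y ω))) := by
          rw [← mul_sum]
          unfold avg
          rw [mul_div_cancel₀ _ hcard.ne']
      _ ≤ _ := by
          have hB : 0 ≤ B := le_trans (hW0 (fun _ => true)) (hWB _)
          gcongr
  have hBpos : 0 < B := by
    by_contra hB
    have : Z ≤ 0 := by
      rw [hZdef]
      exact sum_nonpos fun ω _ => le_trans (hWB ω) (not_lt.1 hB)
    linarith
  have hfin : Real.exp (t * A.card * m) ≤ B / z * Real.exp (A.card * t ^ 2) := by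
    have h3 : Real.exp (t * A.card * m) * (z * (Fintype.card (V → Bool) : ℝ))
        ≤ B * ((Fintype.card (V → Bool) : ℝ) * Real.exp (A.card * t ^ 2)) :=
      (mul_le_mul_of_nonneg_left hZ (Real.exp_pos _).le).trans (hJ.trans hsum)
    have h4 : Real.exp (t * A.card * m) * z ≤ B * Real.exp (A.card * t ^ 2) := by
      have := h3
      rw [← mul_assoc, mul_comm (Fintype.card (V → Bool) : ℝ) (Real.exp (A.card * t ^ 2)),
        ← mul_assoc] at this
      exact le_of_mul_le_mul_right this hcard
    rw [div_mul_eq_mul_div, le_div_iff₀ hz]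
    exact h4
  have hlog : t * A.card * m ≤ Real.log (B / z) + A.card * t ^ 2 := by
    have hBz : 0 < B / z := div_pos hBpos hz
    rw [← Real.exp_log hBz, ← Real.exp_add, Real.exp_le_exp] at hfin
    exact hfin
  have hAc : (0 : ℝ) < A.card := by exact_mod_cast hA.card_pos
  have htA : 0 < t * A.card := mul_pos ht0 hAc
  rw [div_add' _ _ _ htA.ne', le_div_iff₀ htA]
  calc m * (t * A.card) = t * A.card * m := by ring
    _ ≤ _ := hlog
    _ = _ := by ring

/-- Main finite estimate, two sided. -/
lemma weighted_abs_le {W F : (V → Bool) → ℝ} {S : Set V} {A : Finset V} {B z t : ℝ}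
    (hW0 : ∀ ω, 0 ≤ W ω) (hWB : ∀ ω, W ω ≤ B) (hinv : ∀ a ∈ A, ∀ ω, W (shift a ω) = W ω)
    (hz : 0 < z) (hZ : z * (Fintype.card (V → Bool) : ℝ) ≤ ∑ ω, W ω)
    (hF : Dep F S) (h1 : ∀ ω, |F ω| ≤ 1)
    (hA : A.Nonempty)
    (hd : ∀ a ∈ A, ∀ b ∈ A, a ≠ b → Disjoint ((· + a) '' S) ((· + b) '' S))
    (ht0 : 0 < t) (ht1 : t ≤ 1) :
    |(∑ ω, W ω * F ω) / (∑ ω, W ω) - avg F| ≤ 2 * (Real.log (B / z) / (t * A.card) + t) := by
  classical
  have hcard : (0 : ℝ) < (Fintype.card (V → Bool) : ℝ) := card_pos'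
  have hZpos : 0 < ∑ ω, W ω := lt_of_lt_of_le (mul_pos hz hcard) hZ
  have havg : |avg F| ≤ 1 := by
    rw [abs_le]
    constructor
    · rw [← avg_const (V := V) (-1)]
      exact avg_mono fun ω => (abs_le.1 (h1 ω)).1
    · rw [← avg_const (V := V) 1]
      exact avg_mono fun ω => (abs_le.1 (h1 ω)).2
  have main : ∀ s : ℝ, |s| = 1 →
      s * ((∑ ω, W ω * F ω) / (∑ ω, W ω) - avg F)
        ≤ 2 * (Real.log (B / z) / (t * A.card) + t) := by
    intro s hs
    have := weighted_le (W := W) (F := fun ω => s * (F ω - avg F) / 2) (S := S) (A := A)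
      (B := B) (z := z) (t := t) hW0 hWB hinv hz hZ
      (fun ω ω' h => by simp only [hF ω ω' h])
      (fun ω => by
        rw [abs_div, abs_mul, hs, one_mul, abs_two]
        have : |F ω - avg F| ≤ 1 + 1 := (abs_sub _ _).trans (add_le_add (h1 ω) havg)
        linarith)
      (by
        unfold avg
        rw [← sum_div, ← mul_sum, sum_sub_distrib, sum_const, card_univ, nsmul_eq_mul]
        field_simp
        ring)
      hA hd ht0 ht1
    have e : (∑ ω, W ω * (s * (F ω - avg F) / 2)) / (∑ ω, W ω)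
        = s * ((∑ ω, W ω * F ω) / (∑ ω, W ω) - avg F) / 2 := by
      have : ∀ ω, W ω * (s * (F ω - avg F) / 2)
          = s / 2 * (W ω * F ω) - s / 2 * avg F * W ω := fun ω => by ring
      rw [sum_congr rfl fun ω _ => this ω, sum_sub_distrib, ← mul_sum, ← mul_sum]
      field_simp
    rw [e] at this
    linarith
  rw [abs_le]
  constructor
  · have := main (-1) (by simp)
    linarith
  · have := main 1 (by simp)
    linarith

end group

end Vale.Agent.P167.H685
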