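import Vale.Agent.P167.FKA.Basic
import Vale.Agent.P167.H259.FKDone
import Vale.Agent.P167.H685.LocalLimit

/-!
General `q`: exponential bounds for products of local functions in disjoint sub-domains, and the
entropy estimate for a translation invariant weight comparable to a base weight.
-/

namespace Vale.Agent.P167.H685

open Finset
open Vale.Agent.P167.FK Vale.Agent.P167.FKA

/-- Products of local functions in disjoint sub-domains, uniformly in the boundary condition. -/
theorem cher {Q : ℝ} (hQ : 0 < Q) {ι : Type*} (A : Finset ι) {D : Finset (ℤ × ℤ)}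
    {Dm : ι → Finset (ℤ × ℤ)} {g : ι → Cfg → ℝ} {c : ι → ℝ}
    (hsub : ∀ a ∈ A, Dm a ⊆ D) (hdis : ∀ a ∈ A, ∀ b ∈ A, a ≠ b → Disjoint (Dm a) (Dm b))
    (hloc : ∀ a ∈ A, FKA.Loc (Dm a) (g a)) (hg0 : ∀ a ∈ A, ∀ ω, 0 ≤ g a ω)
    (hc : ∀ a ∈ A, ∀ η, Good η → Ex Q (Dm a) η (g a) ≤ c a) {η : Cfg} (hη : Good η) :
    Ex Q D η (fun ω => ∏ a ∈ A, g a ω) ≤ ∏ a ∈ A, c a := by
  classical
  induction A using Finset.induction_on with
  | empty => simp [Ex_const hQ]
  | insert i A hi ih =>
    have hc0 : 0 ≤ c i := (Ex_nonneg hQ fun S _ => hg0 i (mem_insert_self _ _) _).trans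
      (hc i (mem_insert_self _ _) _ FK.f_good.2.1)
    have e : (fun ω => ∏ a ∈ insert i A, g a ω) = fun ω => (∏ a ∈ A, g a ω) * g i ω := by
      funext ω
      rw [prod_insert hi, mul_comm]
    rw [e, prod_insert hi]
    have h1 := markov_le (F := g i) (G := fun ω => ∏ a ∈ A, g a ω) (a := c i) H259.f_markov
      FK.f_good hQ (hsub i (mem_insert_self _ _)) hη ?_ ?_ (hc i (mem_insert_self _ _))
    · refine h1.trans (mul_le_mul_of_nonneg_left ?_ hc0)
      exact ih (fun a ha => hsub a (mem_insert_of_mem ha))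
        (fun a ha b hb => hdis a (mem_insert_of_mem ha) b (mem_insert_of_mem hb))
        (fun a ha => hloc a (mem_insert_of_mem ha)) (fun a ha => hg0 a (mem_insert_of_mem ha))
        (fun a ha => hc a (mem_insert_of_mem ha))
    · intro ω ω' h
      refine prod_congr rfl fun a ha => hloc a (mem_insert_of_mem ha) _ _ fun v hv => h v ?_
      intro hv'
      exact disjoint_left.1 (hdis a (mem_insert_of_mem ha) i (mem_insert_self _ _)
        (fun h => hi (h ▸ ha))) hv hv'
    · intro ω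
      exact prod_nonneg fun a ha => hg0 a (mem_insert_of_mem ha) ω

/-- Exponential moment of a bounded local function, uniformly in the boundary condition. -/
theorem exp_le {Q : ℝ} (hQ : 0 < Q) {D : Finset (ℤ × ℤ)} {F : Cfg → ℝ} {η : Cfg}
    (h1 : ∀ ω, |F ω| ≤ 1) {m t : ℝ} (ht : |t| ≤ 1) (hm : t * Ex Q D η F ≤ t * m) :
    Ex Q D η (fun ω => Real.exp (t * F ω)) ≤ Real.exp (t * m + t ^ 2) := by
  have hb : ∀ ω, Real.exp (t * F ω) ≤ (1 + t ^ 2) + t * F ω := by
    intro ω
    have hx : |t * F ω| ≤ 1 := by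
      rw [abs_mul]
      calc |t| * |F ω| ≤ 1 * 1 := mul_le_mul ht (h1 ω) (abs_nonneg _) zero_le_one
        _ = 1 := one_mul 1
    have := Real.abs_exp_sub_one_sub_id_le hx
    have h2 : (t * F ω) ^ 2 ≤ t ^ 2 := by
      rw [mul_pow]
      have : F ω ^ 2 ≤ 1 := by
        rw [← sq_abs]; exact pow_le_one₀ (abs_nonneg _) (h1 ω)
      nlinarith [sq_nonneg t]
    have := abs_le.1 this
    linarith [this.2]
  calc Ex Q D η (fun ω => Real.exp (t * F ω))
      ≤ Ex Q D η (fun ω => (1 + t ^ 2) + t * F ω) := Ex_mono hQ fun S _ => hb _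
    _ = (1 + t ^ 2) + t * Ex Q D η F := by
        rw [Ex_add, Ex_const hQ, Ex_mul_left]
    _ ≤ (t * m + t ^ 2) + 1 := by linarith
    _ ≤ Real.exp (t * m + t ^ 2) := Real.add_one_le_exp _

section group

variable {V : Type*} [Fintype V] [DecidableEq V] [AddCommGroup V]

/-- Entropy estimate: `W` is invariant under the translations by `A`, `W ≤ B W₀`,
`z ∑ W₀ ≤ ∑ W` and the exponential moment of the sum of the translates is bounded. -/
lemma weighted_le2 {W W₀ F : (V → Bool) → ℝ} {A : Finset V} {B z t s : ℝ}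
    (hW0 : ∀ ω, 0 ≤ W ω) (hWB : ∀ ω, W ω ≤ B * W₀ ω) (hinv : ∀ a ∈ A, ∀ ω, W (shift a ω) = W ω)
    (hz : 0 < z) (hB : 0 < B) (hZ0 : 0 < ∑ ω, W₀ ω) (hZ : z * ∑ ω, W₀ ω ≤ ∑ ω, W ω)
    (hA : A.Nonempty) (ht0 : 0 < t)
    (hexp : ∑ ω, W₀ ω * Real.exp (t * ∑ a ∈ A, F (shift a ω)) ≤
      Real.exp (s * A.card) * ∑ ω, W₀ ω) :
    (∑ ω, W ω * F ω) / (∑ ω, W ω) ≤ (Real.log (B / z) / A.card + s) / t := by
  classical
  set Z := ∑ ω, W ω with hZdef
  set Z₀ := ∑ ω, W₀ ω with hZ0def
  have hZpos : 0 < Z := lt_of_lt_of_le (mul_pos hz hZ0) hZ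
  set m := (∑ ω, W ω * F ω) / Z with hm
  let Y : (V → Bool) → ℝ := fun ω => t * ∑ a ∈ A, F (shift a ω)
  have hYmean : ∑ ω, W ω * Y ω = (t * A.card * m) * Z := by
    have : ∀ a ∈ A, ∑ ω, W ω * F (shift a ω) = m * Z := by
      intro a ha
      have : ∑ ω, W ω * F (shift a ω) = ∑ ω, W (shift a ω) * F (shift a ω) :=
        sum_congr rfl fun ω _ => by rw [hinv a ha ω]
      rw [this, sum_shift a (fun ω => W ω * F ω), hm, div_mul_cancel₀ _ hZpos.ne']
    calc ∑ ω, W ω * Y ω = t * ∑ a ∈ A, ∑ ω, W ω * F (shift a ω) := by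
          rw [sum_comm, mul_sum]
          refine sum_congr rfl fun ω _ => ?_
          simp only [Y, mul_sum]
          refine sum_congr rfl fun a _ => ?_
          ring
      _ = t * ∑ a ∈ A, m * Z := by rw [sum_congr rfl this]
      _ = _ := by rw [sum_const, nsmul_eq_mul]; ring
  have hJ : Real.exp (t * A.card * m) * Z ≤ ∑ ω, W ω * Real.exp (Y ω) := by
    have h : ∀ ω, W ω * (Real.exp (t * A.card * m) * (1 + Y ω - t * A.card * m))
        ≤ W ω * Real.exp (Y ω) := by
      intro ω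
      refine mul_le_mul_of_nonneg_left ?_ (hW0 ω)
      have := Real.add_one_le_exp (Y ω - t * A.card * m)
      calc Real.exp (t * A.card * m) * (1 + Y ω - t * A.card * m)
          ≤ Real.exp (t * A.card * m) * Real.exp (Y ω - t * A.card * m) :=
            mul_le_mul_of_nonneg_left (by linarith) (Real.exp_pos _).le
        _ = Real.exp (Y ω) := by rw [← Real.exp_add]; ring_nf
    calc Real.exp (t * A.card * m) * Z
        = ∑ ω, W ω * (Real.exp (t * A.card * m) * (1 + Y ω - t * A.card * m)) := by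
          have : ∀ ω, W ω * (Real.exp (t * A.card * m) * (1 + Y ω - t * A.card * m))
              = (Real.exp (t * A.card * m) * (1 - t * A.card * m)) * W ω
                + Real.exp (t * A.card * m) * (W ω * Y ω) := fun ω => by ring
          rw [sum_congr rfl fun ω _ => this ω, sum_add_distrib, ← mul_sum, ← mul_sum, hYmean]
          ring
      _ ≤ _ := sum_le_sum fun ω _ => h ω
  have hsum : ∑ ω, W ω * Real.exp (Y ω) ≤ B * (Real.exp (s * A.card) * Z₀) := by
    calc ∑ ω, W ω * Real.exp (Y ω) ≤ ∑ ω, B * (W₀ ω * Real.exp (Y ω)) :=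
          sum_le_sum fun ω _ => by
            rw [← mul_assoc]
            exact mul_le_mul_of_nonneg_right (hWB ω) (Real.exp_pos _).le
      _ = B * ∑ ω, W₀ ω * Real.exp (Y ω) := by rw [← mul_sum]
      _ ≤ _ := mul_le_mul_of_nonneg_left hexp hB.le
  have hfin : Real.exp (t * A.card * m) ≤ B / z * Real.exp (s * A.card) := by
    have h3 : Real.exp (t * A.card * m) * (z * Z₀) ≤ B * (Real.exp (s * A.card) * Z₀) :=
      (mul_le_mul_of_nonneg_left hZ (Real.exp_pos _).le).trans (hJ.trans hsum)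
    have h4 : Real.exp (t * A.card * m) * z ≤ B * Real.exp (s * A.card) := by
      have := h3
      rw [← mul_assoc, ← mul_assoc] at this
      exact le_of_mul_le_mul_right this hZ0
    rw [div_mul_eq_mul_div, le_div_iff₀ hz]
    exact h4
  have hlog : t * A.card * m ≤ Real.log (B / z) + s * A.card := by
    have hBz : 0 < B / z := div_pos hB hz
    rw [← Real.exp_log hBz, ← Real.exp_add, Real.exp_le_exp] at hfin
    exact hfin
  have hAc : (0 : ℝ) < A.card := by exact_mod_cast hA.card_pos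
  rw [div_add' _ _ _ hAc.ne', div_div, le_div_iff₀ (mul_pos hAc ht0)]
  calc m * (A.card * t) = t * A.card * m := by ring
    _ ≤ _ := hlog

end group

end Vale.Agent.P167.H685
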