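import Vale.Agent.P167.H685.GTor
import Vale.Agent.P167.H685.GCher
import Vale.Agent.P167.FK.Sym

/-!
General `q`: the local limit of the torus measures is the infinite-volume random-cluster measure.
-/

set_option linter.unusedSectionVars false

namespace Vale.Agent.P167.H685

open Finset Filter Topology MeasureTheory
open Vale.Agent.P167.A (Grid plane torus red redE)
open Vale.Agent.P152 (Edge Ori vw wt)
open Vale.Agent.P167.K8 (Wa wT ET K_flip)
open Vale.Agent.P167.FK (cf eta0 LD Good Ex Bq Zq)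

/-- `P` is the infinite-volume limit, uniformly in the boundary condition. -/
def Lim (Q : ℝ) (P : Measure Cfg) : Prop := ∀ (B : Finset (ℤ × ℤ)) (F : Cfg → ℝ), FKA.Loc B F →
  ∀ ε > 0, ∃ R : ℤ, ∀ (D : Finset (ℤ × ℤ)) (η : Cfg), Bq 0 R ⊆ D → Good η →
    |Ex Q D η F - ∫ ω, F ω ∂P| ≤ ε

section torus

variable {M L : ℕ} [NeZero M] [NeZero L]

open Classical in
/-- Closing the squares of `T`. -/
lemma wT_close (hflip : K_flip) {θ : ℝ} (h0 : 0 ≤ θ) (h1 : θ ≤ Real.pi / 3)
    (T : Finset (ZMod M × ZMod L)) (ρ : ZMod M × ZMod L → Bool) :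
    wT θ M L (fun x => if x ∈ T then false else ρ x) ≤ 4 ^ T.card * wT θ M L ρ ∧
    wT θ M L ρ ≤ 4 ^ T.card * wT θ M L (fun x => if x ∈ T then false else ρ x) := by
  classical
  induction T using Finset.induction_on with
  | empty => simp
  | insert a T ha ih =>
    have e1 : (fun x => if x ∈ insert a T then false else ρ x)
        = Function.update (fun x => if x ∈ T then false else ρ x) a false := by
      funext x
      by_cases hx : x = a
      · subst hx; simp
      · simp [hx]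
    have e2 : (fun x => if x ∈ T then false else ρ x)
        = Function.update (fun x => if x ∈ insert a T then false else ρ x) a (ρ a) := by
      funext x
      by_cases hx : x = a
      · subst hx; simp [ha]
      · simp [hx]
    rw [card_insert_of_notMem ha, pow_succ]
    constructor
    · rw [e1]
      refine (hflip θ h0 h1 M L _ a false).trans ?_
      calc 4 * wT θ M L (fun x => if x ∈ T then false else ρ x)
          ≤ 4 * (4 ^ T.card * wT θ M L ρ) := mul_le_mul_of_nonneg_left ih.1 (by norm_num)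
        _ = _ := by ring
    · refine ih.2.trans ?_
      have h2 := hflip θ h0 h1 M L (fun x => if x ∈ insert a T then false else ρ x) a (ρ a)
      rw [← e2] at h2
      calc 4 ^ T.card * wT θ M L (fun x => if x ∈ T then false else ρ x)
          ≤ 4 ^ T.card * (4 * wT θ M L (fun x => if x ∈ insert a T then false else ρ x)) :=
            mul_le_mul_of_nonneg_left h2 (by positivity)
        _ = _ := by ring

/-- The open squares away from the frame. -/
noncomputable def Sr (ρ : ZMod M × ZMod L → Bool) : Finset (ℤ × ℤ) :=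
  (Dd M L).filter fun v => ρ (red M L v) = true

lemma Sr_sub (ρ : ZMod M × ZMod L → Bool) : Sr ρ ⊆ Dd M L := filter_subset _ _

lemma mem_Sr {ρ : ZMod M × ZMod L → Bool} {v : ℤ × ℤ} :
    v ∈ Sr ρ ↔ v ∈ Dd M L ∧ ρ (red M L v) = true := mem_filter

open Classical in
/-- The frame. -/
noncomputable def Fr (M L : ℕ) [NeZero M] [NeZero L] : Finset (ZMod M × ZMod L) :=
  univ \ (Dd M L).image (red M L)

lemma red_injOn : Set.InjOn (red M L) (Dd M L) := by
  intro v hv w hw h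
  rw [mem_coe, mem_Dd] at hv hw
  simp only [red, Prod.mk.injEq] at h
  exact Prod.ext (eq_of_cast h.1 (by rw [abs_lt]; omega)) (eq_of_cast h.2 (by rw [abs_lt]; omega))

lemma card_Dd (M L : ℕ) [NeZero M] [NeZero L] : (Dd M L).card = (M - 1) * (L - 1) := by
  have hM0 : 0 < M := Nat.pos_of_ne_zero (NeZero.ne M)
  have hL0 : 0 < L := Nat.pos_of_ne_zero (NeZero.ne L)
  unfold Dd
  rw [card_product, Int.card_Ico, Int.card_Ico]
  congr 1 <;> omega

lemma card_Fr_le : (Fr M L).card ≤ M + L := by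
  classical
  unfold Fr
  have hM0 : 0 < M := Nat.pos_of_ne_zero (NeZero.ne M)
  have hL0 : 0 < L := Nat.pos_of_ne_zero (NeZero.ne L)
  rw [card_sdiff_of_subset (subset_univ _), card_image_of_injOn red_injOn, card_Dd, card_univ,
    Fintype.card_prod, ZMod.card, ZMod.card]
  obtain ⟨m, rfl⟩ : ∃ m, M = m + 1 := ⟨M - 1, by omega⟩
  obtain ⟨l, rfl⟩ : ∃ l, L = l + 1 := ⟨L - 1, by omega⟩
  simp only [Nat.add_sub_cancel]
  have : (m + 1) * (l + 1) = m * l + (m + l + 1) := by ring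
  omega

open Classical in
lemma rS_Sr (ρ : ZMod M × ZMod L → Bool) :
    rS M L (Sr ρ) = fun x => if x ∈ Fr M L then false else ρ x := by
  funext x
  by_cases hx : x ∈ Fr M L
  · rw [if_pos hx]
    unfold rS
    rw [decide_eq_false_iff_not]
    rintro ⟨v, hv, rfl⟩
    unfold Fr at hx
    rw [Finset.mem_sdiff] at hx
    exact hx.2 (mem_image_of_mem _ (Sr_sub ρ hv))
  · rw [if_neg hx]
    have : x ∈ (Dd M L).image (red M L) := by
      by_contra hn
      exact hx (by unfold Fr; rw [Finset.mem_sdiff]; exact ⟨mem_univ _, hn⟩)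
    obtain ⟨v, hv, rfl⟩ := mem_image.1 this
    unfold rS
    by_cases h : ρ (red M L v) = true
    · rw [h, decide_eq_true_eq]
      exact ⟨v, mem_Sr.2 ⟨hv, h⟩, rfl⟩
    · rw [Bool.not_eq_true] at h
      rw [h, decide_eq_false_iff_not]
      rintro ⟨w, hw, hwv⟩
      have := red_injOn (Sr_sub ρ hw) hv hwv
      subst this
      have := (mem_Sr.1 hw).2
      rw [h] at this
      exact Bool.false_ne_true this

/-- The base weight. -/
noncomputable def W0 (θ : ℝ) (ρ : ZMod M × ZMod L → Bool) : ℝ :=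
  (2 * Real.cos θ) ^ LD (Dd M L) (cf (Dd M L) eta0 (Sr ρ))

lemma wT_le_W0 (hM : Even M) (hL : Even L) (h2M : 2 ≤ M) (h2L : 2 ≤ L) (hflip : K_flip) {θ : ℝ}
    (h0 : 0 ≤ θ) (h1 : θ ≤ Real.pi / 3) (ρ : ZMod M × ZMod L → Bool) :
    wT θ M L ρ ≤ 4 ^ (M + L) * W0 θ ρ ∧ W0 θ ρ ≤ 4 ^ (M + L) * wT θ M L ρ := by
  have e : W0 θ ρ = wT θ M L (rS M L (Sr ρ)) := (wT_frame hM hL h2M h2L θ (Sr_sub ρ)).symm
  have hc := wT_close hflip h0 h1 (Fr M L) ρ
  rw [e, rS_Sr]
  have hp : (4 : ℝ) ^ (Fr M L).card ≤ 4 ^ (M + L) :=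
    pow_le_pow_right₀ (by norm_num) card_Fr_le
  exact ⟨hc.2.trans (mul_le_mul_of_nonneg_right hp (wT_pos' h0 h1 _).le),
    hc.1.trans (mul_le_mul_of_nonneg_right hp (wT_pos' h0 h1 _).le)⟩

/-- The fibres of `Sr` have equal cardinalities. -/
lemma card_fibre {S : Finset (ℤ × ℤ)} (hS : S ⊆ Dd M L) :
    (univ.filter fun ρ : ZMod M × ZMod L → Bool => Sr ρ = S).card
      = (univ.filter fun ρ : ZMod M × ZMod L → Bool => Sr ρ = ∅).card := by
  classical
  have key : ∀ (ρ : ZMod M × ZMod L → Bool) (v : ℤ × ℤ), v ∈ Dd M L →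
      (v ∈ Sr (fun x => xor (ρ x) (rS M L S x)) ↔ (v ∈ Sr ρ ↔ v ∉ S)) := by
    intro ρ v hv
    have h1 := mem_Dd.1 hv
    rw [mem_Sr, mem_Sr, rS_red hS (by omega) (by omega) (by omega) (by omega)]
    have h2 : cf (Dd M L) eta0 S v = decide (v ∈ S) := by simp [cf, hv]
    rw [h2]
    by_cases hvS : v ∈ S <;> simp [hv, hvS]
  refine card_bij (fun ρ _ => fun x => xor (ρ x) (rS M L S x)) ?_ ?_ ?_
  · intro ρ hρ
    rw [mem_filter] at hρ ⊢
    refine ⟨mem_univ _, ?_⟩
    rw [eq_empty_iff_forall_notMem]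
    intro v hv
    have := (key ρ v (Sr_sub _ hv)).1 hv
    rw [hρ.2] at this
    tauto
  · intro ρ _ ρ' _ h
    funext x
    have := congrFun h x
    revert this
    cases ρ x <;> cases ρ' x <;> cases rS M L S x <;> simp
  · intro ρ hρ
    rw [mem_filter] at hρ
    refine ⟨fun x => xor (ρ x) (rS M L S x), ?_, ?_⟩
    · rw [mem_filter]
      refine ⟨mem_univ _, ?_⟩
      ext v
      by_cases hv : v ∈ Dd M L
      · rw [key ρ v hv, hρ.2]
        simp
      · constructor
        · intro h; exact absurd (Sr_sub _ h) hv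
        · intro h; exact absurd (hS h) hv
    · funext x
      show xor (xor (ρ x) (rS M L S x)) (rS M L S x) = ρ x
      cases ρ x <;> cases rS M L S x <;> rfl

lemma sum_Sr (φ : Finset (ℤ × ℤ) → ℝ) :
    ∑ ρ : ZMod M × ZMod L → Bool, φ (Sr ρ)
      = ((univ.filter fun ρ : ZMod M × ZMod L → Bool => Sr ρ = ∅).card : ℝ) *
        ∑ S ∈ (Dd M L).powerset, φ S := by
  classical
  rw [← sum_fiberwise_of_maps_to (s := univ) (t := (Dd M L).powerset) (g := fun ρ => Sr ρ)
    (fun ρ _ => mem_powerset.2 (Sr_sub ρ)), mul_sum]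
  refine sum_congr rfl fun S hS => ?_
  rw [← card_fibre (mem_powerset.1 hS)]
  calc ∑ ρ ∈ univ.filter (fun ρ : ZMod M × ZMod L → Bool => Sr ρ = S), φ (Sr ρ)
      = ∑ _ρ ∈ univ.filter (fun ρ : ZMod M × ZMod L → Bool => Sr ρ = S), φ S :=
        sum_congr rfl fun ρ hρ => by rw [(mem_filter.1 hρ).2]
    _ = _ := by rw [sum_const, nsmul_eq_mul]

/-- Sums with the base weight are expectations in the free box. -/
lemma sum_W0 {θ : ℝ} (h0 : 0 ≤ θ) (h1 : θ ≤ Real.pi / 3) (H : Cfg → ℝ) :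
    ∑ ρ : ZMod M × ZMod L → Bool, W0 θ ρ * H (cf (Dd M L) eta0 (Sr ρ))
      = (∑ ρ : ZMod M × ZMod L → Bool, W0 θ ρ) * Ex (2 * Real.cos θ) (Dd M L) eta0 H := by
  have hQ : 0 < 2 * Real.cos θ := by have := half_le_cos h0 h1; linarith
  have hZ := FKA.Zq_pos hQ (Dd M L) eta0
  unfold W0
  rw [sum_Sr (fun S => (2 * Real.cos θ) ^ LD (Dd M L) (cf (Dd M L) eta0 S) *
      H (cf (Dd M L) eta0 S)),
    sum_Sr (fun S => (2 * Real.cos θ) ^ LD (Dd M L) (cf (Dd M L) eta0 S))]
  unfold Ex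
  have : Zq (2 * Real.cos θ) (Dd M L) eta0 =
    ∑ S ∈ (Dd M L).powerset, (2 * Real.cos θ) ^ LD (Dd M L) (cf (Dd M L) eta0 S) := rfl
  rw [← this]
  field_simp

end torus

/-- Translation of the finite-volume expectations. -/
lemma Ex_tr {Q : ℝ} (hQ : 0 < Q) {p : ℤ × ℤ} (hp : Even (p.1 + p.2)) {η : Cfg} (hη : Good η)
    (R : ℤ) (F : Cfg → ℝ) :
    Good (η ∘ fun v => (v.1 + p.1, v.2 + p.2)) ∧
    Ex Q (Bq p R) η (fun ω => F (fun v => ω (v.1 + p.1, v.2 + p.2)))
      = Ex Q (Bq 0 R) (η ∘ fun v => (v.1 + p.1, v.2 + p.2)) F := by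
  obtain ⟨h1, h2⟩ := FK.sym_of (τ := fun v : ℤ × ℤ => (v.1 + p.1, v.2 + p.2)) (FK.trV p)
    (fun v => rfl) (FK.trE p) (fun ω => (FK.syP_tr p hp ω).sy)
  refine ⟨h1 η hη, ?_⟩
  rw [h2 Q (Bq 0 R) η F hQ hη]
  have : (Bq 0 R).image (fun v : ℤ × ℤ => (v.1 + p.1, v.2 + p.2)) = Bq p R := by
    ext v
    simp only [Bq, mem_image, mem_product, mem_Ico, Prod.fst_zero, Prod.snd_zero]
    constructor
    · rintro ⟨w, hw, rfl⟩
      simp only
      omega
    · intro hv
      exact ⟨(v.1 - p.1, v.2 - p.2), by simp only; omega, by ext <;> simp⟩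
  rw [this]
  rfl

/-- The centres of the sub-boxes. -/
noncomputable def ctr (R : ℕ) (p : ℕ × ℕ) : ℤ × ℤ := (2 * R * p.1 + R, 2 * R * p.2 + R)

lemma Bq_ctr_sub {M L R : ℕ} {p : ℕ × ℕ} (h : p ∈ range ((M - 1) / (2 * R)) ×ˢ
    range ((L - 1) / (2 * R))) : Bq (ctr R p) R ⊆ Dd M L := by
  rw [mem_product, mem_range, mem_range] at h
  have key : ∀ (N i : ℕ), i < (N - 1) / (2 * R) → (2 * R * i + R : ℤ) + R ≤ N - 1 := by
    intro N i hi
    have h1 : 2 * R * ((N - 1) / (2 * R)) ≤ N - 1 := Nat.mul_div_le _ _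
    have h2 : 2 * R * (i + 1) ≤ 2 * R * ((N - 1) / (2 * R)) := Nat.mul_le_mul_left _ hi
    have h3 : 2 * R * (i + 1) ≤ N - 1 := h2.trans h1
    have h4 : 1 ≤ N := by
      by_contra hN
      have : N = 0 := by omega
      subst this
      simp at hi
    have h5 : ((2 * R * (i + 1) : ℕ) : ℤ) ≤ ((N - 1 : ℕ) : ℤ) := by exact_mod_cast h3
    rw [Nat.cast_sub h4] at h5
    push_cast at h5
    linarith
  have a1 := key M p.1 h.1
  have a2 := key L p.2 h.2
  intro v hv
  simp only [Bq, ctr, mem_product, mem_Ico] at hv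
  rw [mem_Dd]
  have b1 : (0 : ℤ) ≤ 2 * R * p.1 := by positivity
  have b2 : (0 : ℤ) ≤ 2 * R * p.2 := by positivity
  refine ⟨⟨by linarith [hv.1.1], by linarith [hv.1.2]⟩, ⟨by linarith [hv.2.1], by linarith [hv.2.2]⟩⟩

lemma Bq_ctr_disj {R : ℕ} {p q : ℕ × ℕ} (h : p ≠ q) :
    Disjoint (Bq (ctr R p) R) (Bq (ctr R q) R) := by
  rw [Finset.disjoint_left]
  intro v hv hw
  simp only [Bq, ctr, mem_product, mem_Ico] at hv hw
  apply h
  have key : ∀ (i j : ℕ) (x : ℤ), (2 * R * i + R : ℤ) - R ≤ x → x < 2 * R * i + R + R →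
      (2 * R * j + R : ℤ) - R ≤ x → x < 2 * R * j + R + R → i = j := by
    intro i j x h1 h2 h3 h4
    by_contra hne
    rcases lt_or_gt_of_ne hne with hlt | hlt
    · have : (i : ℤ) + 1 ≤ j := by exact_mod_cast hlt
      have h6 : (2 * R : ℤ) * (i + 1) ≤ 2 * R * j := mul_le_mul_of_nonneg_left this (by positivity)
      linarith
    · have : (j : ℤ) + 1 ≤ i := by exact_mod_cast hlt
      have h6 : (2 * R : ℤ) * (j + 1) ≤ 2 * R * i := mul_le_mul_of_nonneg_left this (by positivity)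
      linarith
  exact Prod.ext (key _ _ _ hv.1.1 hv.1.2 hw.1.1 hw.1.2) (key _ _ _ hv.2.1 hv.2.2 hw.2.1 hw.2.2)

/-- One-sided estimate on one torus. -/
lemma tor_le (hflip : K_flip) {θ : ℝ} (h0 : 0 ≤ θ) (h1 : θ ≤ Real.pi / 3)
    (hshift : ∀ (M L : ℕ) [NeZero M] [NeZero L], Even M → Even L → ∀ (x y : ℤ)
      (ρ : ZMod M × ZMod L → Bool),
      wT θ M L (shift (((2 * x : ℤ) : ZMod M), ((2 * y : ℤ) : ZMod L)) ρ) = wT θ M L ρ)
    {F : Cfg → ℝ} (hF1 : ∀ ω, |F ω| ≤ 1) {R : ℕ} (hR : Even R) (hR0 : 0 < R)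
    (hF : FKA.Loc (Bq 0 R) F) {m t : ℝ} (ht0 : 0 < t) (ht1 : t ≤ 1)
    (hm : ∀ η, Good η → Ex (2 * Real.cos θ) (Bq 0 R) η F ≤ m)
    {M L : ℕ} [NeZero M] [NeZero L] (hM : Even M) (hL : Even L) (hMR : 2 * R + 1 ≤ M)
    (hLR : 2 * R + 1 ≤ L) :
    ET θ M L F ≤ m + t + (2 * Real.log 4 * (M + L)) /
      (t * (((M - 1) / (2 * R) : ℕ) * ((L - 1) / (2 * R) : ℕ))) := by
  classical
  have hQ : 0 < 2 * Real.cos θ := by have := half_le_cos h0 h1; linarith
  set P := range ((M - 1) / (2 * R)) ×ˢ range ((L - 1) / (2 * R)) with hP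
  have hnM : 1 ≤ (M - 1) / (2 * R) := (Nat.one_le_div_iff (by omega)).2 (by omega)
  have hnL : 1 ≤ (L - 1) / (2 * R) := (Nat.one_le_div_iff (by omega)).2 (by omega)
  have hctr_inj : Set.InjOn (fun p => red M L (ctr R p)) (P : Set (ℕ × ℕ)) := by
    intro p hp q hq h
    by_contra hne
    have hd := Bq_ctr_disj (R := R) hne
    have hRz : (0 : ℤ) < R := by exact_mod_cast hR0
    have c1 : ctr R p ∈ Bq (ctr R p) R := by simp [Bq, hR0]
    have c2 : ctr R q ∈ Bq (ctr R q) R := by simp [Bq, hR0]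
    have := red_injOn (Bq_ctr_sub (mem_coe.1 hp) c1) (Bq_ctr_sub (mem_coe.1 hq) c2) h
    have c3 : ctr R p ∈ Bq (ctr R q) R := by rw [this]; exact c2
    exact Finset.disjoint_left.1 hd c1 c3
  set A : Finset (ZMod M × ZMod L) := P.image (fun p => red M L (ctr R p)) with hA
  have hAcard : A.card = (M - 1) / (2 * R) * ((L - 1) / (2 * R)) := by
    rw [hA, card_image_of_injOn hctr_inj, hP, card_product, card_range, card_range]
  have hAne : A.Nonempty := by
    rw [← card_pos, hAcard]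
    exact Nat.mul_pos hnM hnL
  obtain ⟨R', hR'⟩ := hR
  have hinv : ∀ a ∈ A, ∀ ρ : ZMod M × ZMod L → Bool, wT θ M L (shift a ρ) = wT θ M L ρ := by
    intro a ha ρ
    obtain ⟨p, _, rfl⟩ := mem_image.1 ha
    have := hshift M L hM hL (R * p.1 + R') (R * p.2 + R') ρ
    rw [← this]
    congr 2
    simp only [red, ctr, hR']
    push_cast
    ext <;> simp <;> ring
  set c : ℝ := Real.exp (t * m + t ^ 2) with hc
  -- the exponential moment
  have hexp : ∑ ρ : ZMod M × ZMod L → Bool, W0 θ ρ *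
      Real.exp (t * ∑ a ∈ A, F (unR (shift a ρ)))
      ≤ Real.exp ((t * m + t ^ 2) * A.card) * ∑ ρ : ZMod M × ZMod L → Bool, W0 θ ρ := by
    set g : ℕ × ℕ → Cfg → ℝ := fun p ω =>
      Real.exp (t * F (fun v => ω (v.1 + (ctr R p).1, v.2 + (ctr R p).2))) with hg
    have e1 : ∀ ρ : ZMod M × ZMod L → Bool, Real.exp (t * ∑ a ∈ A, F (unR (shift a ρ)))
        = ∏ p ∈ P, g p (cf (Dd M L) eta0 (Sr ρ)) := by
      intro ρ
      rw [hA, sum_image hctr_inj, mul_sum, Real.exp_sum]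
      refine prod_congr rfl fun p hp => ?_
      simp only [hg]
      congr 2
      refine hF _ _ fun v hv => ?_
      have hv' : (v.1 + (ctr R p).1, v.2 + (ctr R p).2) ∈ Dd M L := by
        apply Bq_ctr_sub hp
        simp only [Bq, mem_product, mem_Ico, Prod.fst_zero, Prod.snd_zero] at hv ⊢
        omega
      simp only [cf, hv', if_true]
      have e2 : unR (shift (red M L (ctr R p)) ρ) v
          = ρ (red M L (v.1 + (ctr R p).1, v.2 + (ctr R p).2)) := by
        simp only [unR, shift, red]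
        congr 1
        ext <;> simp
      rw [e2]
      by_cases h : ρ (red M L (v.1 + (ctr R p).1, v.2 + (ctr R p).2)) = true
      · rw [h]
        symm
        rw [decide_eq_true_eq]
        exact mem_Sr.2 ⟨hv', h⟩
      · rw [Bool.not_eq_true] at h
        rw [h]
        symm
        rw [decide_eq_false_iff_not]
        intro hn
        have := (mem_Sr.1 hn).2
        rw [h] at this
        exact Bool.false_ne_true this
    rw [sum_congr rfl fun ρ _ => by rw [e1 ρ],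
      sum_W0 h0 h1 (fun ω => ∏ p ∈ P, g p ω), mul_comm]
    refine mul_le_mul_of_nonneg_right ?_ (sum_nonneg fun ρ _ => by unfold W0; positivity)
    have h2 := cher hQ P (D := Dd M L) (Dm := fun p => Bq (ctr R p) R) (g := g) (c := fun _ => c)
      (fun p hp => Bq_ctr_sub hp) (fun p _ q _ hne => Bq_ctr_disj hne) ?_
      (fun p _ ω => (Real.exp_pos _).le) ?_ (η := eta0) FK.f_good.2.1
    · refine h2.trans (le_of_eq ?_)
      rw [prod_const, hc, ← Real.exp_nat_mul]
      congr 1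
      have : P.card = A.card := by rw [hA, card_image_of_injOn hctr_inj]
      rw [this]
      ring
    · intro p _ ω ω' h
      simp only [hg]
      congr 2
      refine hF _ _ fun v hv => h _ ?_
      simp only [Bq, mem_product, mem_Ico, Prod.fst_zero, Prod.snd_zero] at hv ⊢
      omega
    · intro p _ η hη
      have hev : Even ((ctr R p).1 + (ctr R p).2) := by
        simp only [ctr, hR']
        exact ⟨(R' + R' : ℕ) * p.1 + (R' + R' : ℕ) * p.2 + (R' + R' : ℕ), by push_cast; ring⟩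
      obtain ⟨g1, g2⟩ := Ex_tr hQ hev hη R (fun ω => Real.exp (t * F ω))
      simp only [hg]
      rw [g2]
      exact exp_le hQ hF1 (by rw [abs_of_pos ht0]; exact ht1)
        (mul_le_mul_of_nonneg_left (hm _ g1) ht0.le)
  have hZ0 : 0 < ∑ ρ : ZMod M × ZMod L → Bool, W0 θ ρ :=
    sum_pos (fun ρ _ => by unfold W0; positivity) univ_nonempty
  have hcmp := fun ρ : ZMod M × ZMod L → Bool =>
    wT_le_W0 hM hL (by omega) (by omega) hflip h0 h1 ρ
  have h4 : (0 : ℝ) < 4 ^ (M + L) := by positivity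
  have main := weighted_le2 (W := wT θ M L) (W₀ := W0 θ) (F := fun ρ => F (unR ρ)) (A := A)
    (B := 4 ^ (M + L)) (z := 1 / 4 ^ (M + L)) (t := t) (s := t * m + t ^ 2)
    (fun ρ => (wT_pos' h0 h1 ρ).le) (fun ρ => (hcmp ρ).1) hinv (by positivity) h4 hZ0
    (by
      rw [mul_sum]
      refine sum_le_sum fun ρ _ => ?_
      rw [div_mul_eq_mul_div, one_mul, div_le_iff₀ h4, mul_comm]
      exact (hcmp ρ).2) hAne ht0 hexp
  have hlog : Real.log ((4 : ℝ) ^ (M + L) / (1 / 4 ^ (M + L))) = 2 * Real.log 4 * (M + L) := by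
    rw [div_div_eq_mul_div, div_one, Real.log_mul h4.ne' h4.ne', Real.log_pow]
    push_cast
    ring
  rw [hlog] at main
  unfold ET
  refine main.trans (le_of_eq ?_)
  have hAc : (0 : ℝ) < A.card := by exact_mod_cast hAne.card_pos
  have hc3 : (A.card : ℝ) = (((M - 1) / (2 * R) : ℕ) : ℝ) * (((L - 1) / (2 * R) : ℕ) : ℝ) := by
    rw [hAcard]
    push_cast
    ring
  rw [← hc3]
  field_simp
  ring

end Vale.Agent.P167.H685
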