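import Vale.Agent.P167.H685.GWt
import Vale.Agent.P167.FK.Flip

/-!
General `q`: the torus with a closed row and a closed column of squares is a free planar box.
-/

set_option linter.unusedSimpArgs false
set_option linter.unusedSectionVars false

namespace Vale.Agent.P167.H685

open Finset Filter Topology MeasureTheory
open Vale.Agent.P167.A (Grid plane torus red redE plane_nx plane_hd plane_sg par_red e1_red e2_red
  e1s_red e2s_red nx_red)
open Vale.Agent.P152 (Edge Ori vw wt)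
open Vale.Agent.P167.K8 (Wa wT ET)
open Vale.Agent.P167.FK (cf eta0 LD Good)

/-- The squares away from the closed frame. -/
noncomputable def Dd (M L : ℕ) : Finset (ℤ × ℤ) := Ico 0 ((M : ℤ) - 1) ×ˢ Ico 0 ((L : ℤ) - 1)

lemma mem_Dd {M L : ℕ} {v : ℤ × ℤ} :
    v ∈ Dd M L ↔ (0 ≤ v.1 ∧ v.1 < M - 1) ∧ (0 ≤ v.2 ∧ v.2 < L - 1) := by
  simp [Dd]

open Classical in
/-- The configuration of the torus with open squares `S`. -/
noncomputable def rS (M L : ℕ) (S : Finset (ℤ × ℤ)) (x : ZMod M × ZMod L) : Bool :=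
  decide (∃ v ∈ S, red M L v = x)

lemma eq_of_cast {N : ℕ} {a b : ℤ} (h : (a : ZMod N) = b) (h2 : |a - b| < N) : a = b := by
  have : ((a - b : ℤ) : ZMod N) = 0 := by push_cast; rw [h]; ring
  rw [ZMod.intCast_zmod_eq_zero_iff_dvd] at this
  have := Int.eq_zero_of_abs_lt_dvd this h2
  omega

lemma rS_red {M L : ℕ} {S : Finset (ℤ × ℤ)} (hS : S ⊆ Dd M L) {v : ℤ × ℤ}
    (h1 : -1 ≤ v.1) (h2 : v.1 < M) (h3 : -1 ≤ v.2) (h4 : v.2 < L) :
    rS M L S (red M L v) = cf (Dd M L) eta0 S v := by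
  unfold rS cf eta0
  by_cases hv : v ∈ S
  · rw [if_pos (hS hv)]
    simp only [hv, decide_true, decide_eq_true_eq]
    exact ⟨v, hv, rfl⟩
  · have e1 : (if v ∈ Dd M L then decide (v ∈ S) else false) = false := by
      split_ifs <;> simp [hv]
    rw [e1, decide_eq_false_iff_not]
    rintro ⟨w, hw, hwv⟩
    apply hv
    have hw' := mem_Dd.1 (hS hw)
    simp only [red, Prod.mk.injEq] at hwv
    have a1 : w.1 = v.1 := eq_of_cast hwv.1 (by rw [abs_lt]; omega)
    have a2 : w.2 = v.2 := eq_of_cast hwv.2 (by rw [abs_lt]; omega)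
    have : w = v := Prod.ext a1 a2
    rwa [this] at hw

/-- The left site of the edge is in the fundamental domain. -/
def InB (M L : ℕ) (e : Ed) : Prop :=
  (0 ≤ (ls e).1 ∧ (ls e).1 < M) ∧ (0 ≤ (ls e).2 ∧ (ls e).2 < L)

lemma ls_hdv (e : Ed) : ((hdv e).1 ≤ (ls e).1 ∧ (ls e).1 ≤ (hdv e).1 + 1) ∧
    ((hdv e).2 ≤ (ls e).2 ∧ (ls e).2 ≤ (hdv e).2 + 1) := by
  rcases e with v | v <;> simp only [hdv, ls] <;> split_ifs <;> simp

lemma ls_nx_hdv (ω : Cfg) (e : Ed) :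
    ((hdv e).1 ≤ (ls (nx ω e)).1 ∧ (ls (nx ω e)).1 ≤ (hdv e).1 + 1) ∧
    ((hdv e).2 ≤ (ls (nx ω e)).2 ∧ (ls (nx ω e)).2 ≤ (hdv e).2 + 1) := by
  rcases e with ⟨x, y⟩ | ⟨x, y⟩
  · by_cases hp : Even (x + y)
    · have p2 : ¬ Even (x + 1 + y) := by rw [Int.not_even_iff_odd]; obtain ⟨k, hk⟩ := hp; exact ⟨k, by omega⟩
      have p3 : Even (x + 1 + (y - 1)) := by obtain ⟨k, hk⟩ := hp; exact ⟨k, by omega⟩
      simp only [hdv, nx, if_pos hp]
      split_ifs <;> simp [ls, p2, p3, hp]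
    · have p2 : Even (x + (y - 1)) := by
        rw [Int.not_even_iff_odd] at hp; obtain ⟨k, hk⟩ := hp; exact ⟨k, by omega⟩
      simp only [hdv, nx, if_neg hp]
      split_ifs <;> simp [ls, hp, p2]
  · by_cases hp : Even (x + y)
    · have p2 : ¬ Even (x - 1 + y) := by rw [Int.not_even_iff_odd]; obtain ⟨k, hk⟩ := hp; exact ⟨k - 1, by omega⟩
      simp only [hdv, nx, if_pos hp]
      split_ifs <;> simp [ls, hp, p2]
    · rw [Int.not_even_iff_odd] at hp
      have hp' : ¬ Even (x + y) := by rwa [Int.not_even_iff_odd]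
      have p2 : Even (x + (y + 1)) := by obtain ⟨k, hk⟩ := hp; exact ⟨k + 1, by omega⟩
      have p3 : ¬ Even (x - 1 + (y + 1)) := by
        rw [Int.not_even_iff_odd]; obtain ⟨k, hk⟩ := hp; exact ⟨k, by omega⟩
      simp only [hdv, nx, if_neg hp']
      split_ifs <;> simp [ls, p2, p3, hp']

lemma ls_nx_closed {ω : Cfg} {e : Ed} (h : ω (hdv e) = false) : ls (nx ω e) = ls e := by
  rcases e with ⟨x, y⟩ | ⟨x, y⟩
  · by_cases hp : Even (x + y)
    · have p2 : ¬ Even (x + 1 + y) := by rw [Int.not_even_iff_odd]; obtain ⟨k, hk⟩ := hp; exact ⟨k, by omega⟩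
      simp only [hdv, if_pos hp] at h
      simp [nx, hp, h, ls, p2]
    · have p2 : Even (x + (y - 1)) := by
        rw [Int.not_even_iff_odd] at hp; obtain ⟨k, hk⟩ := hp; exact ⟨k, by omega⟩
      simp only [hdv, if_neg hp] at h
      simp [nx, hp, h, ls, p2]
  · by_cases hp : Even (x + y)
    · simp only [hdv, if_pos hp] at h
      simp [nx, hp, h, ls]
    · rw [Int.not_even_iff_odd] at hp
      have hp' : ¬ Even (x + y) := by rwa [Int.not_even_iff_odd]
      have p3 : ¬ Even (x - 1 + (y + 1)) := by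
        rw [Int.not_even_iff_odd]; obtain ⟨k, hk⟩ := hp; exact ⟨k, by omega⟩
      simp only [hdv, if_neg hp'] at h
      simp [nx, hp', h, ls, p3]

/-- The four squares around the left site are visited if all squares on the way are closed. -/
lemma four_squares {ω : Cfg} {ℓ : Finset Ed} (h : IsLoop ω ℓ) {e : Ed} (he : e ∈ ℓ)
    (hcl : ∀ e' ∈ ℓ, ω (hdv e') = false) {v : ℤ × ℤ}
    (h1 : v.1 ≤ (ls e).1) (h2 : (ls e).1 ≤ v.1 + 1) (h3 : v.2 ≤ (ls e).2)
    (h4 : (ls e).2 ≤ v.2 + 1) : v ∈ vs ℓ := by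
  have hn : ∀ n : ℕ, (nx ω)^[n] e ∈ ℓ ∧ (nx ω)^[n] e = (nx eta0)^[n] e := by
    intro n
    induction n with
    | zero => exact ⟨he, rfl⟩
    | succ n ih =>
      constructor
      · exact (loop_gen h he _).2 ⟨n + 1, rfl⟩
      · rw [Function.iterate_succ_apply', Function.iterate_succ_apply', ← ih.2]
        exact nx_loc (by rw [hcl _ ih.1]; rfl)
  have hm : ∀ n : ℕ, hdv ((nx eta0)^[n] e) ∈ vs ℓ := fun n => by
    rw [← (hn n).2]
    exact mem_image_of_mem _ (hn n).1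
  have m0 := hm 0
  have m1 := hm 1
  have m2 := hm 2
  have m3 := hm 3
  simp only [Function.iterate_succ, Function.iterate_zero, Function.comp_apply, id_eq] at m0 m1 m2 m3
  obtain ⟨a, b⟩ := v
  rcases e with ⟨x, y⟩ | ⟨x, y⟩
  · by_cases hp : Even (x + y)
    · have q1 : ¬ Even (x + 1 + y) := by rw [Int.not_even_iff_odd]; obtain ⟨k, hk⟩ := hp; exact ⟨k, by omega⟩
      have q2 : ¬ Even (x + (y + 1)) := by rw [Int.not_even_iff_odd]; obtain ⟨k, hk⟩ := hp; exact ⟨k, by omega⟩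
      simp only [ls, if_pos hp] at h1 h2 h3 h4
      simp [nx, hp, q1, q2, hdv, eta0] at m0 m1 m2 m3
      have c1 : a = x ∨ a = x + 1 := by omega
      have c2 : b = y ∨ b = y + 1 := by omega
      rcases c1 with rfl | rfl <;> rcases c2 with rfl | rfl <;> assumption
    · have q1 : Even (x + (y - 1)) := by
        rw [Int.not_even_iff_odd] at hp; obtain ⟨k, hk⟩ := hp; exact ⟨k, by omega⟩
      have q2 : Even (x + 1 + y) := by
        rw [Int.not_even_iff_odd] at hp; obtain ⟨k, hk⟩ := hp; exact ⟨k + 1, by omega⟩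
      have q3 : ¬ Even (x + 1 + (y - 1)) := by
        rw [Int.not_even_iff_odd] at hp ⊢; obtain ⟨k, hk⟩ := hp; exact ⟨k, by omega⟩
      simp only [ls, if_neg hp] at h1 h2 h3 h4
      simp [nx, hp, q1, q2, q3, hdv, eta0] at m0 m1 m2 m3
      have c1 : a = x ∨ a = x + 1 := by omega
      have c2 : b = y - 1 ∨ b = y := by omega
      rcases c1 with rfl | rfl <;> rcases c2 with rfl | rfl <;> assumption
  · by_cases hp : Even (x + y)
    · have q1 : ¬ Even (x + 1 + y) := by rw [Int.not_even_iff_odd]; obtain ⟨k, hk⟩ := hp; exact ⟨k, by omega⟩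
      have q2 : ¬ Even (x + (y + 1)) := by rw [Int.not_even_iff_odd]; obtain ⟨k, hk⟩ := hp; exact ⟨k, by omega⟩
      simp only [ls, if_pos hp] at h1 h2 h3 h4
      simp [nx, hp, q1, q2, hdv, eta0] at m0 m1 m2 m3
      have c1 : a = x ∨ a = x + 1 := by omega
      have c2 : b = y ∨ b = y + 1 := by omega
      rcases c1 with rfl | rfl <;> rcases c2 with rfl | rfl <;> assumption
    · have q1 : ¬ Even (x - 1 + (y + 1)) := by
        rw [Int.not_even_iff_odd] at hp ⊢; obtain ⟨k, hk⟩ := hp; exact ⟨k, by omega⟩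
      have q2 : Even (x - 1 + y) := by
        rw [Int.not_even_iff_odd] at hp; obtain ⟨k, hk⟩ := hp; exact ⟨k, by omega⟩
      simp only [ls, if_neg hp] at h1 h2 h3 h4
      simp [nx, hp, q1, q2, hdv, eta0] at m0 m1 m2 m3
      have c1 : a = x - 1 ∨ a = x := by omega
      have c2 : b = y ∨ b = y + 1 := by omega
      rcases c1 with rfl | rfl <;> rcases c2 with rfl | rfl <;> assumption

/-! ### the closed frame -/

section frame

variable {M L : ℕ} [NeZero M] [NeZero L] (hM : Even M) (hL : Even L)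

lemma InB_hdv {e : Ed} (h : InB M L e) :
    (-1 ≤ (hdv e).1 ∧ (hdv e).1 < M) ∧ (-1 ≤ (hdv e).2 ∧ (hdv e).2 < L) := by
  have h1 := ls_hdv e
  unfold InB at h
  omega

lemma InB_of_Dd {e : Ed} (h : hdv e ∈ Dd M L) : InB M L e := by
  have h1 := ls_hdv e
  rw [mem_Dd] at h
  unfold InB
  omega

lemma cf_not_mem {D : Finset (ℤ × ℤ)} {S : Finset (ℤ × ℤ)} {v : ℤ × ℤ} (h : v ∉ D) :
    cf D eta0 S v = false := by simp [cf, eta0, h]

lemma InB_nx {S : Finset (ℤ × ℤ)} {e : Ed} (h : InB M L e) :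
    InB M L (nx (cf (Dd M L) eta0 S) e) := by
  by_cases hv : hdv e ∈ Dd M L
  · have h1 := ls_nx_hdv (cf (Dd M L) eta0 S) e
    rw [mem_Dd] at hv
    unfold InB
    omega
  · unfold InB
    rw [ls_nx_closed (cf_not_mem hv)]
    exact h

include hM hL in
lemma iter_red {S : Finset (ℤ × ℤ)} (hS : S ⊆ Dd M L) {e : Ed} (h : InB M L e) (n : ℕ) :
    InB M L ((nx (cf (Dd M L) eta0 S))^[n] e) ∧
    ((torus M L hM hL).nx (rS M L S))^[n] (redE M L e)
      = redE M L ((nx (cf (Dd M L) eta0 S))^[n] e) := by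
  induction n with
  | zero => exact ⟨h, rfl⟩
  | succ n ih =>
    refine ⟨?_, ?_⟩
    · rw [Function.iterate_succ_apply']
      exact InB_nx ih.1
    · rw [Function.iterate_succ_apply', Function.iterate_succ_apply', ih.2, nx_red]
      congr 1
      apply nx_loc
      have := InB_hdv ih.1
      show rS M L S (red M L _) = _
      exact rS_red hS this.1.1 this.1.2 this.2.1 this.2.2

lemma ls_trE {a b : ℤ} (h : Even (a + b)) (e : Ed) : ls (trE a b e) = ((ls e).1 + a, (ls e).2 + b) := by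
  rcases e with ⟨x, y⟩ | ⟨x, y⟩
  · have : Even (x + a + (y + b)) ↔ Even (x + y) := by
      rw [show x + a + (y + b) = (x + y) + (a + b) by ring, Int.even_add]
      simp [h]
    simp only [trE, Sum.map_inl, ls, this]
    split_ifs <;> ext <;> simp <;> ring
  · have : Even (x + a + (y + b)) ↔ Even (x + y) := by
      rw [show x + a + (y + b) = (x + y) + (a + b) by ring, Int.even_add]
      simp [h]
    simp only [trE, Sum.map_inr, ls, this]
    split_ifs <;> ext <;> simp <;> ring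

include hM hL in
lemma even_tr (a b : ℤ) : Even ((M : ℤ) * a + L * b) := by
  obtain ⟨k, hk⟩ := hM
  obtain ⟨l, hl⟩ := hL
  subst hk hl
  exact ⟨k * a + l * b, by push_cast; ring⟩

omit [NeZero M] [NeZero L] in
lemma redE_trE (a b : ℤ) (e : Ed) : redE M L (trE (M * a) (L * b) e) = redE M L e := by
  rcases e with ⟨x, y⟩ | ⟨x, y⟩ <;> simp [redE, trE, red]

include hM hL in
lemma InB_surj (x : Edge (ZMod M × ZMod L)) : ∃ e : Ed, InB M L e ∧ redE M L e = x := by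
  obtain ⟨e, rfl⟩ := redE_surj x
  refine ⟨trE (M * -((ls e).1 / M)) (L * -((ls e).2 / L)) e, ?_, redE_trE _ _ e⟩
  have hM0 : (0 : ℤ) < M := by exact_mod_cast Nat.pos_of_ne_zero (NeZero.ne M)
  have hL0 : (0 : ℤ) < L := by exact_mod_cast Nat.pos_of_ne_zero (NeZero.ne L)
  unfold InB
  rw [ls_trE (even_tr hM hL _ _)]
  have e1 : (ls e).1 + M * -((ls e).1 / M) = (ls e).1 % M := by
    have := Int.mul_ediv_add_emod (ls e).1 M
    linarith
  have e2 : (ls e).2 + L * -((ls e).2 / L) = (ls e).2 % L := by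
    have := Int.mul_ediv_add_emod (ls e).2 L
    linarith
  simp only [e1, e2]
  exact ⟨⟨Int.emod_nonneg _ hM0.ne', Int.emod_lt_of_pos _ hM0⟩,
    ⟨Int.emod_nonneg _ hL0.ne', Int.emod_lt_of_pos _ hL0⟩⟩

include hM hL in
lemma InB_inj {e e' : Ed} (h : InB M L e) (h' : InB M L e') (he : redE M L e = redE M L e') :
    e = e' := by
  obtain ⟨a, b, rfl⟩ := redE_eq he
  have hM0 : (0 : ℤ) < M := by exact_mod_cast Nat.pos_of_ne_zero (NeZero.ne M)
  have hL0 : (0 : ℤ) < L := by exact_mod_cast Nat.pos_of_ne_zero (NeZero.ne L)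
  unfold InB at h h'
  rw [ls_trE (even_tr hM hL _ _)] at h'
  simp only at h'
  have ha : a = 0 := by
    have h1 : (M : ℤ) * a < M * 1 := by linarith [h.1.1, h'.1.2]
    have h2 : (M : ℤ) * (-1) < M * a := by linarith [h.1.2, h'.1.1]
    have h3 := lt_of_mul_lt_mul_left h1 hM0.le
    have h4 := lt_of_mul_lt_mul_left h2 hM0.le
    omega
  have hb : b = 0 := by
    have h1 : (L : ℤ) * b < L * 1 := by linarith [h.2.1, h'.2.2]
    have h2 : (L : ℤ) * (-1) < L * b := by linarith [h.2.2, h'.2.1]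
    have h3 := lt_of_mul_lt_mul_left h1 hL0.le
    have h4 := lt_of_mul_lt_mul_left h2 hL0.le
    omega
  subst ha hb
  rcases e with ⟨x, y⟩ | ⟨x, y⟩ <;> simp [trE]

/-- All edges of a loop through the fundamental domain are in the fundamental domain. -/
lemma InB_loop {S : Finset (ℤ × ℤ)} (hS : S ⊆ Dd M L) {ℓ : Finset Ed}
    (hℓ : IsLoop (cf (Dd M L) eta0 S) ℓ) {e : Ed} (he : e ∈ ℓ) (h : InB M L e) :
    ∀ e' ∈ ℓ, InB M L e' := by
  intro e' he'
  obtain ⟨n, rfl⟩ := (loop_gen hℓ he e').1 he'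
  clear he'
  induction n with
  | zero => exact h
  | succ n ih =>
    rw [Function.iterate_succ_apply']
    exact InB_nx ih

/-- A loop in the fundamental domain visits a square away from the frame. -/
lemma InB_visit (h2M : 2 ≤ M) (h2L : 2 ≤ L) {S : Finset (ℤ × ℤ)} {ℓ : Finset Ed}
    (hℓ : IsLoop (cf (Dd M L) eta0 S) ℓ) {e : Ed} (he : e ∈ ℓ) (h : InB M L e) :
    ∃ v ∈ vs ℓ, v ∈ Dd M L := by
  by_contra hcon
  push Not at hcon
  have hcl : ∀ e' ∈ ℓ, cf (Dd M L) eta0 S (hdv e') = false := fun e' he' =>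
    cf_not_mem (hcon _ (mem_image_of_mem _ he'))
  obtain ⟨x, hx1, hx2, hx3, hx4⟩ : ∃ x : ℤ, x ≤ (ls e).1 ∧ (ls e).1 ≤ x + 1 ∧ 0 ≤ x ∧ x < M - 1 := by
    unfold InB at h
    by_cases h1 : (ls e).1 < M - 1
    · exact ⟨(ls e).1, by omega, by omega, by omega, by omega⟩
    · exact ⟨(ls e).1 - 1, by omega, by omega, by omega, by omega⟩
  obtain ⟨y, hy1, hy2, hy3, hy4⟩ : ∃ y : ℤ, y ≤ (ls e).2 ∧ (ls e).2 ≤ y + 1 ∧ 0 ≤ y ∧ y < L - 1 := by
    unfold InB at h
    by_cases h1 : (ls e).2 < L - 1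
    · exact ⟨(ls e).2, by omega, by omega, by omega, by omega⟩
    · exact ⟨(ls e).2 - 1, by omega, by omega, by omega, by omega⟩
  have := four_squares hℓ he hcl (v := (x, y)) hx1 hx2 hy1 hy2
  exact hcon _ this (mem_Dd.2 ⟨⟨hx3, hx4⟩, hy3, hy4⟩)

lemma good_cf0 (S : Finset (ℤ × ℤ)) : Good (cf (Dd M L) eta0 S) :=
  FK.f_good.1 _ _ _ FK.f_good.2.1

include hM hL in
/-- The orbits of the torus are the images of the loops. -/
lemma orbs_eq_image (h2M : 2 ≤ M) (h2L : 2 ≤ L) {S : Finset (ℤ × ℤ)} (hS : S ⊆ Dd M L) :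
    (orbs ((torus M L hM hL).nxP (rS M L S)) : Set (Finset (Edge (ZMod M × ZMod L))))
      = (fun ℓ : Finset Ed => ℓ.image (redE M L)) ''
        {ℓ | IsLoop (cf (Dd M L) eta0 S) ℓ ∧ ∃ v ∈ vs ℓ, v ∈ Dd M L} := by
  have himg : ∀ (ℓ : Finset Ed) (e : Ed), IsLoop (cf (Dd M L) eta0 S) ℓ → e ∈ ℓ → InB M L e →
      orb ((torus M L hM hL).nxP (rS M L S)) (redE M L e) = ℓ.image (redE M L) := by
    intro ℓ e hℓ he hB
    ext y
    rw [mem_orb_iff, mem_image]
    constructor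
    · rintro ⟨n, rfl⟩
      exact ⟨(nx (cf (Dd M L) eta0 S))^[n] e, (loop_gen hℓ he _).2 ⟨n, rfl⟩,
        (iter_red hM hL hS hB n).2.symm⟩
    · rintro ⟨e', he', rfl⟩
      obtain ⟨n, rfl⟩ := (loop_gen hℓ he e').1 he'
      exact ⟨n, (iter_red hM hL hS hB n).2⟩
  ext O
  rw [mem_coe, Set.mem_image]
  constructor
  · intro hO
    obtain ⟨x, rfl⟩ := mem_orbs.1 hO
    obtain ⟨e, hB, rfl⟩ := InB_surj hM hL x
    obtain ⟨ℓ, hℓ, he⟩ := good_cf0 (M := M) (L := L) S e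
    exact ⟨ℓ, ⟨hℓ, InB_visit h2M h2L hℓ he hB⟩, (himg ℓ e hℓ he hB).symm⟩
  · rintro ⟨ℓ, ⟨hℓ, v, hv, hvD⟩, rfl⟩
    obtain ⟨e, he, rfl⟩ := mem_image.1 hv
    have hB := InB_of_Dd hvD
    show ℓ.image (redE M L) ∈ _
    rw [← himg ℓ e hℓ he hB]
    exact orb_mem_orbs _

include hM hL in
/-- **Torus with a closed frame.** -/
theorem wT_frame (h2M : 2 ≤ M) (h2L : 2 ≤ L) (θ : ℝ) {S : Finset (ℤ × ℤ)} (hS : S ⊆ Dd M L) :
    wT θ M L (rS M L S) = (2 * Real.cos θ) ^ LD (Dd M L) (cf (Dd M L) eta0 S) := by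
  classical
  set ω := cf (Dd M L) eta0 S with hω
  set gT := torus M L hM hL with hgT
  have hB : ∀ ℓ ∈ {ℓ | IsLoop ω ℓ ∧ ∃ v ∈ vs ℓ, v ∈ Dd M L}, ∀ e ∈ ℓ, InB M L e := by
    rintro ℓ ⟨hℓ, v, hv, hvD⟩
    obtain ⟨e, he, rfl⟩ := mem_image.1 hv
    exact InB_loop hS hℓ he (InB_of_Dd hvD)
  have hinj : Set.InjOn (fun ℓ : Finset Ed => ℓ.image (redE M L))
      {ℓ | IsLoop ω ℓ ∧ ∃ v ∈ vs ℓ, v ∈ Dd M L} := by
    intro ℓ hℓ ℓ' hℓ' h
    simp only at h
    obtain ⟨e, he⟩ := loop_nonempty hℓ.1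
    have : redE M L e ∈ ℓ'.image (redE M L) := h ▸ mem_image_of_mem _ he
    obtain ⟨e', he', hee'⟩ := mem_image.1 this
    have := InB_inj hM hL (hB _ hℓ' _ he') (hB _ hℓ _ he) hee'
    rw [this] at he'
    exact loop_unique hℓ.1 hℓ'.1 he he'
  have hcard : (orbs (gT.nxP (rS M L S))).card = LD (Dd M L) ω := by
    have h1 : ((orbs (gT.nxP (rS M L S)) : Set (Finset (Edge (ZMod M × ZMod L))))).ncard
        = (orbs (gT.nxP (rS M L S))).card := Set.ncard_coe_finset _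
    rw [← h1, hgT, orbs_eq_image hM hL h2M h2L hS, hinj.ncard_image]
    rfl
  rw [wT_eq hM hL, ← hcard, ← prod_const]
  refine prod_congr rfl fun O hO => ?_
  have hO' : O ∈ (fun ℓ : Finset Ed => ℓ.image (redE M L)) ''
      {ℓ | IsLoop ω ℓ ∧ ∃ v ∈ vs ℓ, v ∈ Dd M L} := by
    rw [← orbs_eq_image hM hL h2M h2L hS]
    exact hO
  obtain ⟨ℓ, hℓ, rfl⟩ := hO'
  have hT : ∑ x ∈ ℓ.image (redE M L), gT.turn (rS M L S) x = ∑ e ∈ ℓ, plane.turn ω e := by
    rw [sum_image fun e he e' he' h => InB_inj hM hL (hB _ hℓ _ he) (hB _ hℓ _ he') h]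
    refine sum_congr rfl fun e he => ?_
    rw [hgT, turn_red]
    unfold Grid.turn
    rw [plane_hd]
    have := InB_hdv (hB _ hℓ _ he)
    have h2 : unR (rS M L S) (hdv e) = ω (hdv e) :=
      rS_red hS this.1.1 this.1.2 this.2.1 this.2.2
    rw [h2]
  show 2 * Real.cos (Tn θ gT (rS M L S) (ℓ.image (redE M L))) = 2 * Real.cos θ
  unfold Tn
  rw [hT]
  rcases s_turn ω ℓ hℓ.1 with ⟨h, _⟩ | ⟨h, _⟩
  · rw [h]
    congr 2
    push_cast
    ring
  · rw [h, ← Real.cos_neg]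
    congr 2
    push_cast
    ring

end frame

end Vale.Agent.P167.H685
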