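import Vale.Agent.P167.H685.Ident
import Vale.Agent.P167.A.TorId
import Vale.Agent.P167.Top.Turn
import Vale.Agent.P167.Top.PlaneW

/-!
Block B: `S_id` from the almost sure finiteness of all loops.
-/

namespace Vale.Agent.P167.H685

open Finset Filter Topology MeasureTheory
open Vale.Agent.P167.A (Grid plane torus red redE plane_nx plane_hd plane_sg par_red e1_red e2_red
  e1s_red e2s_red nx_red Orb cls ang tor_id tor_id_zero)
open Vale.Agent.P152 (Edge Ori vw wt unroll IsHeight)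

lemma plane_turn (ω : Cfg) (e : Ed) : plane.turn ω e = trn ω e := by
  unfold Grid.turn trn
  rw [plane_hd]

theorem s_turn : S_turn := by
  intro ω ℓ h
  have := turn_loop h
  simp only [plane_turn]
  exact this

theorem s_turn0 : S_turn0 := by
  intro ω a b e n hn hev hω he hne
  simp only [plane_turn]
  refine turn_periodic (p := (a, b)) (by simpa using hne) hev ?_ hn ?_
  · rintro ⟨x, y⟩
    exact hω x y
  · rw [he]
    rcases e with v | v <;> rfl

/-- Product over the cycles in the form of block A. -/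
lemma prod_Orb {V : Type} [Fintype V] [DecidableEq V] (g : Grid V) (a : Edge V → ℝ)
    (ρ : V → Bool) :
    ∏ O : Orb (g.nxP ρ), 2 * Real.cos (ang g (Real.pi / 3) a ρ O) = Pr g a ρ := by
  classical
  unfold Pr
  rw [← prod_quotient (F := fac g a ρ)]
  refine Finset.prod_congr ?_ ?_
  · ext O
    simp
  · intro O _
    unfold fac ang
    congr 2
    refine Finset.sum_congr ?_ fun _ _ => rfl
    ext e
    simp only [mem_filter, mem_univ, true_and]
    rfl

/-- Almost surely all loops are finite. -/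
def S_fin : Prop := ∀ᵐ ω ∂μ, ∀ e : Ed, ∃ ℓ, IsLoop ω ℓ ∧ e ∈ ℓ

lemma ae_GK (hf : S_fin) (E : Finset Ed) : ∀ᵐ ω ∂μ, ∀ᶠ K in atTop, ω ∈ GK E K := by
  filter_upwards [hf] with ω hω
  have : ∀ e : Ed, ∀ᶠ K : ℕ in atTop, ∃ ℓ, IsLoop ω ℓ ∧ e ∈ ℓ ∧ ∀ v ∈ vs ℓ, v ∈ bx K := by
    intro e
    obtain ⟨ℓ, h1, h2⟩ := hω e
    obtain ⟨K, hK⟩ : ∃ K : ℕ, ∀ v ∈ vs ℓ, v ∈ bx K := by
      have hb : ∃ B : ℕ, ∀ v ∈ vs ℓ, v.1.natAbs ≤ B ∧ v.2.natAbs ≤ B := by
        refine ⟨(vs ℓ).sup (fun v => max v.1.natAbs v.2.natAbs), fun v hv => ?_⟩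
        have := Finset.le_sup (f := fun v : ℤ × ℤ => max v.1.natAbs v.2.natAbs) hv
        exact ⟨le_trans (le_max_left _ _) this, le_trans (le_max_right _ _) this⟩
      obtain ⟨B, hB⟩ := hb
      refine ⟨B, fun v hv => ?_⟩
      have := hB v hv
      rw [mem_bx]
      omega
    filter_upwards [eventually_ge_atTop K] with K' hK'
    exact ⟨ℓ, h1, h2, fun v hv => bx_mono hK' (hK v hv)⟩
  have h2 := (eventually_all_finset E).2 fun e _ => this e
  filter_upwards [h2] with K hK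
  exact hK

/-- The torus observable. -/
noncomputable def Ph (E : Finset Ed) (a : Ed → ℝ) (M L : ℕ) [NeZero M] [NeZero L]
    (ρ : ZMod M × ZMod L → Bool) : ℝ :=
  open Classical in
  if h : Even M ∧ Even L then Pr (torus M L h.1 h.2) (pa M L E a) ρ else 0

lemma sum_pa {M L : ℕ} [NeZero M] [NeZero L] (E : Finset Ed) (a : Ed → ℝ)
    (ω : Ori (ZMod M × ZMod L)) :
    ∑ x, pa M L E a x * (if ω x then 1 else -1) = ∑ e ∈ E, a e * sgb (unroll ω e) := by
  classical
  have h1 : ∀ x : Edge (ZMod M × ZMod L), pa M L E a x * (if ω x then 1 else -1)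
      = ∑ e ∈ E with redE M L e = x, a e * sgb (unroll ω e) := by
    intro x
    unfold pa
    rw [sum_mul]
    refine sum_congr rfl fun e he => ?_
    rw [mem_filter] at he
    rw [← he.2]
    have : unroll ω e = ω (redE M L e) := by
      rcases e with v | v <;> rfl
    rw [this]
    rfl
  rw [sum_congr rfl fun x _ => h1 x]
  exact sum_fiberwise_of_maps_to (fun _ _ => mem_univ _) _

lemma torU_eq {M L : ℕ} [NeZero M] [NeZero L] (hM : Even M) (hL : Even L) (E : Finset Ed)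
    (a : Ed → ℝ) :
    torU (√3) M L (fun ω => Real.cos (∑ e ∈ E, a e * sgb (ω e)))
      = (∑ ρ, Ph E a M L ρ) / ∑ ρ, Wt M L ρ := by
  have hc : 2 * Real.cos (Real.pi / 3 / 2) = √3 := by
    rw [show Real.pi / 3 / 2 = Real.pi / 6 by ring, Real.cos_pi_div_six]; ring
  have h1 := tor_id hM hL (Real.pi / 3) (pa M L E a)
  have h2 := tor_id_zero hM hL (Real.pi / 3)
  rw [hc] at h1 h2
  have e1 : ∑ ρ, Ph E a M L ρ = ∑ ω : Ori (ZMod M × ZMod L), wt (√3) ω *
        Real.cos (∑ e, pa M L E a e * (if ω e then 1 else -1)) := by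
    rw [h1]
    refine sum_congr rfl fun ρ _ => ?_
    rw [prod_Orb]
    simp only [Ph]
    rw [dif_pos ⟨hM, hL⟩]
  have e2 : ∑ ρ, Wt M L ρ = ∑ ω : Ori (ZMod M × ZMod L), wt (√3) ω := by
    rw [h2]
    refine sum_congr rfl fun ρ _ => ?_
    rw [prod_Orb]
    simp only [Wt]
    rw [dif_pos ⟨hM, hL⟩]
  rw [e1, e2]
  unfold torU
  congr 1
  refine sum_congr rfl fun ω _ => ?_
  rw [sum_pa]

/-- **Block B.** -/
theorem s_id_of (isFair_mu : IsFair μ) (hf : S_fin) : S_id := by
  classical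
  intro P hP hTor f hfs hf0 h hh
  -- the flow
  obtain ⟨K, hK⟩ : ∃ K : ℕ, ∀ v : ℤ × ℤ, v ∉ bx K → f (v.1 + 1, v.2 + 1) = 0 := by
    have hb : ∃ B : ℕ, ∀ v ∈ hfs.toFinset, v.1.natAbs ≤ B ∧ v.2.natAbs ≤ B := by
      refine ⟨hfs.toFinset.sup (fun v => max v.1.natAbs v.2.natAbs), fun v hv => ?_⟩
      have := Finset.le_sup (f := fun v : ℤ × ℤ => max v.1.natAbs v.2.natAbs) hv
      exact ⟨le_trans (le_max_left _ _) this, le_trans (le_max_right _ _) this⟩
    obtain ⟨B, hB⟩ := hb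
    refine ⟨B + 1, fun v hv => ?_⟩
    by_contra hn
    have h1 := hB (v.1 + 1, v.2 + 1) (by simpa using hn)
    apply hv
    rw [mem_bx]
    simp only at h1
    push_cast
    omega
  set m : ℤ × ℤ → ℝ := fun v => f (v.1 + 1, v.2 + 1) with hm
  have hshift : ∀ F : ℤ × ℤ → ℝ, ∑' v : ℤ × ℤ, F (v.1 + 1, v.2 + 1) = ∑' v, F v := by
    intro F
    let e : ℤ × ℤ ≃ ℤ × ℤ := ⟨fun v => (v.1 + 1, v.2 + 1), fun v => (v.1 - 1, v.2 - 1),
      fun v => by simp, fun v => by simp⟩
    exact e.tsum_eq F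
  have hm0 : ∑ v ∈ bx K, m v = 0 := by
    have e1 : ∑' v, m v = ∑ v ∈ bx K, m v := tsum_eq_sum fun v hv => hK v hv
    rw [← e1, hshift f, tsum_eq_finsum hfs, hf0]
  obtain ⟨E, a, haE, hdv⟩ := exists_flow (m := m) (K := K) hK hm0
  have hfsa : fs a = f := by
    funext s
    unfold fs
    rw [hdv]
    simp [hm]
  have hfin : (fs a).support.Finite := by rw [hfsa]; exact hfs
  have hj := s_jump
  -- the observable of the orientations
  set u : Ori (ℤ × ℤ) → ℝ := fun ω => Real.cos (∑ e ∈ E, a e * sgb (ω e)) with hu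
  have hstep : ∫ ω, Real.cos (∑ᶠ s : ℤ × ℤ, f (s.1 + 1, s.2 + 1) * (h ω s : ℝ)) ∂P
      = ∫ ω, u ω ∂P := by
    refine integral_congr_ae ?_
    filter_upwards [hh] with ω hω
    simp only [hu]
    rw [sum_arrows hω haE, hdv, ← tsum_eq_finsum (L := SummationFilter.unconditional _)]
    · congr 1
      exact tsum_congr fun v => by simp only [hm]; ring
    · refine (bx K).finite_toSet.subset fun v hv => ?_
      by_contra hn
      exact hv (by simp only; rw [hK v hn, zero_mul])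
  rw [hstep, ← hfsa]
  have hgood := goodWeight s_turn s_turn0
  refine transfer (T := fun M L _ _ => torU (√3) M L u) (W := fun M L _ _ => Wt M L)
    (Φ := fun M L _ _ => Ph E a M L) (G := GK E) (D := 2 ^ E.card) (C := 2 * Real.log 2)
    ?_ isFair_mu (by have := Real.log_nonneg (show (1 : ℝ) ≤ 2 by norm_num); positivity) hgood
    (fun ω => abs_X_le hj s_turn ω haE hfin) (GK_dep E) (X_dep hj s_turn haE hfin) (ae_GK hf E)
    ?_ ?_ ?_
  · intro ε hε
    exact hTor E u (fun ω ω' hω => by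
      simp only [hu]
      congr 1
      exact sum_congr rfl fun e he => by rw [hω e he]) ε hε
  · intro M L _ _ hM hL R
    simp only [Ph, Wt]
    rw [dif_pos ⟨hM, hL⟩, dif_pos ⟨hM, hL⟩]
    have := abs_Pr_le (torus M L hM hL) R (fun ℓ hℓ => one_le_fac hM hL s_turn s_turn0 R hℓ)
      (a := pa M L E a) (E := E.image (redE M L)) (fun x hx => by
        unfold pa
        refine sum_eq_zero fun e he => ?_
        rw [mem_filter] at he
        exact absurd (mem_image.2 ⟨e, he.1, he.2⟩) hx)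
    refine this.trans ?_
    have h1 := one_le_Pr hM hL s_turn s_turn0 R
    apply mul_le_mul_of_nonneg_right _ (by linarith)
    exact pow_le_pow_right₀ (by norm_num) card_image_le
  · intro K
    refine ⟨2 * (K + 1) + 1, fun M L _ _ hM hL h1 h2 R hR => ?_⟩
    simp only [Ph, Wt]
    rw [dif_pos ⟨hM, hL⟩, dif_pos ⟨hM, hL⟩]
    exact Pr_eq hM hL hj s_turn haE hfin h1 h2 R hR
  · exact ⟨0, fun M L _ _ hM hL _ _ => torU_eq hM hL E a⟩

end Vale.Agent.P167.H685
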