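import Vale.Agent.P167.H685.GTrans
import Vale.Agent.P167.H562.GDefs

/-!
General `q`: the Baxter-Kelland-Wu identity in the plane, for the infinite-volume random-cluster
measure.
-/

set_option linter.unusedSectionVars false

namespace Vale.Agent.P167.H685

open Finset Filter Topology MeasureTheory
open Vale.Agent.P167.A (Grid plane torus red redE plane_nx plane_hd plane_sg)
open Vale.Agent.P152 (Edge Ori vw unroll IsHeight)
open Vale.Agent.P167.K8 (Wa wT ET k_flip wT_shift)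
open Vale.Agent.P167.FK (Good Ex Bq)
open Vale.Agent.P167.H519 (IsLim)
open Vale.Agent.P167.H562 (Xa)

/-- Baxter-Kelland-Wu in the plane, angle `θ`. -/
def G_id (θ : ℝ) (P : Measure Cfg) : Prop :=
  ∀ P6 : Measure (Ori (ℤ × ℤ)), IsProbabilityMeasure P6 → TorI (2 * Real.cos (θ / 2)) P6 →
  ∀ f : ℤ × ℤ → ℝ, f.support.Finite → ∑ᶠ s, f s = 0 →
  ∀ h : Ori (ℤ × ℤ) → ℤ × ℤ → ℤ, (∀ᵐ ω ∂P6, IsHeight ω (h ω)) →
    ∫ ω, Real.cos (∑ᶠ s : ℤ × ℤ, f (s.1 + 1, s.2 + 1) * (h ω s : ℝ)) ∂P6 = ∫ ω, Xa θ f ω ∂P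

/-- The factor of a loop of the plane. -/
lemma facT_plane (hj : S_jump) (ht : S_turn) (θ : ℝ) {ω : Cfg} {ℓ : Finset Ed} (h : IsLoop ω ℓ)
    {E : Finset Ed} {a : Ed → ℝ} (ha : ∀ e ∉ E, a e = 0) (hfin : (fs a).support.Finite) :
    Real.cos (Tn θ plane ω ℓ + Gn plane a ℓ) = Real.cos (θ + G (fs a) ℓ) := by
  classical
  have h0 : ∀ (ε : ℤ), (∀ s, W ℓ s = 0 ∨ W ℓ s = ε) → ε ≠ 0 →
      ∑' s : ℤ × ℤ, (W ℓ s : ℝ) * fs a s = ε * G (fs a) ℓ := by
    intro ε hε hne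
    have hG : G (fs a) ℓ = ∑' s : ℤ × ℤ, (ins ℓ).indicator (fs a) s := by
      unfold G
      rw [finsum_mem_def]
      rw [tsum_eq_finsum]
      exact hfin.subset fun s hs => by
        rw [Function.mem_support] at hs ⊢
        intro h0
        apply hs
        by_cases hm : s ∈ ins ℓ
        · rw [Set.indicator_of_mem hm, h0]
        · rw [Set.indicator_of_notMem hm]
    rw [hG, ← tsum_mul_left]
    refine tsum_congr fun s => ?_
    by_cases hm : s ∈ ins ℓ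
    · rw [Set.indicator_of_mem hm]
      rcases hε s with h1 | h1
      · exact absurd h1 hm
      · rw [h1]
    · rw [Set.indicator_of_notMem hm]
      have : W ℓ s = 0 := by
        by_contra hn
        exact hm hn
      rw [this]
      simp
  have hsg : Gn plane a ℓ = ∑ e ∈ ℓ, a e * (sg e : ℝ) := by
    unfold Gn
    exact sum_congr rfl fun e _ => by rw [plane_sg]
  rw [hsg, stokes hj h ha]
  unfold Tn
  rcases ht ω ℓ h with ⟨h1, h2⟩ | ⟨h1, h2⟩
  · rw [h1, h0 1 h2 one_ne_zero]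
    congr 1
    push_cast
    ring
  · rw [h1, h0 (-1) h2 (by norm_num), ← Real.cos_neg]
    congr 1
    push_cast
    ring

lemma facT_plane_zero (ht : S_turn) (θ : ℝ) {ω : Cfg} {ℓ : Finset Ed} (h : IsLoop ω ℓ) :
    Real.cos (Tn θ plane ω ℓ) = Real.cos θ := by
  unfold Tn
  rcases ht ω ℓ h with ⟨h1, _⟩ | ⟨h1, _⟩
  · rw [h1]
    congr 1
    push_cast
    ring
  · rw [h1, ← Real.cos_neg]
    congr 1
    push_cast
    ring

/-- The product over all loops is a product over the loops which meet the support of the flow. -/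
lemma Xa_eq (hj : S_jump) (ht : S_turn) {θ : ℝ} (hθ : Real.cos θ ≠ 0) (ω : Cfg) {E : Finset Ed}
    {a : Ed → ℝ} (ha : ∀ e ∉ E, a e = 0) (hfin : (fs a).support.Finite) :
    Xa θ (fs a) ω = ∏ ℓ ∈ LE ω E, H562.wt θ (G (fs a) ℓ) := by
  classical
  unfold Xa
  apply finprod_mem_eq_prod_of_inter_mulSupport_eq
  ext ℓ
  simp only [Set.mem_inter_iff, Set.mem_ofPred_eq, Function.mem_mulSupport, mem_coe, mem_LE]
  constructor
  · rintro ⟨h1, h2⟩
    refine ⟨⟨h1, ?_⟩, h2⟩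
    by_contra hn
    apply h2
    push Not at hn
    unfold H562.wt
    rw [← facT_plane hj ht θ h1 ha hfin, Gn_off plane (fun e he => ha e fun hE => hn e hE he),
      add_zero, facT_plane_zero ht θ h1, div_self hθ]
  · rintro ⟨⟨h1, _⟩, h2⟩
    exact ⟨h1, h2⟩

lemma abs_wt_le {θ : ℝ} (hθ : 0 < Real.cos θ) (t : ℝ) : |H562.wt θ t| ≤ 1 / Real.cos θ := by
  unfold H562.wt
  rw [abs_div, abs_of_pos hθ]
  exact div_le_div_of_nonneg_right (Real.abs_cos_le_one _) hθ.le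

lemma abs_Xa_le (hj : S_jump) (ht : S_turn) {θ : ℝ} (hθ : 0 < Real.cos θ) (ω : Cfg)
    {E : Finset Ed} {a : Ed → ℝ} (ha : ∀ e ∉ E, a e = 0) (hfin : (fs a).support.Finite) :
    |Xa θ (fs a) ω| ≤ (1 / Real.cos θ) ^ E.card := by
  have hi : 1 ≤ 1 / Real.cos θ := by
    rw [le_div_iff₀ hθ, one_mul]
    exact Real.cos_le_one θ
  rw [Xa_eq hj ht hθ.ne' ω ha hfin, abs_prod]
  calc ∏ ℓ ∈ LE ω E, |H562.wt θ (G (fs a) ℓ)| ≤ ∏ _ℓ ∈ LE ω E, (1 / Real.cos θ) :=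
        prod_le_prod (fun _ _ => abs_nonneg _) fun _ _ => abs_wt_le hθ _
    _ = (1 / Real.cos θ) ^ (LE ω E).card := by rw [prod_const]
    _ ≤ (1 / Real.cos θ) ^ E.card := pow_le_pow_right₀ hi (card_LE_le ω E)

lemma Xa_dep (hj : S_jump) (ht : S_turn) {θ : ℝ} (hθ : Real.cos θ ≠ 0) {E : Finset Ed}
    {a : Ed → ℝ} (ha : ∀ e ∉ E, a e = 0) (hfin : (fs a).support.Finite) (K : ℕ) :
    ∀ ω ∈ GK E K, ∀ ω' ∈ GK E K, (∀ v ∈ bx K, ω v = ω' v) →
      Xa θ (fs a) ω = Xa θ (fs a) ω' := by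
  intro ω hω ω' hω' h
  have key : ∀ ω ∈ GK E K, ∀ ω' ∈ GK E K, (∀ v ∈ bx K, ω v = ω' v) → LE ω E ⊆ LE ω' E := by
    intro ω hω ω' _ h ℓ hℓ
    have hb := LE_box hω hℓ
    obtain ⟨h1, h2⟩ := mem_LE.1 hℓ
    exact mem_LE.2 ⟨loop_loc h1 fun v hv => h v (hb v hv), h2⟩
  rw [Xa_eq hj ht hθ ω ha hfin, Xa_eq hj ht hθ ω' ha hfin,
    subset_antisymm (key ω hω ω' hω' h) (key ω' hω' ω hω fun v hv => (h v hv).symm)]

section torus

variable {M L : ℕ} [NeZero M] [NeZero L] (hM : Even M) (hL : Even L)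

include hM hL in
/-- **Torus versus plane.** -/
lemma Wa_eqX (hj : S_jump) (ht : S_turn) {θ : ℝ} (hθ : Real.cos θ ≠ 0) {E : Finset Ed}
    {a : Ed → ℝ} (ha : ∀ e ∉ E, a e = 0) (hfin : (fs a).support.Finite) {K : ℕ}
    (hMK : 2 * (K + 1) + 1 ≤ M) (hLK : 2 * (K + 1) + 1 ≤ L) (ρ : ZMod M × ZMod L → Bool)
    (hG : unR ρ ∈ GK E K) :
    Wa θ M L (pa M L E a) ρ = wT θ M L ρ * Xa θ (fs a) (unR ρ) := by
  classical
  rw [Wa_eq hM hL, wT_eq hM hL]
  set gT := torus M L hM hL with hgT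
  set ω : Cfg := unR ρ with hω
  have hEb : ∀ e ∈ E, bs e ∈ bx (K + 1) := by
    intro e he
    obtain ⟨ℓ, _, h2, h3⟩ := hG e he
    exact bs_mem h3 h2
  have hpa : ∀ e : Ed, bs e ∈ bx (K + 1) → pa M L E a (redE M L e) = a e := by
    intro e he
    unfold pa
    have hfil : ∀ e' ∈ E.filter (fun e' => redE M L e' = redE M L e), e' = e := by
      intro e' he'
      rw [mem_filter] at he'
      exact redE_inj hMK hLK (hEb e' he'.1) he he'.2
    by_cases hE : e ∈ E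
    · rw [sum_eq_single e]
      · intro e' he' hne
        exact absurd (hfil e' he') hne
      · intro hn
        exact (hn (mem_filter.2 ⟨hE, rfl⟩)).elim
    · rw [sum_eq_zero, ha e hE]
      intro e' he'
      have := hfil e' he'
      rw [this] at he'
      exact absurd (mem_filter.1 he').1 hE
  have hfacT : ∀ ℓ ∈ LE ω E, Tn θ gT ρ (ℓ.image (redE M L)) = Tn θ plane ω ℓ := by
    intro ℓ hℓ
    have hb := LE_box hG hℓ
    unfold Tn
    rw [sum_image]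
    · congr 2
      exact sum_congr rfl fun e he => by rw [hgT, turn_red]
    · intro e he e' he' h
      exact redE_inj hMK hLK (bs_mem hb he) (bs_mem hb he') h
  have hfacG : ∀ ℓ ∈ LE ω E, Gn gT (pa M L E a) (ℓ.image (redE M L)) = Gn plane a ℓ := by
    intro ℓ hℓ
    have hb := LE_box hG hℓ
    unfold Gn
    rw [sum_image]
    · exact sum_congr rfl fun e he => by rw [hgT, sg_red, plane_sg, hpa e (bs_mem hb he)]
    · intro e he e' he' h
      exact redE_inj hMK hLK (bs_mem hb he) (bs_mem hb he') h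
  have himg : (orbs (gT.nxP ρ)).filter (fun O => ∃ x ∈ E.image (redE M L), x ∈ O)
      = (LE ω E).image (fun ℓ => ℓ.image (redE M L)) := by
    ext O
    rw [mem_filter, mem_image]
    constructor
    · rintro ⟨h1, x, hx, hxO⟩
      obtain ⟨e, he, rfl⟩ := mem_image.1 hx
      obtain ⟨ℓ, h1', h2', _⟩ := hG e he
      refine ⟨ℓ, mem_LE.2 ⟨h1', e, he, h2'⟩, ?_⟩
      rw [eq_orb_of_mem h1 hxO, hgT, orb_image hM hL h1' h2']
    · rintro ⟨ℓ, hℓ, rfl⟩
      obtain ⟨h1, e, he, heℓ⟩ := mem_LE.1 hℓ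
      refine ⟨?_, redE M L e, mem_image_of_mem _ he, mem_image_of_mem _ heℓ⟩
      rw [← orb_image hM hL h1 heℓ]
      exact orb_mem_orbs _
  have hinj : ∀ ℓ ∈ LE ω E, ∀ ℓ' ∈ LE ω E, ℓ.image (redE M L) = ℓ'.image (redE M L) → ℓ = ℓ' := by
    intro ℓ hℓ ℓ' hℓ' h
    obtain ⟨h1, e, _, heℓ⟩ := mem_LE.1 hℓ
    obtain ⟨h1', _⟩ := mem_LE.1 hℓ'
    have : redE M L e ∈ ℓ'.image (redE M L) := h ▸ mem_image_of_mem _ heℓ
    obtain ⟨e', he', hee'⟩ := mem_image.1 this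
    have := redE_inj hMK hLK (bs_mem (LE_box hG hℓ') he') (bs_mem (LE_box hG hℓ) heℓ) hee'
    rw [this] at he'
    exact loop_unique h1 h1' heℓ he'
  have hsplit : ∀ F : Finset (Edge (ZMod M × ZMod L)) → ℝ, ∏ O ∈ orbs (gT.nxP ρ), F O
      = (∏ ℓ ∈ LE ω E, F (ℓ.image (redE M L))) *
        ∏ O ∈ (orbs (gT.nxP ρ)).filter (fun O => ¬ ∃ x ∈ E.image (redE M L), x ∈ O), F O := by
    intro F
    rw [← prod_filter_mul_prod_filter_not (orbs (gT.nxP ρ))
      (fun O => ∃ x ∈ E.image (redE M L), x ∈ O), himg, prod_image]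
    intro ℓ hℓ ℓ' hℓ' h
    exact hinj ℓ hℓ ℓ' hℓ' h
  rw [hsplit, hsplit, Xa_eq hj ht hθ ω ha hfin]
  have e1 : ∏ ℓ ∈ LE ω E, 2 * Real.cos (Tn θ gT ρ (ℓ.image (redE M L)) +
        Gn gT (pa M L E a) (ℓ.image (redE M L)))
      = (∏ ℓ ∈ LE ω E, 2 * Real.cos (Tn θ gT ρ (ℓ.image (redE M L)))) *
        ∏ ℓ ∈ LE ω E, H562.wt θ (G (fs a) ℓ) := by
    rw [← prod_mul_distrib]
    refine prod_congr rfl fun ℓ hℓ => ?_
    have h1 := (mem_LE.1 hℓ).1
    rw [hfacT ℓ hℓ, hfacG ℓ hℓ, facT_plane hj ht θ h1 ha hfin, facT_plane_zero ht θ h1]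
    unfold H562.wt
    field_simp
  have e3 : ∏ O ∈ (orbs (gT.nxP ρ)).filter (fun O => ¬ ∃ x ∈ E.image (redE M L), x ∈ O),
      2 * Real.cos (Tn θ gT ρ O + Gn gT (pa M L E a) O)
      = ∏ O ∈ (orbs (gT.nxP ρ)).filter (fun O => ¬ ∃ x ∈ E.image (redE M L), x ∈ O),
      2 * Real.cos (Tn θ gT ρ O) := by
    refine prod_congr rfl fun O hO => ?_
    rw [Gn_off, add_zero]
    intro x hx
    exact pa_off fun hx' => (mem_filter.1 hO).2 ⟨x, hx', hx⟩
  rw [e1, e3]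
  ring

end torus

lemma ae_GKP {P : Measure Cfg} (hf : ∀ᵐ ω ∂P, Good ω) (E : Finset Ed) :
    ∀ᵐ ω ∂P, ∀ᶠ K in atTop, ω ∈ GK E K := by
  filter_upwards [hf] with ω hω
  have : ∀ e : Ed, ∀ᶠ K : ℕ in atTop, ∃ ℓ, IsLoop ω ℓ ∧ e ∈ ℓ ∧ ∀ v ∈ vs ℓ, v ∈ bx K := by
    intro e
    obtain ⟨ℓ, h1, h2⟩ := hω e
    obtain ⟨K, hK⟩ : ∃ K : ℕ, ∀ v ∈ vs ℓ, v ∈ bx K := by
      refine ⟨(vs ℓ).sup (fun v => max v.1.natAbs v.2.natAbs), fun v hv => ?_⟩
      have := Finset.le_sup (f := fun v : ℤ × ℤ => max v.1.natAbs v.2.natAbs) hv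
      have h3 := (le_max_left _ _).trans this
      have h4 := (le_max_right _ _).trans this
      rw [mem_bx]
      omega
    filter_upwards [eventually_ge_atTop K] with K' hK'
    exact ⟨ℓ, h1, h2, fun v hv => bx_mono hK' (hK v hv)⟩
  have h2 := (eventually_all_finset E).2 fun e _ => this e
  filter_upwards [h2] with K hK
  exact hK

/-- The torus observable. -/
noncomputable def PhT (θ : ℝ) (E : Finset Ed) (a : Ed → ℝ) (M L : ℕ) [NeZero M] [NeZero L]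
    (ρ : ZMod M × ZMod L → Bool) : ℝ := Wa θ M L (pa M L E a) ρ

/-- **GQ4.** The Baxter-Kelland-Wu identity in the plane. -/
theorem g_id {θ : ℝ} (h0 : 0 ≤ θ) (h1 : θ ≤ Real.pi / 3) {P : Measure Cfg}
    (hP : IsLim (2 * Real.cos θ) P) (hf : ∀ᵐ ω ∂P, Good ω) : G_id θ P := by
  classical
  intro P6 hP6 hTor f hfs hf0 h hh
  have hPp : IsProbabilityMeasure P := hP.1
  have hc : 0 < Real.cos θ := by have := half_le_cos h0 h1; linarith
  have hi : 1 ≤ 1 / Real.cos θ := by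
    rw [le_div_iff₀ hc, one_mul]
    exact Real.cos_le_one θ
  -- the flow
  obtain ⟨K, hK⟩ : ∃ K : ℕ, ∀ v : ℤ × ℤ, v ∉ bx K → f (v.1 + 1, v.2 + 1) = 0 := by
    have hb : ∃ B : ℕ, ∀ v ∈ hfs.toFinset, v.1.natAbs ≤ B ∧ v.2.natAbs ≤ B := by
      refine ⟨hfs.toFinset.sup (fun v => max v.1.natAbs v.2.natAbs), fun v hv => ?_⟩
      have := Finset.le_sup (f := fun v : ℤ × ℤ => max v.1.natAbs v.2.natAbs) hv
      exact ⟨le_trans (le_max_left _ _) this, le_trans (le_max_right _ _) this⟩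
    obtain ⟨B, hB⟩ := hb
    refine ⟨B + 1, fun v hv => ?_⟩
    by_contra hn
    have h1 := hB (v.1 + 1, v.2 + 1) (by simpa using hn)
    apply hv
    rw [mem_bx]
    simp only at h1
    push_cast
    omega
  set m : ℤ × ℤ → ℝ := fun v => f (v.1 + 1, v.2 + 1) with hm
  have hshift : ∀ F : ℤ × ℤ → ℝ, ∑' v : ℤ × ℤ, F (v.1 + 1, v.2 + 1) = ∑' v, F v := by
    intro F
    let e : ℤ × ℤ ≃ ℤ × ℤ := ⟨fun v => (v.1 + 1, v.2 + 1), fun v => (v.1 - 1, v.2 - 1),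
      fun v => by simp, fun v => by simp⟩
    exact e.tsum_eq F
  have hm0 : ∑ v ∈ bx K, m v = 0 := by
    have e1 : ∑' v, m v = ∑ v ∈ bx K, m v := tsum_eq_sum fun v hv => hK v hv
    rw [← e1, hshift f, tsum_eq_finsum hfs, hf0]
  obtain ⟨E, a, haE, hdv⟩ := exists_flow (m := m) (K := K) hK hm0
  have hfsa : fs a = f := by
    funext s
    unfold fs
    rw [hdv]
    simp [hm]
  have hfin : (fs a).support.Finite := by rw [hfsa]; exact hfs
  have hj := s_jump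
  set u : Ori (ℤ × ℤ) → ℝ := fun ω => Real.cos (∑ e ∈ E, a e * sgb (ω e)) with hu
  have hstep : ∫ ω, Real.cos (∑ᶠ s : ℤ × ℤ, f (s.1 + 1, s.2 + 1) * (h ω s : ℝ)) ∂P6
      = ∫ ω, u ω ∂P6 := by
    refine integral_congr_ae ?_
    filter_upwards [hh] with ω hω
    simp only [hu]
    rw [sum_arrows hω haE, hdv, ← tsum_eq_finsum (L := SummationFilter.unconditional _)]
    · congr 1
      exact tsum_congr fun v => by simp only [hm]; ring
    · refine (bx K).finite_toSet.subset fun v hv => ?_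
      by_contra hn
      exact hv (by simp only; rw [hK v hn, zero_mul])
  rw [hstep, ← hfsa]
  refine transfer2 (T := fun M L _ _ => torU (2 * Real.cos (θ / 2)) M L u)
    (W := fun M L _ _ => wT θ M L)
    (Φ := fun M L _ _ => PhT θ E a M L) (G := GK E) (D := (1 / Real.cos θ) ^ E.card)
    ?_ (fun M L _ _ _ _ => ZT_pos h0 h1)
    (fun F K' hF D hD ε hε => tor_conv h0 h1 hP hF hD hε)
    (fun ω => abs_Xa_le hj s_turn hc ω haE hfin) (GK_dep E)
    (Xa_dep hj s_turn hc.ne' haE hfin) (ae_GKP hf E) ?_ ?_ ?_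
  · intro ε hε
    exact hTor E u (fun ω ω' hω => by
      simp only [hu]
      congr 1
      exact sum_congr rfl fun e he => by rw [hω e he]) ε hε
  · intro M L _ _ hM hL ρ
    unfold PhT
    have := abs_Wa_le hM hL h0 h1 ρ (a := pa M L E a) (E := E.image (redE M L))
      (fun x hx => pa_off hx)
    refine this.trans ?_
    apply mul_le_mul_of_nonneg_right _ (wT_pos' h0 h1 ρ).le
    exact pow_le_pow_right₀ hi card_image_le
  · intro K'
    refine ⟨2 * (K' + 1) + 1, fun M L _ _ hM hL h1 h2 R hR => ?_⟩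
    exact Wa_eqX hM hL hj s_turn hc.ne' haE hfin h1 h2 R hR
  · exact ⟨0, fun M L _ _ hM hL _ _ => torU_eqT hM hL θ E a⟩

end Vale.Agent.P167.H685
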