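import Vale.Agent.P167.H685.Fin
import Vale.Agent.P167.H685.GId
import Vale.Agent.P167.H562.GRml

/-!
General `q`: almost surely all loops are finite.
-/

namespace Vale.Agent.P167.H685

open Finset Filter Topology MeasureTheory
open Vale.Agent.P167.FK (Good ArmDx Bq RSW)
open Vale.Agent.P167.H519 (IsLim)
open Vale.Agent.P145.FB (PStep PConn)

lemma armD_of_far {ω : Cfg} {e : Ed} {n : ℕ} {R : ℤ} (hR : 1 ≤ R)
    (h : R ≤ nm (rs ((nx ω)^[n] e) - rs e)) : ArmDx (rs e) 1 R ω := by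
  have h0 : nm (rs e - rs e) ≤ R := by simp [nm]; omega
  obtain ⟨v', h1, h2⟩ := FKA.exit (FKA.rtg_of_pconn (reach ω e n)) h0 h
  exact ⟨rs e, v', rs_odd e, by simp [nm], h1.ge, h2⟩

lemma finite_of_no_arm {ω : Cfg} {e : Ed} {R : ℤ} (hR : 1 ≤ R) (h : ¬ ArmDx (rs e) 1 R ω) :
    ∃ ℓ, IsLoop ω ℓ ∧ e ∈ ℓ := by
  classical
  have hfin : (Set.range fun n : ℕ => (nx ω)^[n] e).Finite := by
    have hbox : ∀ n : ℕ, nm (rs ((nx ω)^[n] e) - rs e) < R := by
      intro n
      by_contra hn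
      exact h (armD_of_far hR (not_lt.1 hn))
    set K : ℕ := (R + |(rs e).1| + |(rs e).2| + 2).toNat with hK
    refine Set.Finite.subset (((bx K).image Sum.inl ∪ (bx K).image Sum.inr : Finset Ed).finite_toSet)
      ?_
    rintro _ ⟨n, rfl⟩
    have h1 := hbox n
    have h2 := bs_rs ((nx ω)^[n] e)
    simp only [nm, max_lt_iff, abs_lt, Prod.fst_sub, Prod.snd_sub] at h1
    have h3 : bs ((nx ω)^[n] e) ∈ bx K := by
      rw [mem_bx]
      have a3 := abs_le.1 h2.1
      have a4 := abs_le.1 h2.2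
      have a5 := abs_le.1 (le_refl |(rs e).1|)
      have a6 := abs_le.1 (le_refl |(rs e).2|)
      have a7 := abs_nonneg (rs e).1
      have a8 := abs_nonneg (rs e).2
      omega
    simp only
    rcases h4 : (nx ω)^[n] e with v | v
    · rw [h4] at h3
      exact mem_coe.2 (mem_union_left _ (mem_image_of_mem _ h3))
    · rw [h4] at h3
      exact mem_coe.2 (mem_union_right _ (mem_image_of_mem _ h3))
  refine ⟨hfin.toFinset, ⟨e, fun e' => ?_⟩, ?_⟩
  · rw [Set.Finite.mem_toFinset]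
    rfl
  · rw [Set.Finite.mem_toFinset]
    exact ⟨0, rfl⟩

/-- Almost surely all loops are finite. -/
theorem good_ae {P : Measure Cfg} [IsProbabilityMeasure P] (hA : H562.GL.ArmPr P) :
    ∀ᵐ ω ∂P, Good ω := by
  obtain ⟨α, C, hα, hC, h⟩ := hA
  have key : ∀ e : Ed, ∀ᵐ ω ∂P, ∃ ℓ, IsLoop ω ℓ ∧ e ∈ ℓ := by
    intro e
    set A : ℕ → Set Cfg := fun R => {ω | ArmDx (rs e) 1 ((R : ℤ) + 1) ω} with hA
    have hmeas : ∀ R, MeasurableSet (A R) := by
      intro R
      obtain ⟨K, hK⟩ : ∃ K : ℕ, Bq (rs e) ((R : ℤ) + 1) ⊆ bx K := by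
        refine ⟨(R + 1 + |(rs e).1| + |(rs e).2|).toNat, fun v hv => ?_⟩
        have a5 := abs_le.1 (le_refl |(rs e).1|)
        have a6 := abs_le.1 (le_refl |(rs e).2|)
        have a7 := abs_nonneg (rs e).1
        have a8 := abs_nonneg (rs e).2
        simp only [Bq, mem_product, mem_Ico] at hv
        rw [mem_bx]
        omega
      have hd : Dep ((A R).indicator (1 : Cfg → ℝ)) (bx K : Set (ℤ × ℤ)) := fun ω ω' hω =>
        H562.GL.loc_armD (rs e) 1 ((R : ℤ) + 1) ω ω' fun v hv => hω v (mem_coe.2 (hK hv))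
      have : A R = ((A R).indicator (1 : Cfg → ℝ)) ⁻¹' {1} := by
        ext ω
        by_cases hω : ω ∈ A R <;> simp [hω]
      rw [this]
      exact hd.measurable (measurableSet_singleton _)
    have hle : ∀ R : ℕ, P.real (A R) ≤ C * (1 / ((R : ℝ) + 1)) ^ α := by
      intro R
      have h1 := (h (rs e) 1 ((R : ℤ) + 1) ∅ (fun _ => 1) le_rfl (by omega)
        (fun _ => zero_le_one) (fun _ _ _ => rfl) (fun _ _ _ => rfl)).2
      simp only [one_mul, integral_const, probReal_univ, smul_eq_mul, mul_one] at h1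
      rw [integral_indicator_one (hmeas R)] at h1
      refine h1.trans (le_of_eq ?_)
      push_cast
      rfl
    have hlim : Tendsto (fun R : ℕ => C * (1 / ((R : ℝ) + 1)) ^ α) atTop (𝓝 0) := by
      have h1 : Tendsto (fun R : ℕ => 1 / ((R : ℝ) + 1)) atTop (𝓝 0) :=
        tendsto_one_div_add_atTop_nhds_zero_nat
      have h2 := (h1.rpow_const (p := α) (Or.inr hα.le)).const_mul C
      rwa [Real.zero_rpow hα.ne', mul_zero] at h2
    have h0 : P.real (⋂ R, A R) ≤ 0 :=
      ge_of_tendsto' hlim fun R =>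
        (measureReal_mono (Set.iInter_subset _ R)).trans (hle R)
    have h00 : P (⋂ R, A R) = 0 := by
      have := le_antisymm h0 measureReal_nonneg
      rwa [measureReal_eq_zero_iff] at this
    rw [ae_iff]
    refine measure_mono_null (fun ω hω => ?_) h00
    simp only [Set.mem_ofPred_eq] at hω
    rw [Set.mem_iInter]
    intro R
    by_contra hn
    exact hω (finite_of_no_arm (R := (R : ℤ) + 1) (by omega) hn)
  have := ae_all_iff.2 key
  filter_upwards [this] with ω hω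
  exact hω

/-- **GQ4**, from `RSW`. -/
theorem g_id_rsw {θ : ℝ} (h0 : 0 ≤ θ) (h1 : θ ≤ Real.pi / 3) (hr : RSW (2 * Real.cos θ))
    {P : Measure Cfg} (hP : IsLim (2 * Real.cos θ) P) : G_id θ P := by
  have hPp : IsProbabilityMeasure P := hP.1
  have hQ : 1 ≤ 2 * Real.cos θ := by have := half_le_cos h0 h1; linarith
  obtain ⟨α, C, hα, hC, k1, k2⟩ := FKA.arm_fk hQ hr
  exact g_id h0 h1 hP (good_ae (H562.GL.armPr hP hα hC k1 k2))

end Vale.Agent.P167.H685
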