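import Vale.Agent.P167.H45.Small3
import Vale.Agent.P167.H562.GLg
import Vale.Agent.P167.H562.GDefs

/-!
# P167, general angle: small loops (`G_small`) from the linear statistics (`LinP`)

Adapted from `H45/Small3.lean`, `H45/Real1.lean`.
-/

namespace Vale.Agent.P167.H685

open Finset Filter Topology MeasureTheory ProbabilityTheory
open Vale.Agent.P167.H562
open Vale.Agent.P167.H45 (sf mem_sf SLo_fin SLo sf_loc XX XX_le decomp grid_scale BL_measR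
  G_bound G_smul ins_fin meas_locfun gp BL)

variable {P : Measure Cfg}

/-- Linear statistics of the small loops have bounded exponential moments. -/
def LinP (P : Measure Cfg) : Prop := ∀ Cm kp : ℝ, 0 < Cm → 0 < kp → kp ≤ 1 / 8 → ∀ T1 : ℝ,
  ∃ B : ℝ, ∀ ρ : ℝ, 4 ≤ ρ → ∀ m, Chg Cm ρ m → ∀ t : ℝ, |t| ≤ T1 →
    Em P (fun ω => t * (∑ ℓ ∈ H45.sf ρ (kp * ρ) ω, G m ℓ -
      ∫ ω', ∑ ℓ ∈ H45.sf ρ (kp * ρ) ω', G m ℓ ∂P)) ≤ ENNReal.ofReal (Real.exp B)

theorem wt_near {a u : ℝ} (ha0 : 0 ≤ a) (ha : a < Real.pi / 2)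
    (hu : |u| ≤ 1 / (10 * (Real.tan a + 1))) :
    |wt a u - (1 - Real.tan a * u)| ≤ u ^ 2 ∧ Real.tan a * |u| ≤ 1 / 10 ∧ |u| ≤ 1 / 10 := by
  have hc : 0 < Real.cos a := Real.cos_pos_of_mem_Ioo ⟨by linarith [Real.pi_pos], ha⟩
  have hT : 0 ≤ Real.tan a := by
    rw [Real.tan_eq_sin_div_cos]
    exact div_nonneg (Real.sin_nonneg_of_nonneg_of_le_pi ha0 (by linarith [Real.pi_pos])) hc.le
  set T := Real.tan a with hTd
  have hu1 : (T + 1) * |u| ≤ 1 / 10 := by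
    rw [le_div_iff₀ (by positivity)] at hu
    linarith
  have hu0 := abs_nonneg u
  have hu2 : |u| ≤ 1 / 10 := by nlinarith [mul_nonneg hT hu0]
  have hu3 : T * |u| ≤ 1 / 10 := by nlinarith
  refine ⟨?_, hu3, hu2⟩
  have he : wt a u = Real.cos u - T * Real.sin u := by
    unfold wt
    rw [hTd, Real.tan_eq_sin_div_cos, Real.cos_add]
    field_simp
  have hc1 := Real.cos_le_one u
  have hc2 := Real.one_sub_sq_div_two_le_cos (x := u)
  have hs : |Real.sin u - u| ≤ |u| ^ 3 / 4 := by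
    have hb : ∀ x : ℝ, 0 ≤ x → x ≤ 1 / 10 → |Real.sin x - x| ≤ x ^ 3 / 4 := by
      intro x hx hx1
      rcases hx.eq_or_lt with rfl | hx0
      · simp
      · have h1 := Real.sin_gt_sub_cube hx0
        have h2 := Real.sin_lt hx0
        rw [abs_le]; constructor <;> linarith [pow_pos hx0 3]
    rcases le_total 0 u with h | h
    · rw [abs_of_nonneg h] at hu2 ⊢
      exact hb u h hu2
    · rw [abs_of_nonpos h] at hu2 ⊢
      have := hb (-u) (by linarith) hu2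
      rw [Real.sin_neg] at this
      have e : Real.sin u - u = -(-Real.sin u - -u) := by ring
      rw [e, abs_neg]; exact this
  have hcube : T * (|u| ^ 3 / 4) ≤ u ^ 2 / 40 := by
    have : |u| ^ 3 = u ^ 2 * |u| := by rw [← sq_abs]; ring
    rw [this]
    nlinarith [sq_nonneg u]
  have hsT : |T * (Real.sin u - u)| ≤ u ^ 2 / 40 := by
    rw [abs_mul, abs_of_nonneg hT]
    exact (mul_le_mul_of_nonneg_left hs hT).trans hcube
  rw [he]
  rw [abs_le] at hsT ⊢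
  constructor
  · nlinarith [sq_nonneg u]
  · nlinarith [sq_nonneg u]

theorem wt_pos_near {a u : ℝ} (ha0 : 0 ≤ a) (ha : a < Real.pi / 2)
    (hu : |u| ≤ 1 / (10 * (Real.tan a + 1))) : 1 / 2 < wt a u := by
  obtain ⟨h, h1, h2⟩ := wt_near ha0 ha hu
  have hc : 0 < Real.cos a := Real.cos_pos_of_mem_Ioo ⟨by linarith [Real.pi_pos], ha⟩
  have hT : 0 ≤ Real.tan a := by
    rw [Real.tan_eq_sin_div_cos]
    exact div_nonneg (Real.sin_nonneg_of_nonneg_of_le_pi ha0 (by linarith [Real.pi_pos])) hc.le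
  have h3 : Real.tan a * u ≤ Real.tan a * |u| := mul_le_mul_of_nonneg_left (le_abs_self u) hT
  have h4 : u ^ 2 ≤ 1 / 100 := by
    rw [← sq_abs]; nlinarith [abs_nonneg u]
  rw [abs_le] at h
  linarith [h.1]

theorem log_wt {a u : ℝ} (ha0 : 0 ≤ a) (ha : a < Real.pi / 2)
    (hu : |u| ≤ 1 / (10 * (Real.tan a + 1))) :
    |Real.log (wt a u) + Real.tan a * u| ≤ (1 + 2 * (Real.tan a + 1) ^ 2) * u ^ 2 := by
  obtain ⟨h, h1, h2⟩ := wt_near ha0 ha hu
  have hpos := wt_pos_near ha0 ha hu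
  have hc : 0 < Real.cos a := Real.cos_pos_of_mem_Ioo ⟨by linarith [Real.pi_pos], ha⟩
  have hT : 0 ≤ Real.tan a := by
    rw [Real.tan_eq_sin_div_cos]
    exact div_nonneg (Real.sin_nonneg_of_nonneg_of_le_pi ha0 (by linarith [Real.pi_pos])) hc.le
  set T := Real.tan a
  have hp : 0 < wt a u := by linarith
  have h3 := Real.log_le_sub_one_of_pos hp
  have h4 := Real.one_sub_inv_le_log_of_pos hp
  rw [abs_le] at h ⊢
  constructor
  · set y := wt a u - 1 with hy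
    have hy1 : wt a u = 1 + y := by rw [hy]; ring
    have h5 : 1 - (wt a u)⁻¹ = y - y ^ 2 / wt a u := by
      rw [hy1] at hp ⊢
      field_simp
      ring
    have h6 : y ^ 2 / wt a u ≤ 2 * y ^ 2 := by
      rw [div_le_iff₀ hp]
      nlinarith [sq_nonneg y]
    have h7 : y ^ 2 ≤ (T + 1) ^ 2 * u ^ 2 := by
      have h8 : |y| ≤ (T + 1) * |u| := by
        have h9 : |y| ≤ |T * u| + u ^ 2 := by
          have : y = -(T * u) + (wt a u - (1 - T * u)) := by rw [hy]; ring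
          rw [this]
          refine (abs_add_le _ _).trans ?_
          rw [abs_neg]
          exact add_le_add le_rfl (abs_le.2 h)
        rw [abs_mul, abs_of_nonneg hT] at h9
        have h10 : u ^ 2 = |u| * |u| := by rw [← sq, sq_abs]
        rw [h10] at h9
        nlinarith [abs_nonneg u]
      calc y ^ 2 = |y| ^ 2 := (sq_abs y).symm
        _ ≤ ((T + 1) * |u|) ^ 2 := pow_le_pow_left₀ (abs_nonneg y) h8 2
        _ = _ := by rw [mul_pow, sq_abs]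
    rw [h5] at h4
    linarith
  · have : 0 ≤ 2 * (T + 1) ^ 2 * u ^ 2 := by positivity
    linarith

theorem EmP_add [IsProbabilityMeasure P] {A B : Cfg → ℝ} (hA : Measurable A) (hB : Measurable B)
    {a b : ℝ} (h1 : Em P (fun ω => 2 * A ω) ≤ ENNReal.ofReal (Real.exp a))
    (h2 : Em P (fun ω => 2 * B ω) ≤ ENNReal.ofReal (Real.exp b)) :
    Em P (fun ω => A ω + B ω) ≤ ENNReal.ofReal (Real.exp ((a + b) / 2)) := by
  have h := Em_holder (μ := P) (Finset.univ : Finset Bool) (Y := fun i => cond i A B)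
    (fun i _ => by cases i <;> assumption) (θ := fun _ => 1 / 2) (B := fun i => cond i a b)
    (fun _ _ => by norm_num) (by simp) (fun i _ => by
      cases i
      · simpa using h2
      · simpa using h1)
  simp only [Fintype.sum_bool, cond_true, cond_false] at h
  refine h.trans (ENNReal.ofReal_le_ofReal (Real.exp_le_exp.2 (by linarith)))

theorem EmP_add_const {A : Cfg → ℝ} {a : ℝ} {B : ENNReal} (h1 : Em P A ≤ B) :
    Em P (fun ω => a + A ω) ≤ ENNReal.ofReal (Real.exp a) * B := by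
  unfold Em at *
  calc ∫⁻ ω, ENNReal.ofReal (Real.exp (a + A ω)) ∂P
      = ∫⁻ ω, ENNReal.ofReal (Real.exp a) * ENNReal.ofReal (Real.exp (A ω)) ∂P := by
        refine lintegral_congr fun ω => ?_
        rw [Real.exp_add, ENNReal.ofReal_mul (Real.exp_pos _).le]
    _ = ENNReal.ofReal (Real.exp a) * ∫⁻ ω, ENNReal.ofReal (Real.exp (A ω)) ∂P :=
        lintegral_const_mul' _ _ ENNReal.ofReal_ne_top
    _ ≤ _ := mul_le_mul_right h1 _

/-- Quadratic statistics of the small loops. -/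
theorem quad_partP [IsProbabilityMeasure P] (hX : GL.CrossP P) {Cm κ : ℝ} (hCm : 0 < Cm)
    (hκ : 0 < κ) (hκ1 : κ ≤ 1 / 8)
    {lam : ℝ} (hlam : 0 ≤ lam) : ∃ B : ℝ, ∀ ρ : ℝ, 4 ≤ ρ → ∀ m, Chg Cm ρ m →
      Em P (fun ω => lam * ∑ ℓ ∈ sf ρ (κ * ρ) ω, (G m ℓ) ^ 2) ≤ ENNReal.ofReal (Real.exp B) := by
  classical
  set α : ℝ := Cm * κ ^ 2 with hα
  set β : ℝ := 400 / κ ^ 2 with hβ
  have hα0 : 0 < α := by positivity
  have hβ0 : 0 < β := by positivity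
  obtain ⟨C, hC⟩ := GL.large_gen hX s_con s_two (1 / 8) (2 * β * lam * α ^ 2) (by norm_num)
  set M : ℝ := max C 1 with hM
  have hM1 : 1 ≤ M := le_max_right _ _
  have hlogM : 0 ≤ Real.log M := Real.log_nonneg hM1
  refine ⟨Real.log M, fun ρ hρ m hm => ?_⟩
  have hρ0 : 0 < ρ := by linarith
  obtain ⟨Ig, hIg⟩ := grid_scale hκ hκ1 hρ
  have hex : ∃ J : ℕ, κ * ρ / 2 ^ J ≤ 1 := by
    obtain ⟨J, hJ⟩ := pow_unbounded_of_one_lt (κ * ρ) (by norm_num : (1 : ℝ) < 2)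
    exact ⟨J, by rw [div_le_one (by positivity)]; exact hJ.le⟩
  obtain ⟨J, hJ, hJ'⟩ : ∃ J : ℕ, κ * ρ / 2 ^ J ≤ 1 ∧ ∀ j < J, 1 ≤ κ * ρ / 2 ^ j :=
    ⟨Nat.find hex, Nat.find_spec hex, fun j hj => (not_le.1 (Nat.find_min hex hj)).le⟩
  have hGb : ∀ j : ℕ, ∀ ω ℓ, IsLoop ω ℓ → Small (κ * ρ / 2 ^ j) ℓ →
      |(G m ℓ) ^ 2| ≤ (α * (1 / 4) ^ j) ^ 2 := by
    intro j ω ℓ h1 h2
    obtain ⟨g1, g2⟩ := G_bound s_out hCm.le hm h1 h2
    rw [abs_of_nonneg (sq_nonneg _)]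
    refine pow_le_pow_left₀ g1 (g2.trans (le_of_eq ?_)) 2
    rw [hα]
    have : ((1 : ℝ) / 4) ^ j = 1 / (2 ^ j) ^ 2 := by
      rw [← pow_mul, mul_comm j 2, pow_mul, one_div, inv_pow]; norm_num
    rw [this]; field_simp
  set K : ℕ → ℤ × ℤ → Cfg → ℝ := fun j z ω => ((BL (gp ⌈κ * ρ / 2 ^ j⌉ z)
    (2 * (⌈κ * ρ / 2 ^ j⌉ : ℝ)) (1 / 8 * (2 * (⌈κ * ρ / 2 ^ j⌉ : ℝ))) ω).ncard : ℝ) with hK
  have hKm : ∀ j z, Measurable (K j z) := fun j z => BL_measR _ _ _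
  let I : Finset (Σ _ : ℕ, ℤ × ℤ) := (Finset.range J).sigma Ig
  let θ : (Σ _ : ℕ, ℤ × ℤ) → ℝ := fun p => (1 / 2) ^ (p.1 + 1) * (1 / 4) ^ p.1 / β
  have hθ : ∀ p, 0 < θ p := fun p => by positivity
  have hsum : ∑ p ∈ I, θ p ≤ 1 := by
    rw [Finset.sum_sigma]
    calc ∑ j ∈ Finset.range J, ∑ z ∈ Ig j, θ ⟨j, z⟩
        ≤ ∑ j ∈ Finset.range J, ((1 : ℝ) / 2) ^ (j + 1) := by
          refine Finset.sum_le_sum fun j hj => ?_
          simp only [θ, Finset.sum_const, nsmul_eq_mul]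
          have h1 := (hIg j (hJ' j (Finset.mem_range.1 hj))).1
          rw [← hβ] at h1
          calc ((Ig j).card : ℝ) * ((1 / 2) ^ (j + 1) * (1 / 4) ^ j / β)
              ≤ (β * 4 ^ j) * ((1 / 2) ^ (j + 1) * (1 / 4) ^ j / β) :=
                mul_le_mul_of_nonneg_right h1 (by positivity)
            _ = (1 / 2) ^ (j + 1) * ((4 : ℝ) ^ j * (1 / 4) ^ j) := by field_simp
            _ = (1 / 2) ^ (j + 1) := by rw [← mul_pow]; norm_num
      _ ≤ 1 := geom_half J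
  have hB : ∀ p ∈ I, Em P (fun ω => (θ p)⁻¹ * (lam * ((α * (1 / 4) ^ p.1) ^ 2 * K p.1 p.2 ω))) ≤
      ENNReal.ofReal (Real.exp (Real.log M)) := by
    rintro ⟨j, z⟩ hp
    have hj : j < J := Finset.mem_range.1 (Finset.mem_sigma.1 hp).1
    have h1 : (1 : ℝ) ≤ ⌈κ * ρ / 2 ^ j⌉ := (hJ' j hj).trans (Int.le_ceil _)
    have h2 := hC (gp ⌈κ * ρ / 2 ^ j⌉ z) (2 * (⌈κ * ρ / 2 ^ j⌉ : ℝ)) (by linarith)
    rw [Real.exp_log (by linarith)]
    refine le_trans (Em_mono fun ω => ?_) (h2.trans (ENNReal.ofReal_le_ofReal (le_max_left _ _)))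
    have hK0 : 0 ≤ K j z ω := by simp only [hK]; positivity
    have e1 : (θ ⟨j, z⟩)⁻¹ * (lam * ((α * (1 / 4) ^ j) ^ 2 * K j z ω)) =
        (2 * β * lam * α ^ 2) * ((1 / 2) ^ j * K j z ω) := by
      simp only [θ]
      have e2 : ((1 : ℝ) / 4) ^ j = (1 / 2) ^ j * (1 / 2) ^ j := by rw [← mul_pow]; norm_num
      have e3 : ((1 : ℝ) / 2) ^ j ≠ 0 := by positivity
      rw [e2, pow_succ]
      field_simp
    show (θ ⟨j, z⟩)⁻¹ * (lam * ((α * (1 / 4) ^ j) ^ 2 * K j z ω)) ≤ _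
    rw [e1]
    have h3 : ((1 : ℝ) / 2) ^ j * K j z ω ≤ 1 * K j z ω :=
      mul_le_mul_of_nonneg_right (pow_le_one₀ (by norm_num) (by norm_num)) hK0
    rw [one_mul] at h3
    exact mul_le_mul_of_nonneg_left h3 (by positivity)
  have hfin := Em_holder (μ := P) I (Y := fun p ω => lam * ((α * (1 / 4) ^ p.1) ^ 2 * K p.1 p.2 ω))
    (fun p _ => ((hKm p.1 p.2).const_mul _).const_mul _) (fun p _ => hθ p) hsum hB
  have hle : ∀ ω, lam * ∑ ℓ ∈ sf ρ (κ * ρ) ω, (G m ℓ) ^ 2 ≤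
      ∑ p ∈ I, lam * ((α * (1 / 4) ^ p.1) ^ 2 * K p.1 p.2 ω) := by
    intro ω
    rw [decomp hJ hJ' (fun j hj => (hIg j hj).2) (fun ℓ => (G m ℓ) ^ 2) ω, ← Finset.mul_sum,
      Finset.sum_sigma]
    refine mul_le_mul_of_nonneg_left (Finset.sum_le_sum fun j hj => Finset.sum_le_sum fun z _ => ?_)
      hlam
    exact (le_abs_self _).trans (XX_le hJ (hJ' j (Finset.mem_range.1 hj)) z ω (by positivity)
      (fun ℓ h1 h2 => hGb j ω ℓ h1 h2))
  refine (Em_mono hle).trans (hfin.trans (ENNReal.ofReal_le_ofReal (Real.exp_le_exp.2 ?_)))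
  rw [← Finset.sum_mul]
  calc (∑ p ∈ I, θ p) * Real.log M ≤ 1 * Real.log M := mul_le_mul_of_nonneg_right hsum hlogM
    _ = _ := one_mul _

/-- The small loops, from the linear statistics. -/
theorem small_mainP [IsProbabilityMeasure P] {a : ℝ} (ha0 : 0 < a) (ha : a < Real.pi / 2)
    (hX : GL.CrossP P) (hL : LinP P) : G_small a P := by
  classical
  have hc : 0 < Real.cos a := Real.cos_pos_of_mem_Ioo ⟨by linarith [Real.pi_pos], ha⟩
  have hT0 : 0 ≤ Real.tan a := by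
    rw [Real.tan_eq_sin_div_cos]
    exact div_nonneg (Real.sin_nonneg_of_nonneg_of_le_pi ha0.le (by linarith [Real.pi_pos])) hc.le
  set τ : ℝ := Real.tan a with hτ
  intro Cm T hCm hT
  set κ : ℝ := min (1 / 8) (1 / (10 * (τ + 1) * (T * Cm + 1))) with hκd
  have hκ : 0 < κ := lt_min (by norm_num) (by positivity)
  have hκ1 : κ ≤ 1 / 8 := min_le_left _ _
  have hκ2 : T * (Cm * κ ^ 2) ≤ 1 / (10 * (τ + 1)) := by
    have h1 : κ ≤ 1 / (10 * (τ + 1) * (T * Cm + 1)) := min_le_right _ _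
    have h2 : κ ^ 2 ≤ κ := by nlinarith
    have h3 : T * Cm * κ ^ 2 ≤ T * Cm * (1 / (10 * (τ + 1) * (T * Cm + 1))) :=
      mul_le_mul_of_nonneg_left (h2.trans h1) (by positivity)
    have h4 : T * Cm * (1 / (10 * (τ + 1) * (T * Cm + 1))) ≤ 1 / (10 * (τ + 1)) := by
      rw [mul_one_div, div_le_div_iff₀ (by positivity) (by positivity)]
      have : 0 < 10 * (τ + 1) := by positivity
      nlinarith [mul_pos hT hCm]
    linarith
  refine ⟨κ, hκ, hκ1, fun s => ?_⟩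
  set Ca : ℝ := 1 + 2 * (τ + 1) ^ 2 with hCa
  have hCa0 : 0 < Ca := by positivity
  obtain ⟨B1, hB1⟩ := hL Cm κ hCm hκ hκ1 (2 * τ * |s| * T)
  obtain ⟨B2, hB2⟩ := quad_partP hX hCm hκ hκ1 (lam := 2 * (Ca * |s| * T ^ 2)) (by positivity)
  refine ⟨Real.exp ((B1 + B2) / 2), 4, Real.exp_pos _, fun ρ hρ m hm t ht => ?_⟩
  have hρ0 : 0 < ρ := by linarith
  -- masses of the small loops
  have hG : ∀ ω, ∀ ℓ ∈ sf ρ (κ * ρ) ω, 0 ≤ G m ℓ ∧ |t * G m ℓ| ≤ 1 / (10 * (τ + 1)) ∧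
      G (fun x => t * m x) ℓ = t * G m ℓ := by
    intro ω ℓ hℓ
    rw [mem_sf] at hℓ
    obtain ⟨g1, g2⟩ := G_bound s_out hCm.le hm hℓ.1 hℓ.2.2
    refine ⟨g1, ?_, G_smul t m ℓ (ins_fin s_out hℓ.1)⟩
    rw [abs_mul, abs_of_nonneg g1]
    have h3 : Cm / ρ ^ 2 * (κ * ρ) ^ 2 = Cm * κ ^ 2 := by field_simp
    rw [h3] at g2
    calc |t| * G m ℓ ≤ T * (Cm * κ ^ 2) := mul_le_mul ht g2 g1 hT.le
      _ ≤ _ := hκ2
  have hYeq : ∀ ω, Yna a (ρ - 2) (2 * ρ + 2) (κ * ρ) (fun x => t * m x) ω =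
      ∏ ℓ ∈ sf ρ (κ * ρ) ω, wt a (t * G m ℓ) := by
    intro ω
    unfold Yna
    have h1 := finprod_mem_eq_finite_toFinset_prod (fun ℓ => wt a (G (fun x => t * m x) ℓ))
      (SLo_fin ρ (κ * ρ) ω)
    have h2 : (∏ᶠ ℓ ∈ {ℓ | IsLoop ω ℓ ∧ Vis (ρ - 2) (2 * ρ + 2) ℓ ∧ Small (κ * ρ) ℓ},
        wt a (G (fun x => t * m x) ℓ)) = ∏ᶠ ℓ ∈ SLo ρ (κ * ρ) ω, wt a (G (fun x => t * m x) ℓ) := rfl
    rw [h2, h1]
    exact Finset.prod_congr rfl fun ℓ hℓ => by rw [(hG ω ℓ hℓ).2.2]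
  have hwpos : ∀ ω, ∀ ℓ ∈ sf ρ (κ * ρ) ω, 0 < wt a (t * G m ℓ) := fun ω ℓ hℓ => by
    have := wt_pos_near ha0.le ha (hG ω ℓ hℓ).2.1
    linarith
  have hYpos : ∀ ω, 0 < Yna a (ρ - 2) (2 * ρ + 2) (κ * ρ) (fun x => t * m x) ω := by
    intro ω
    rw [hYeq]
    exact Finset.prod_pos (hwpos ω)
  obtain ⟨F, hF⟩ := sf_loc (ρ := ρ) (d := κ * ρ)
  have hYloc : ∀ ω ω' : Cfg, (∀ v ∈ F, ω v = ω' v) →
      Yna a (ρ - 2) (2 * ρ + 2) (κ * ρ) (fun x => t * m x) ω =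
      Yna a (ρ - 2) (2 * ρ + 2) (κ * ρ) (fun x => t * m x) ω' := by
    intro ω ω' hw
    rw [hYeq, hYeq, hF ω ω' hw]
  have hint : Integrable (fun ω => Yna a (ρ - 2) (2 * ρ + 2) (κ * ρ) (fun x => t * m x) ω ^ s) P :=
    GL.loc_integrable (B := F) fun ω ω' hw => by rw [hYloc ω ω' hw]
  refine ⟨hYpos, meas_locfun F hYloc, hint, ?_⟩
  -- the sums
  set S : Cfg → ℝ := fun ω => ∑ ℓ ∈ sf ρ (κ * ρ) ω, G m ℓ with hS
  set Q : Cfg → ℝ := fun ω => ∑ ℓ ∈ sf ρ (κ * ρ) ω, (G m ℓ) ^ 2 with hQ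
  have hnb : nbP P (ρ - 2) (2 * ρ + 2) (κ * ρ) m = ∫ ω, S ω ∂P := by
    unfold nbP
    refine integral_congr_ae (Filter.Eventually.of_forall fun ω => ?_)
    exact finsum_mem_eq_finite_toFinset_sum (fun ℓ => G m ℓ) (SLo_fin ρ (κ * ρ) ω)
  have hSm : Measurable S := meas_locfun F fun ω ω' hw => by simp only [hS, hF ω ω' hw]
  have hQm : Measurable Q := meas_locfun F fun ω ω' hw => by simp only [hQ, hF ω ω' hw]
  have hpt : ∀ ω, Real.log (Yna a (ρ - 2) (2 * ρ + 2) (κ * ρ) (fun x => t * m x) ω) * s ≤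
      -τ * s * t * (∫ ω', S ω' ∂P) + (-τ * s * t * (S ω - ∫ ω', S ω' ∂P) +
        Ca * |s| * T ^ 2 * Q ω) := by
    intro ω
    rw [hYeq, Real.log_prod fun ℓ hℓ => (hwpos ω ℓ hℓ).ne', Finset.sum_mul]
    have h1 : ∀ ℓ ∈ sf ρ (κ * ρ) ω, Real.log (wt a (t * G m ℓ)) * s ≤
        -τ * s * t * G m ℓ + Ca * |s| * T ^ 2 * (G m ℓ) ^ 2 := by
      intro ℓ hℓ
      obtain ⟨g1, g2, -⟩ := hG ω ℓ hℓ
      have h2 := log_wt ha0.le ha g2
      rw [← hτ, ← hCa] at h2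
      have h3 : (Real.log (wt a (t * G m ℓ)) + τ * (t * G m ℓ)) * s ≤
          Ca * (t * G m ℓ) ^ 2 * |s| := by
        refine (le_abs_self _).trans ?_
        rw [abs_mul]
        exact mul_le_mul_of_nonneg_right h2 (abs_nonneg s)
      have h4 : t ^ 2 ≤ T ^ 2 := by
        rw [← sq_abs t]; exact pow_le_pow_left₀ (abs_nonneg _) ht 2
      have h5 : Ca * (t * G m ℓ) ^ 2 * |s| ≤ Ca * |s| * T ^ 2 * (G m ℓ) ^ 2 := by
        have : Ca * (t * G m ℓ) ^ 2 * |s| = Ca * |s| * t ^ 2 * (G m ℓ) ^ 2 := by ring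
        rw [this]
        exact mul_le_mul_of_nonneg_right (mul_le_mul_of_nonneg_left h4 (by positivity))
          (sq_nonneg _)
      have h6 : (Real.log (wt a (t * G m ℓ)) + τ * (t * G m ℓ)) * s =
          Real.log (wt a (t * G m ℓ)) * s + τ * s * t * G m ℓ := by ring
      rw [h6] at h3
      linarith
    refine (Finset.sum_le_sum h1).trans (le_of_eq ?_)
    rw [Finset.sum_add_distrib, ← Finset.mul_sum, ← Finset.mul_sum]
    ring
  have hst : |(2 * (-τ * s * t))| ≤ 2 * τ * |s| * T := by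
    have : |(2 * (-τ * s * t))| = 2 * τ * |s| * |t| := by
      rw [abs_mul, abs_mul, abs_mul, abs_neg, abs_of_nonneg hT0]
      norm_num
      ring
    rw [this]
    exact mul_le_mul_of_nonneg_left ht (by positivity)
  have h1 := hB1 ρ hρ m hm (2 * (-τ * s * t)) hst
  have h2 := hB2 ρ hρ m hm
  have hadd := EmP_add (P := P) (A := fun ω => -τ * s * t * (S ω - ∫ ω', S ω' ∂P))
    (B := fun ω => Ca * |s| * T ^ 2 * Q ω) ((hSm.sub measurable_const).const_mul _)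
    (hQm.const_mul _) (a := B1) (b := B2)
    (by
      refine le_trans (le_of_eq ?_) h1
      congr 1
      ext ω
      simp only [hS]
      ring)
    (by
      refine le_trans (le_of_eq ?_) h2
      congr 1
      ext ω
      simp only [hQ]
      ring)
  have hEm := (Em_mono (μ := P) hpt).trans (EmP_add_const (a := -τ * s * t * ∫ ω', S ω' ∂P) hadd)
  have hexp : ∀ ω, Real.exp (Real.log (Yna a (ρ - 2) (2 * ρ + 2) (κ * ρ) (fun x => t * m x) ω) * s) =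
      Yna a (ρ - 2) (2 * ρ + 2) (κ * ρ) (fun x => t * m x) ω ^ s := fun ω =>
    (Real.rpow_def_of_pos (hYpos ω) s).symm
  have hint' : Integrable (fun ω => Real.exp (Real.log
      (Yna a (ρ - 2) (2 * ρ + 2) (κ * ρ) (fun x => t * m x) ω) * s)) P := by
    simp only [hexp]; exact hint
  rw [Em_eq hint'] at hEm
  simp only [hexp] at hEm
  rw [← ENNReal.ofReal_mul (Real.exp_pos _).le,
    ENNReal.ofReal_le_ofReal_iff (by positivity)] at hEm
  rw [hnb]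
  linarith [mul_comm (Real.exp (-τ * s * t * ∫ ω', S ω' ∂P)) (Real.exp ((B1 + B2) / 2))]

end Vale.Agent.P167.H685
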