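import Vale.Agent.P167.H638.KG
import Vale.Agent.P167.H685.GId

/-!
General `q`: the Gaussian limit `G_gauss` for the infinite-volume random-cluster measure, from the
limit theorem of P152 (`GffG`) and from `G_id`.
-/

namespace Vale.Agent.P167.H685

open MeasureTheory Real Set Filter Topology
open Vale.Agent.P167
open Vale.Agent.P152 (Ori Edge IsHeight)
open Vale.Agent.P167.H638
open Vale.Agent.P167.H562 (Xa cAa G_gauss)

lemma cv_eqA {θ : ℝ} (h : θ < π) (F : ℝ × ℝ → ℝ) :
    -(1 / (π - θ)) * cv F = cAa θ * ∫ x : ℝ × ℝ, ∫ y : ℝ × ℝ, lg x y * F x * F y := by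
  have h1 : cv F = -(2 * π)⁻¹ * ∫ x : ℝ × ℝ, ∫ y : ℝ × ℝ, lg x y * F x * F y := by
    unfold cv
    rw [← integral_const_mul]
    refine integral_congr_ae (Filter.Eventually.of_forall fun x => ?_)
    simp only
    rw [← integral_const_mul]
    refine integral_congr_ae (Filter.Eventually.of_forall fun y => ?_)
    simp only [lg]
    ring
  rw [h1]
  unfold cAa
  have := Real.pi_pos
  have h2 : π - θ ≠ 0 := by linarith
  field_simp

/-- The Gaussian limit for all smooth test functions. -/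
theorem g_smooth {θ : ℝ} (hθ : θ < π) (hG : GffG θ) {P0 : Measure Cfg} (hI : G_id θ P0)
    {F : ℝ × ℝ → ℝ} (hFs : ContDiff ℝ ((⊤ : ℕ∞) : WithTop ℕ∞) F) (hFc : HasCompactSupport F)
    (hF0 : ∫ x, F x = 0) :
    Tendsto (fun δ : ℝ => ∫ ω, Xa θ (cm F δ) ω ∂P0) (𝓝[>] 0)
      (𝓝 (Real.exp (cAa θ * ∫ x : ℝ × ℝ, ∫ y : ℝ × ℝ, lg x y * F x * F y))) := by
  obtain ⟨P, hP, hT, hex, H⟩ := hG
  classical
  obtain ⟨h, hh⟩ : ∃ h : Ori (ℤ × ℤ) → ℤ × ℤ → ℤ, ∀ᵐ ω ∂P, IsHeight ω (h ω) := by
    refine ⟨fun ω => if hω : ∃ h, IsHeight ω h then hω.choose else 0, ?_⟩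
    filter_upwards [hex] with ω hω
    simp only [dif_pos hω]
    exact hω.choose_spec
  have hFi : Integrable F := hFs.continuous.integrable_of_hasCompactSupport hFc
  have h1 := H h hh F hFs hFc hF0
  rw [cv_eqA hθ] at h1
  refine h1.congr' ?_
  filter_upwards [self_mem_nhdsWithin] with δ hδ
  have hn0 : 0 < δ := hδ
  rw [← hI P hP hT (cm F δ) (cm_finite hFc hn0) ((cm_sum hFi hFc hn0).trans hF0) h hh]
  refine integral_congr_ae (Filter.Eventually.of_forall fun ω => ?_)
  simp only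
  congr 1
  exact cell_sum hFi hFc hn0 (fun s => (h ω s : ℝ))

/-- **Block C for general `q`.** -/
theorem g_gauss {θ : ℝ} (hθ : θ < π) (hG : GffG θ) {P0 : Measure Cfg}
    (hI : G_id θ P0) : G_gauss θ P0 := by
  classical
  refine ⟨CC, cAa θ * max |pf.κ1| |pf.κ2|, mm, CC_pos, fun r hr => mm_chg hr, ?_⟩
  intro J b r hr hsep hb
  have hA : 0 < cAa θ := by
    have := Real.pi_pos
    unfold cAa
    have h2 : 0 < π - θ := by linarith
    positivity
  set F : ℝ × ℝ → ℝ := fun x => ∑ j, b j * pf.ring (r j) x with hF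
  have hFs : ContDiff ℝ ((⊤ : ℕ∞) : WithTop ℕ∞) F :=
    ContDiff.sum fun i _ => contDiff_const.mul (pf.ring_smooth _)
  have hFc : HasCompactSupport F := by
    refine HasCompactSupport.intro (K := ⋃ i ∈ (Finset.univ : Finset (Fin J)),
      tsupport (pf.ring (r i)))
      ((Finset.univ : Finset (Fin J)).isCompact_biUnion fun i _ => pf.ring_compact (hr i))
      fun x hx => ?_
    refine Finset.sum_eq_zero fun i hi => ?_
    have h1 : x ∉ tsupport (pf.ring (r i)) := fun h => hx (Set.mem_biUnion hi h)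
    rw [image_eq_zero_of_notMem_tsupport h1, mul_zero]
  have hF0 : ∫ x, F x = 0 := by
    rw [hF, integral_finsetSum _ fun i _ => (pf.ring_integrable (hr i)).const_mul _]
    rw [← hb]
    refine Finset.sum_congr rfl fun i _ => ?_
    rw [integral_const_mul, pf.ring_int (hr i), mul_one]
  refine ⟨cAa θ * ∑ i, ∑ j, b i * b j * ∫ x, ∫ y, pf.gk (r i) (r j) x y, ?_, ?_⟩
  · rw [← mul_sub, abs_mul, abs_of_pos hA, mul_assoc]
    refine mul_le_mul_of_nonneg_left ?_ hA.le
    rw [← Finset.sum_sub_distrib]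
    simp only [← Finset.sum_sub_distrib, ← mul_sub]
    rw [sq, Finset.sum_mul_sum, Finset.mul_sum]
    refine (Finset.abs_sum_le_sum_abs _ _).trans (Finset.sum_le_sum fun i _ => ?_)
    rw [Finset.mul_sum]
    refine (Finset.abs_sum_le_sum_abs _ _).trans (Finset.sum_le_sum fun j _ => ?_)
    rw [abs_mul, abs_mul, mul_comm]
    exact mul_le_mul_of_nonneg_right (gk_bd (hr i) (hr j) (hsep i j)) (by positivity)
  · have h1 := (g_smooth hθ hG hI hFs hFc hF0).comp inv_nat_tendsto
    rw [pf.energy r b hr] at h1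
    refine h1.congr' ?_
    filter_upwards [eventually_gt_atTop 0] with n hn
    have e1 : (fun s => ∑ j, b j * mm (r j) n s) = cm F ((n : ℝ))⁻¹ := by
      funext s
      exact (cm_lin b (fun j => pf.ring (r j)) (fun j => pf.ring_integrable (hr j)) _ s).symm
    rw [e1]
    rfl

end Vale.Agent.P167.H685
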