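import Vale.Agent.P167.H685.Sid
import Vale.Agent.P167.H871.RingDet

/-!
Block B: almost surely all loops are finite; `S_id` unconditionally.
-/

namespace Vale.Agent.P167.H685

open Finset Filter Topology MeasureTheory
open Vale.Agent.P167.H871 (fair_mu ae_bdd fi px SB ncd_of_pconn nn_of_step)
open Vale.Agent.P145.FB (PStep PConn NC)

theorem isFair_mu : IsFair μ := fun Λ ξ => fair_mu.cyl Λ ξ

lemma rs_odd (e : Ed) : Odd ((rs e).1 + (rs e).2) := by
  rcases e with v | v <;> simp only [rs] <;> split_ifs with h <;>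
    simp only [Int.even_iff, Int.odd_iff] at * <;> omega

lemma bs_rs (e : Ed) : |(bs e).1 - (rs e).1| ≤ 1 ∧ |(bs e).2 - (rs e).2| ≤ 1 := by
  rcases e with v | v <;> simp only [bs, rs] <;> split_ifs <;> simp

lemma reach (ω : Cfg) (e : Ed) (n : ℕ) :
    PConn (op ω)ᶜ Set.univ (rs e) (rs ((nx ω)^[n] e)) := by
  induction n with
  | zero => exact PConn.refl (Set.mem_univ _)
  | succ n ih =>
    rw [Function.iterate_succ_apply']
    rcases H871.rs_nx ω ((nx ω)^[n] e) with h | h
    · rw [h]; exact ih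
    · exact ih.tail h (Set.mem_univ _)

lemma finite_orbit {ω : Cfg} (hb : ∀ z : ℤ × ℤ,
    ∃ R : ℤ, ∀ y, NC (SB ω)ᶜ z y → |y.1 - z.1| < R ∧ |y.2 - z.2| < R) (e : Ed) :
    ∃ ℓ, IsLoop ω ℓ ∧ e ∈ ℓ := by
  classical
  obtain ⟨R, hR⟩ := hb (fi (rs e))
  have hfin : (Set.range fun n : ℕ => (nx ω)^[n] e).Finite := by
    have hbox : ∀ n : ℕ, |(rs ((nx ω)^[n] e)).1 - (rs e).1| ≤ 2 * R ∧
        |(rs ((nx ω)^[n] e)).2 - (rs e).2| ≤ 2 * R := by
      intro n
      have h1 := ncd_of_pconn (rs_odd e) (reach ω e n)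
      have h2 : NC (SB ω)ᶜ (fi (rs e)) (fi (rs ((nx ω)^[n] e))) := by
        refine ⟨h1.1.1, ?_⟩
        exact Relation.ReflTransGen.mono (fun a b hab => ⟨hab.1, hab.2.1⟩) _ _ h1.2
      have h3 := hR _ h2
      simp only [fi, abs_lt] at h3
      constructor <;> rw [abs_le] <;> constructor <;> omega
    set K : ℕ := (2 * R + |(rs e).1| + |(rs e).2| + 2).toNat with hK
    refine Set.Finite.subset (((bx K).image Sum.inl ∪ (bx K).image Sum.inr : Finset Ed).finite_toSet)
      ?_
    rintro _ ⟨n, rfl⟩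
    have h1 := hbox n
    have h2 := bs_rs ((nx ω)^[n] e)
    have h3 : bs ((nx ω)^[n] e) ∈ bx K := by
      rw [mem_bx]
      have a1 := abs_le.1 h1.1
      have a2 := abs_le.1 h1.2
      have a3 := abs_le.1 h2.1
      have a4 := abs_le.1 h2.2
      have a5 := abs_le.1 (le_refl |(rs e).1|)
      have a6 := abs_le.1 (le_refl |(rs e).2|)
      have a7 := abs_nonneg (rs e).1
      have a8 := abs_nonneg (rs e).2
      omega
    simp only
    rcases h4 : (nx ω)^[n] e with v | v
    · rw [h4] at h3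
      exact mem_coe.2 (mem_union_left _ (mem_image_of_mem _ h3))
    · rw [h4] at h3
      exact mem_coe.2 (mem_union_right _ (mem_image_of_mem _ h3))
  refine ⟨hfin.toFinset, ⟨e, fun e' => ?_⟩, ?_⟩
  · rw [Set.Finite.mem_toFinset]
    rfl
  · rw [Set.Finite.mem_toFinset]
    exact ⟨0, rfl⟩

theorem s_fin : S_fin := by
  unfold S_fin
  filter_upwards [ae_bdd fair_mu] with ω hω
  exact finite_orbit fun z => (hω z).2

theorem s_id : S_id := s_id_of isFair_mu s_fin

end Vale.Agent.P167.H685
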