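import Vale.Agent.P167.H685.GLoc
import Vale.Agent.P167.K8.H259.Flip
import Vale.Agent.P167.H519.GLim

/-!
General `q`: convergence of the torus measures to the infinite-volume random-cluster measure and
the transfer theorem.
-/

set_option linter.unusedSectionVars false

namespace Vale.Agent.P167.H685

open Finset Filter Topology MeasureTheory
open Vale.Agent.P167.K8 (wT ET k_flip wT_shift)
open Vale.Agent.P167.FK (Good Ex Bq)
open Vale.Agent.P167.H519 (IsLim)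

/-- Local limit, bounded by one. -/
lemma tor_conv_one {θ : ℝ} (h0 : 0 ≤ θ) (h1 : θ ≤ Real.pi / 3) {P : Measure Cfg}
    (hP : IsLim (2 * Real.cos θ) P) {F : Cfg → ℝ} {K : ℕ} (hF : Dep F (bx K : Set (ℤ × ℤ)))
    (hF1 : ∀ ω, |F ω| ≤ 1) {ε : ℝ} (hε : 0 < ε) :
    ∃ N : ℕ, ∀ (M L : ℕ) [NeZero M] [NeZero L], N ≤ M → N ≤ L → Even M → Even L →
      |ET θ M L F - ∫ ω, F ω ∂P| ≤ ε := by
  classical
  have hFl : FKA.Loc (bx K) F := fun ω ω' h => hF ω ω' fun v hv => h v (mem_coe.1 hv)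
  obtain ⟨R1, hR1⟩ := hP.2 (bx K) F hFl (ε / 4) (by positivity)
  -- an even radius
  obtain ⟨R, hR, hR0, hRK, hRR1⟩ : ∃ R : ℕ, Even R ∧ 0 < R ∧ K + 1 ≤ R ∧ R1 ≤ R :=
    ⟨2 * (K + 1 + R1.toNat), ⟨_, two_mul _⟩, by omega, by omega, by omega⟩
  have hbd : ∀ η, Good η → |Ex (2 * Real.cos θ) (Bq 0 R) η F - ∫ ω, F ω ∂P| ≤ ε / 4 :=
    fun η hη => hR1 (Bq 0 R) η (H519.Bq_mono hRR1) hη
  have hsub : bx K ⊆ Bq 0 R := by
    intro v hv
    rw [mem_bx] at hv
    simp only [Bq, mem_product, mem_Ico, Prod.fst_zero, Prod.snd_zero]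
    omega
  have hFR : FKA.Loc (Bq 0 R) F := fun ω ω' h => hFl ω ω' fun v hv => h v (hsub hv)
  set t : ℝ := min 1 (ε / 4) with ht
  have ht0 : 0 < t := lt_min one_pos (by positivity)
  have ht1 : t ≤ 1 := min_le_left _ _
  have ht4 : t ≤ ε / 4 := min_le_right _ _
  set k : ℕ := 2 * R with hk
  have hk0 : 0 < k := by omega
  have hkR : (0 : ℝ) < k := by exact_mod_cast hk0
  have hl4 : 0 ≤ Real.log 4 := Real.log_nonneg (by norm_num)
  obtain ⟨N₁, hN₁⟩ := exists_nat_gt (128 * (2 * Real.log 4) * k ^ 2 / (t * ε))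
  have hN₁pos : (0 : ℝ) < N₁ := lt_of_le_of_lt (by positivity) hN₁
  refine ⟨N₁ + k + 2, fun M L _ _ hM hL heM heL => ?_⟩
  have main := fun (G : Cfg → ℝ) (m : ℝ) (hG1 : ∀ ω, |G ω| ≤ 1) (hG : FKA.Loc (Bq 0 R) G)
    (hm : ∀ η, Good η → Ex (2 * Real.cos θ) (Bq 0 R) η G ≤ m) =>
    tor_le (M := M) (L := L) k_flip h0 h1
      (fun M L _ _ _ _ x y ρ => wT_shift θ x y ρ) hG1 hR hR0 hG ht0 ht1 hm
      heM heL (by omega) (by omega)
  -- the error term
  have hhalf : ∀ N : ℕ, k + 2 ≤ N → (N : ℝ) / (4 * k) ≤ (((N - 1) / k : ℕ) : ℝ) := by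
    intro N hN
    have h3 := half_le_div hk0 (show k ≤ N - 1 by omega)
    refine le_trans ?_ h3
    rw [div_le_div_iff₀ (by positivity) (by positivity)]
    have : (N : ℝ) ≤ 2 * ((N - 1 : ℕ) : ℝ) := by
      have : N ≤ 2 * (N - 1) := by omega
      exact_mod_cast this
    nlinarith
  have hMk := hhalf M (by omega)
  have hLk := hhalf L (by omega)
  have hM1 : N₁ ≤ M := by omega
  have hL1 : N₁ ≤ L := by omega
  have hMpos : (0 : ℝ) < M := by exact_mod_cast (show 0 < M by omega)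
  have hLpos : (0 : ℝ) < L := by exact_mod_cast (show 0 < L by omega)
  have herr : (2 * Real.log 4 * (M + L)) / (t * (((M - 1) / k : ℕ) * ((L - 1) / k : ℕ))) ≤ ε / 4 := by
    calc (2 * Real.log 4 * (M + L)) / (t * (((M - 1) / k : ℕ) * ((L - 1) / k : ℕ)))
        ≤ (2 * Real.log 4 * (M + L)) / (t * ((M : ℝ) / (4 * k) * (L / (4 * k)))) := by
          apply div_le_div_of_nonneg_left (by positivity) (by positivity)
          exact mul_le_mul_of_nonneg_left (mul_le_mul hMk hLk (by positivity) (by positivity)) ht0.le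
      _ = 16 * (2 * Real.log 4) * k ^ 2 / t * (1 / M + 1 / L) := by field_simp; ring
      _ ≤ 16 * (2 * Real.log 4) * k ^ 2 / t * (1 / N₁ + 1 / N₁) := by
          apply mul_le_mul_of_nonneg_left _ (by positivity)
          exact add_le_add (one_div_le_one_div_of_le hN₁pos (by exact_mod_cast hM1))
            (one_div_le_one_div_of_le hN₁pos (by exact_mod_cast hL1))
      _ = (128 * (2 * Real.log 4) * k ^ 2 / (t * ε)) / N₁ * (ε / 4) := by field_simp; ring
      _ ≤ 1 * (ε / 4) := by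
          apply mul_le_mul_of_nonneg_right _ (by positivity)
          rw [div_le_one hN₁pos]
          exact hN₁.le
      _ = ε / 4 := one_mul _
  have u1 := main F ((∫ ω, F ω ∂P) + ε / 4) hF1 hFR fun η hη => by
    have := (abs_le.1 (hbd η hη)).2
    linarith
  have u2 := main (fun ω => - F ω) (-(∫ ω, F ω ∂P) + ε / 4) (fun ω => by rw [abs_neg]; exact hF1 ω)
    (fun ω ω' h => by simp only [hFR ω ω' h]) fun η hη => by
      rw [FKA.Ex_neg]
      have := (abs_le.1 (hbd η hη)).1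
      linarith
  have hneg : ET θ M L (fun ω => - F ω) = - ET θ M L F := by
    unfold ET
    rw [← neg_div, ← sum_neg_distrib]
    congr 1
    exact sum_congr rfl fun ρ _ => by ring
  rw [hneg] at u2
  rw [abs_le]
  constructor
  · linarith
  · linarith

/-- **Local limit.** -/
theorem tor_conv {θ : ℝ} (h0 : 0 ≤ θ) (h1 : θ ≤ Real.pi / 3) {P : Measure Cfg}
    (hP : IsLim (2 * Real.cos θ) P) {F : Cfg → ℝ} {K : ℕ} (hF : Dep F (bx K : Set (ℤ × ℤ)))
    {D : ℝ} (hFD : ∀ ω, |F ω| ≤ D) {ε : ℝ} (hε : 0 < ε) :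
    ∃ N : ℕ, ∀ (M L : ℕ) [NeZero M] [NeZero L], N ≤ M → N ≤ L → Even M → Even L →
      |ET θ M L F - ∫ ω, F ω ∂P| ≤ ε := by
  have hD : 0 ≤ D := le_trans (abs_nonneg _) (hFD fun _ => true)
  have hD1 : 0 < D + 1 := by linarith
  obtain ⟨N, hN⟩ := tor_conv_one h0 h1 hP (F := fun ω => F ω / (D + 1)) (K := K)
    (fun R R' h => by simp only [hF R R' h])
    (fun R => by
      rw [abs_div, abs_of_pos hD1, div_le_one hD1]
      linarith [hFD R]) (ε := ε / (D + 1)) (div_pos hε hD1)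
  refine ⟨N, fun M L _ _ hM hL heM heL => ?_⟩
  have := hN M L hM hL heM heL
  have e1 : ET θ M L (fun ω => F ω / (D + 1)) = ET θ M L F / (D + 1) := by
    unfold ET
    have e : ∑ ρ : ZMod M × ZMod L → Bool, wT θ M L ρ * (F (unR ρ) / (D + 1))
        = (∑ ρ : ZMod M × ZMod L → Bool, wT θ M L ρ * F (unR ρ)) / (D + 1) := by
      rw [sum_div]
      exact sum_congr rfl fun R _ => by ring
    rw [e, div_right_comm]
  have e2 : ∫ R, F R / (D + 1) ∂P = (∫ R, F R ∂P) / (D + 1) := integral_div _ _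
  rw [e1, e2, ← sub_div, abs_div, abs_of_pos hD1, div_le_div_iff_of_pos_right hD1] at this
  exact this

/-- **Transfer theorem**, general form. -/
theorem transfer2 {a : ℝ} {T : (M L : ℕ) → [NeZero M] → [NeZero L] → ℝ}
    (hT : ∀ ε > 0, ∃ q0 : ℕ, ∀ l : ℕ, q0 ≤ l → ∀ᶠ M : ℕ in atTop,
      |T (M + 1) (2 * (l + 1)) - a| ≤ ε)
    {μ : Measure (ℤ × ℤ → Bool)} [IsProbabilityMeasure μ]
    {W : (M L : ℕ) → [NeZero M] → [NeZero L] → (ZMod M × ZMod L → Bool) → ℝ}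
    (hWpos : ∀ (M L : ℕ) [NeZero M] [NeZero L], Even M → Even L → 0 < ∑ R, W M L R)
    (hloc : ∀ (F : (ℤ × ℤ → Bool) → ℝ) (K : ℕ), Dep F (bx K : Set (ℤ × ℤ)) → ∀ D : ℝ,
      (∀ R, |F R| ≤ D) → ∀ ε > 0, ∃ N : ℕ, ∀ (M L : ℕ) [NeZero M] [NeZero L], N ≤ M → N ≤ L →
        Even M → Even L → |(∑ R, W M L R * F (unR R)) / (∑ R, W M L R) - ∫ R, F R ∂μ| ≤ ε)
    {X : (ℤ × ℤ → Bool) → ℝ} {D : ℝ} (hXD : ∀ R, |X R| ≤ D)
    {G : ℕ → Set (ℤ × ℤ → Bool)}
    (hG : ∀ K, Dep (fun R => R ∈ G K) (bx K : Set (ℤ × ℤ)))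
    (hGX : ∀ K, ∀ R ∈ G K, ∀ R' ∈ G K, (∀ v ∈ bx K, R v = R' v) → X R = X R')
    (hGae : ∀ᵐ R ∂μ, ∀ᶠ K in atTop, R ∈ G K)
    {Φ : (M L : ℕ) → [NeZero M] → [NeZero L] → (ZMod M × ZMod L → Bool) → ℝ}
    (hΦD : ∀ (M L : ℕ) [NeZero M] [NeZero L], Even M → Even L → ∀ R, |Φ M L R| ≤ D * W M L R)
    (hΦ : ∀ K, ∃ N : ℕ, ∀ (M L : ℕ) [NeZero M] [NeZero L], Even M → Even L → N ≤ M → N ≤ L →
      ∀ R : ZMod M × ZMod L → Bool, unR R ∈ G K → Φ M L R = W M L R * X (unR R))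
    (hZ : ∃ N : ℕ, ∀ (M L : ℕ) [NeZero M] [NeZero L], Even M → Even L → N ≤ M → N ≤ L →
      T M L = (∑ R, Φ M L R) / ∑ R, W M L R) :
    a = ∫ R, X R ∂μ := by
  classical
  have hD : 0 ≤ D := le_trans (abs_nonneg _) (hXD fun _ => true)
  set FX : ℕ → (ℤ × ℤ → Bool) → ℝ := fun K => (G K).indicator X with hFX
  set F1 : ℕ → (ℤ × ℤ → Bool) → ℝ := fun K => (G K).indicator 1 with hF1
  have hdepF1 : ∀ K, Dep (F1 K) (bx K : Set (ℤ × ℤ)) := by
    intro K R R' h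
    have : (R ∈ G K) = (R' ∈ G K) := hG K R R' h
    by_cases hR : R ∈ G K
    · simp only [hF1]
      rw [Set.indicator_of_mem hR, Set.indicator_of_mem (this ▸ hR)]; rfl
    · simp only [hF1]
      rw [Set.indicator_of_notMem hR, Set.indicator_of_notMem (this ▸ hR)]
  have hdepFX : ∀ K, Dep (FX K) (bx K : Set (ℤ × ℤ)) := by
    intro K R R' h
    have : (R ∈ G K) = (R' ∈ G K) := hG K R R' h
    by_cases hR : R ∈ G K
    · have hR' : R' ∈ G K := this ▸ hR
      simp only [hFX]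
      rw [Set.indicator_of_mem hR, Set.indicator_of_mem hR']
      exact hGX K R hR R' hR' h
    · simp only [hFX]
      rw [Set.indicator_of_notMem hR, Set.indicator_of_notMem (this ▸ hR)]
  have hbX : ∀ K R, |FX K R| ≤ D := by
    intro K R
    by_cases hR : R ∈ G K
    · simp only [hFX]
      rw [Set.indicator_of_mem hR]; exact hXD R
    · simp only [hFX]
      rw [Set.indicator_of_notMem hR, abs_zero]; exact hD
  have hb1 : ∀ K R, |F1 K R| ≤ 1 := by
    intro K R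
    by_cases hR : R ∈ G K
    · simp only [hF1]
      rw [Set.indicator_of_mem hR]; simp
    · simp only [hF1]
      rw [Set.indicator_of_notMem hR]; simp
  have hmX : ∀ K, Measurable (FX K) := fun K => (hdepFX K).measurable
  have hm1 : ∀ K, Measurable (F1 K) := fun K => (hdepF1 K).measurable
  have limX : Tendsto (fun K => ∫ R, FX K R ∂μ) atTop (𝓝 (∫ R, X R ∂μ)) := by
    refine tendsto_integral_of_dominated_convergence (fun _ => D)
      (fun K => (hmX K).aestronglyMeasurable) (integrable_const D)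
      (fun K => Eventually.of_forall fun R => hbX K R) ?_
    filter_upwards [hGae] with R hR
    refine tendsto_const_nhds.congr' ?_
    filter_upwards [hR] with K hK
    simp only [hFX]
    rw [Set.indicator_of_mem hK]
  have lim1 : Tendsto (fun K => ∫ R, F1 K R ∂μ) atTop (𝓝 1) := by
    have : (1 : ℝ) = ∫ _R : ℤ × ℤ → Bool, (1 : ℝ) ∂μ := by simp
    rw [this]
    refine tendsto_integral_of_dominated_convergence (fun _ => 1)
      (fun K => (hm1 K).aestronglyMeasurable) (integrable_const 1)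
      (fun K => Eventually.of_forall fun R => hb1 K R) ?_
    filter_upwards [hGae] with R hR
    refine tendsto_const_nhds.congr' ?_
    filter_upwards [hR] with K hK
    simp only [hF1]
    rw [Set.indicator_of_mem hK]; rfl
  obtain ⟨N₂, hN₂⟩ := hZ
  have tor : ∀ K, ∃ N₁ : ℕ, ∀ (M L : ℕ) [NeZero M] [NeZero L], Even M → Even L → N₁ ≤ M → N₁ ≤ L →
      |T M L - (∑ R, W M L R * FX K (unR R)) / (∑ R, W M L R)|
        ≤ D * (1 - (∑ R, W M L R * F1 K (unR R)) / (∑ R, W M L R)) := by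
    intro K
    obtain ⟨N₁, hN₁⟩ := hΦ K
    refine ⟨max N₁ N₂, fun M L _ _ heM heL h1 h2 => ?_⟩
    have hZpos : 0 < ∑ R, W M L R := hWpos M L heM heL
    rw [hN₂ M L heM heL (le_trans (le_max_right _ _) h1) (le_trans (le_max_right _ _) h2),
      ← sub_div, ← sum_sub_distrib, abs_div, abs_of_pos hZpos]
    have : D * (1 - (∑ R, W M L R * F1 K (unR R)) / (∑ R, W M L R))
        = (∑ R, D * (W M L R - W M L R * F1 K (unR R))) / (∑ R, W M L R) := by
      rw [← mul_sum, sum_sub_distrib, mul_div_assoc, sub_div, div_self hZpos.ne']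
    rw [this]
    apply div_le_div_of_nonneg_right _ hZpos.le
    refine (abs_sum_le_sum_abs _ _).trans (sum_le_sum fun R _ => ?_)
    by_cases hR : unR R ∈ G K
    · simp only [hFX, hF1]
      rw [Set.indicator_of_mem hR, Set.indicator_of_mem hR,
        hN₁ M L heM heL (le_trans (le_max_left _ _) h1) (le_trans (le_max_left _ _) h2) R hR]
      simp
    · simp only [hFX, hF1]
      rw [Set.indicator_of_notMem hR, Set.indicator_of_notMem hR]
      simpa using hΦD M L heM heL R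
  have key : ∀ K, ∀ ε > 0, |a - ∫ R, FX K R ∂μ| ≤ D * (1 - ∫ R, F1 K R ∂μ) + ε := by
    intro K ε hε
    set η := ε / (D + 2) with hη
    have hη0 : 0 < η := by positivity
    obtain ⟨N₁, hN₁⟩ := tor K
    obtain ⟨N₃, hN₃⟩ := hloc _ K (hdepFX K) D (hbX K) η hη0
    obtain ⟨N₄, hN₄⟩ := hloc _ K (hdepF1 K) 1 (hb1 K) η hη0
    obtain ⟨q0, hq0⟩ := hT η hη0
    obtain ⟨m0, hm0⟩ := eventually_atTop.1 (hq0 (q0 + N₁ + N₃ + N₄) (by omega))
    set l := q0 + N₁ + N₃ + N₄ with hl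
    set m := 2 * (m0 + l) + 1 with hm
    have a0 := hm0 m (by omega)
    have heM : Even (m + 1) := ⟨m0 + l + 1, by omega⟩
    have heL : Even (2 * (l + 1)) := ⟨l + 1, by omega⟩
    have a1 := hN₁ (m + 1) (2 * (l + 1)) heM heL (by omega) (by omega)
    have a2 := hN₃ (m + 1) (2 * (l + 1)) (by omega) (by omega) heM heL
    have a3 := hN₄ (m + 1) (2 * (l + 1)) (by omega) (by omega) heM heL
    generalize (∑ R, W (m + 1) (2 * (l + 1)) R * FX K (unR R)) /
        (∑ R, W (m + 1) (2 * (l + 1)) R) = x2 at a1 a2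
    generalize (∑ R, W (m + 1) (2 * (l + 1)) R * F1 K (unR R)) /
        (∑ R, W (m + 1) (2 * (l + 1)) R) = x3 at a1 a3
    generalize T (m + 1) (2 * (l + 1)) = x1 at a0 a1
    have b3 : 1 - x3 ≤ 1 - (∫ R, F1 K R ∂μ) + η := by
      have := (abs_le.1 a3).1
      linarith
    have b4 : D * (1 - x3) ≤ D * (1 - (∫ R, F1 K R ∂μ) + η) := mul_le_mul_of_nonneg_left b3 hD
    calc |a - ∫ R, FX K R ∂μ| = |(-(x1 - a) + (x1 - x2)) + (x2 - ∫ R, FX K R ∂μ)| := by ring_nf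
      _ ≤ |-(x1 - a) + (x1 - x2)| + |x2 - ∫ R, FX K R ∂μ| := abs_add_le _ _
      _ ≤ (|-(x1 - a)| + |x1 - x2|) + |x2 - ∫ R, FX K R ∂μ| := by gcongr; exact abs_add_le _ _
      _ = |x1 - a| + |x1 - x2| + |x2 - ∫ R, FX K R ∂μ| := by rw [abs_neg]
      _ ≤ D * (1 - (∫ R, F1 K R ∂μ) + η) + 2 * η := by linarith
      _ = D * (1 - ∫ R, F1 K R ∂μ) + (D + 2) * η := by ring
      _ = D * (1 - ∫ R, F1 K R ∂μ) + ε := by rw [hη]; field_simp
  have key2 : ∀ K, |a - ∫ R, FX K R ∂μ| ≤ D * (1 - ∫ R, F1 K R ∂μ) := fun K =>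
    le_of_forall_pos_le_add (key K)
  have l1 : Tendsto (fun K => |a - ∫ R, FX K R ∂μ|) atTop (𝓝 |a - ∫ R, X R ∂μ|) :=
    (limX.const_sub a).abs
  have l2 : Tendsto (fun K => D * (1 - ∫ R, F1 K R ∂μ)) atTop (𝓝 (D * (1 - 1))) :=
    (lim1.const_sub 1).const_mul D
  have h0 := le_of_tendsto_of_tendsto' l1 l2 key2
  have h1 : |a - ∫ R, X R ∂μ| ≤ 0 := by simpa using h0
  have := abs_nonpos_iff.1 h1
  linarith

end Vale.Agent.P167.H685
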