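import Vale.Agent.P167.K8.Defs
import Vale.Agent.P167.H685.Sid

/-!
General angle: the torus weights `Wa`, `wT`; the six-vertex expectation on the torus.
-/

namespace Vale.Agent.P167.H685

open Finset Filter Topology MeasureTheory
open Vale.Agent.P167.A (Grid plane torus red redE plane_nx plane_hd plane_sg par_red e1_red e2_red
  e1s_red e2s_red nx_red Orb cls ang tor_id tor_id_zero)
open Vale.Agent.P152 (Edge Ori vw wt unroll IsHeight)
open Vale.Agent.P167.K8 (Wa wT ET)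

section orbit

variable {V : Type}

/-- The angle of an orbit. -/
noncomputable def Tn (θ : ℝ) (g : Grid V) (ρ : V → Bool) (ℓ : Finset (Edge V)) : ℝ :=
  θ / 4 * ((∑ e ∈ ℓ, g.turn ρ e : ℤ) : ℝ)

/-- The flow through an orbit. -/
noncomputable def Gn (g : Grid V) (a : Edge V → ℝ) (ℓ : Finset (Edge V)) : ℝ :=
  ∑ e ∈ ℓ, a e * g.sg e

lemma ang_eq (θ : ℝ) (g : Grid V) (a : Edge V → ℝ) (ρ : V → Bool) (ℓ : Finset (Edge V)) :
    ∑ e ∈ ℓ, (θ / 4 * g.turn ρ e + a e * g.sg e) = Tn θ g ρ ℓ + Gn g a ℓ := by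
  unfold Tn Gn
  rw [sum_add_distrib, Int.cast_sum, mul_sum]

lemma Gn_zero (g : Grid V) (ℓ : Finset (Edge V)) : Gn g 0 ℓ = 0 := by
  unfold Gn
  simp

lemma Gn_neg (g : Grid V) (a : Edge V → ℝ) (ℓ : Finset (Edge V)) : Gn g (-a) ℓ = - Gn g a ℓ := by
  unfold Gn
  rw [← sum_neg_distrib]
  exact sum_congr rfl fun e _ => by simp

lemma Gn_off (g : Grid V) {a : Edge V → ℝ} {ℓ : Finset (Edge V)} (h : ∀ e ∈ ℓ, a e = 0) :
    Gn g a ℓ = 0 := by
  unfold Gn
  exact sum_eq_zero fun e he => by rw [h e he, zero_mul]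

end orbit

variable {M L : ℕ} [NeZero M] [NeZero L] (hM : Even M) (hL : Even L)

lemma Wa_eq (θ : ℝ) (a : Edge (ZMod M × ZMod L) → ℝ) (ρ : ZMod M × ZMod L → Bool) :
    Wa θ M L a ρ = ∏ O ∈ orbs ((torus M L hM hL).nxP ρ),
      2 * Real.cos (Tn θ (torus M L hM hL) ρ O + Gn (torus M L hM hL) a O) := by
  unfold Wa
  rw [dif_pos ⟨hM, hL⟩]
  exact prod_congr rfl fun O _ => by rw [ang_eq]

lemma wT_eq (θ : ℝ) (ρ : ZMod M × ZMod L → Bool) :
    wT θ M L ρ = ∏ O ∈ orbs ((torus M L hM hL).nxP ρ),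
      2 * Real.cos (Tn θ (torus M L hM hL) ρ O) := by
  unfold wT
  rw [Wa_eq hM hL]
  exact prod_congr rfl fun O _ => by rw [Gn_zero, add_zero]

lemma Tn_cases (θ : ℝ) (ρ : ZMod M × ZMod L → Bool) {O : Finset (Edge (ZMod M × ZMod L))}
    (hO : O ∈ orbs ((torus M L hM hL).nxP ρ)) :
    Tn θ (torus M L hM hL) ρ O = θ ∨ Tn θ (torus M L hM hL) ρ O = -θ ∨
      Tn θ (torus M L hM hL) ρ O = 0 := by
  unfold Tn
  rcases turn_cases hM hL s_turn s_turn0 ρ hO with (h | h) | h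
  · left
    rw [h]
    push_cast
    ring
  · right; left
    rw [h]
    push_cast
    ring
  · right; right
    rw [h.1]
    simp

lemma cos_Tn_ge {θ : ℝ} (ρ : ZMod M × ZMod L → Bool)
    {O : Finset (Edge (ZMod M × ZMod L))} (hO : O ∈ orbs ((torus M L hM hL).nxP ρ)) :
    Real.cos θ ≤ Real.cos (Tn θ (torus M L hM hL) ρ O) := by
  rcases Tn_cases hM hL θ ρ hO with h | h | h
  · rw [h]
  · rw [h, Real.cos_neg]
  · rw [h, Real.cos_zero]
    exact Real.cos_le_one _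

lemma half_le_cos {θ : ℝ} (h0 : 0 ≤ θ) (h1 : θ ≤ Real.pi / 3) : 1 / 2 ≤ Real.cos θ := by
  rw [← Real.cos_pi_div_three]
  exact Real.cos_le_cos_of_nonneg_of_le_pi h0 (by linarith [Real.pi_pos]) h1

lemma wT_pos' {θ : ℝ} (h0 : 0 ≤ θ) (h1 : θ ≤ Real.pi / 3) (ρ : ZMod M × ZMod L → Bool) :
    0 < wT θ M L ρ := by
  by_cases h : Even M ∧ Even L
  · rw [wT_eq h.1 h.2]
    refine prod_pos fun O hO => ?_
    have := cos_Tn_ge (θ := θ) h.1 h.2 ρ hO
    have := half_le_cos h0 h1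
    linarith
  · unfold wT Wa
    rw [dif_neg h]
    norm_num

lemma ZT_pos {θ : ℝ} (h0 : 0 ≤ θ) (h1 : θ ≤ Real.pi / 3) :
    0 < ∑ ρ : ZMod M × ZMod L → Bool, wT θ M L ρ :=
  sum_pos (fun ρ _ => wT_pos' h0 h1 ρ) univ_nonempty

/-- Product over the cycles in the form of block A. -/
lemma prod_OrbT {V : Type} [Fintype V] [DecidableEq V] (g : Grid V) (θ : ℝ) (a : Edge V → ℝ)
    (ρ : V → Bool) :
    ∏ O : Orb (g.nxP ρ), 2 * Real.cos (ang g θ a ρ O)
      = ∏ O ∈ orbs (g.nxP ρ), 2 * Real.cos (Tn θ g ρ O + Gn g a O) := by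
  classical
  rw [← prod_quotient (F := fun O => 2 * Real.cos (Tn θ g ρ O + Gn g a O))]
  refine Finset.prod_congr ?_ ?_
  · ext O
    simp
  · intro O _
    rw [← ang_eq]
    unfold ang
    congr 2
    refine Finset.sum_congr ?_ fun _ _ => rfl
    ext e
    simp only [mem_filter, mem_univ, true_and]
    rfl

include hM hL in
/-- Partition functions. -/
lemma sum_Wa (θ : ℝ) (a : Edge (ZMod M × ZMod L) → ℝ) :
    ∑ ρ, Wa θ M L a ρ = ∑ ω : Ori (ZMod M × ZMod L), wt (2 * Real.cos (θ / 2)) ω *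
        Real.cos (∑ e, a e * (if ω e then 1 else -1)) := by
  rw [tor_id hM hL θ a]
  refine sum_congr rfl fun ρ _ => ?_
  rw [prod_OrbT, Wa_eq hM hL]

include hM hL in
lemma sum_wT (θ : ℝ) : ∑ ρ, wT θ M L ρ =
    ∑ ω : Ori (ZMod M × ZMod L), wt (2 * Real.cos (θ / 2)) ω := by
  unfold wT
  rw [sum_Wa hM hL]
  simp

include hM hL in
lemma sum_Wa_neg (θ : ℝ) (a : Edge (ZMod M × ZMod L) → ℝ) :
    ∑ ρ, Wa θ M L (-a) ρ = ∑ ρ, Wa θ M L a ρ := by
  rw [sum_Wa hM hL, sum_Wa hM hL]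
  refine sum_congr rfl fun ω _ => ?_
  congr 1
  rw [← Real.cos_neg]
  congr 1
  rw [← sum_neg_distrib]
  exact sum_congr rfl fun e _ => by simp only [Pi.neg_apply]; split_ifs <;> ring

include hM hL in
/-- The six-vertex expectation in terms of the loops. -/
lemma torU_eqT (θ : ℝ) (E : Finset Ed) (a : Ed → ℝ) :
    torU (2 * Real.cos (θ / 2)) M L (fun ω => Real.cos (∑ e ∈ E, a e * sgb (ω e)))
      = (∑ ρ, Wa θ M L (pa M L E a) ρ) / ∑ ρ, wT θ M L ρ := by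
  rw [sum_Wa hM hL, sum_wT hM hL]
  unfold torU
  congr 1
  refine sum_congr rfl fun ω _ => ?_
  rw [sum_pa]

include hM hL in
/-- Product bound. -/
lemma abs_Wa_le {θ : ℝ} (h0 : 0 ≤ θ) (h1 : θ ≤ Real.pi / 3) (ρ : ZMod M × ZMod L → Bool)
    {a : Edge (ZMod M × ZMod L) → ℝ} {E : Finset (Edge (ZMod M × ZMod L))}
    (ha : ∀ e ∉ E, a e = 0) : |Wa θ M L a ρ| ≤ (1 / Real.cos θ) ^ E.card * wT θ M L ρ := by
  classical
  have hc := half_le_cos h0 h1
  have hc1 := Real.cos_le_one θ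
  have hi : 1 ≤ 1 / Real.cos θ := by
    rw [le_div_iff₀ (by linarith)]; linarith
  rw [Wa_eq hM hL, wT_eq hM hL, abs_prod]
  have h2 : ∀ O ∈ orbs ((torus M L hM hL).nxP ρ),
      |2 * Real.cos (Tn θ (torus M L hM hL) ρ O + Gn (torus M L hM hL) a O)| ≤
      (if ∃ e ∈ E, e ∈ O then (1 / Real.cos θ) else 1) *
        (2 * Real.cos (Tn θ (torus M L hM hL) ρ O)) := by
    intro O hO
    have hT := cos_Tn_ge (θ := θ) hM hL ρ hO
    split_ifs with h
    · have h3 : |2 * Real.cos (Tn θ (torus M L hM hL) ρ O + Gn (torus M L hM hL) a O)| ≤ 2 := by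
        rw [abs_mul, abs_two]
        have := Real.abs_cos_le_one (Tn θ (torus M L hM hL) ρ O + Gn (torus M L hM hL) a O)
        linarith
      refine h3.trans ?_
      rw [div_mul_eq_mul_div, le_div_iff₀ (by linarith)]
      linarith
    · rw [Gn_off _ (fun e he => ha e fun hE => h ⟨e, hE, he⟩), add_zero, one_mul,
        abs_of_pos (by linarith)]
  refine (prod_le_prod (fun O _ => abs_nonneg _) h2).trans ?_
  rw [prod_mul_distrib]
  have hnn : 0 ≤ ∏ O ∈ orbs ((torus M L hM hL).nxP ρ),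
      2 * Real.cos (Tn θ (torus M L hM hL) ρ O) :=
    prod_nonneg fun O hO => by
      have := cos_Tn_ge (θ := θ) hM hL ρ hO
      linarith
  apply mul_le_mul_of_nonneg_right _ hnn
  rw [prod_ite, prod_const, prod_const_one, mul_one]
  exact pow_le_pow_right₀ hi (card_orbs_meet_le E)

omit [NeZero M] [NeZero L] in
lemma pa_off {E : Finset Ed} {a : Ed → ℝ} {x : Edge (ZMod M × ZMod L)}
    (hx : x ∉ E.image (redE M L)) : pa M L E a x = 0 := by
  unfold pa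
  refine sum_eq_zero fun e he => ?_
  rw [mem_filter] at he
  exact absurd (mem_image.2 ⟨e, he.1, he.2⟩) hx

end Vale.Agent.P167.H685
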