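import Vale.Agent.P167.H685.GWt

/-!
K.11: the `S`-inequality on the torus, from K.10 and the Baxter-Kelland-Wu identity.
-/

namespace Vale.Agent.P167.H685

open Finset Filter Topology MeasureTheory
open Vale.Agent.P167.A (Grid plane torus red redE)
open Vale.Agent.P152 (Edge Ori vw wt unroll)
open Vale.Agent.P167.K8

/-- One factor. -/
lemma factor_ge {T G θ : ℝ} (h0 : 0 ≤ θ) (h1 : θ ≤ Real.pi / 3) (hT : T = θ ∨ T = -θ ∨ T = 0)
    (hG : |G| ≤ 1 / 4) :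
    0 < Real.cos (T + G) ∧ 0 < Real.cos (T + -G) ∧
    Real.cos T ^ 2 * Real.exp (-(8 * G ^ 2)) ≤ Real.cos (T + G) * Real.cos (T + -G) := by
  have hpi : (3 : ℝ) < Real.pi := Real.pi_gt_three
  have hT' : |T| ≤ θ := by
    rcases hT with h | h | h
    · rw [h, abs_of_nonneg h0]
    · rw [h, abs_neg, abs_of_nonneg h0]
    · rw [h, abs_zero]; exact h0
  have hT2 := abs_le.1 hT'
  have hG2 := abs_le.1 hG
  have hc : 1 / 2 ≤ Real.cos T := by
    have h := half_le_cos h0 h1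
    rcases hT with h' | h' | h'
    · rw [h']; exact h
    · rw [h', Real.cos_neg]; exact h
    · rw [h', Real.cos_zero]; norm_num
  refine ⟨Real.cos_pos_of_mem_Ioo ⟨by linarith, by linarith⟩,
    Real.cos_pos_of_mem_Ioo ⟨by linarith, by linarith⟩, ?_⟩
  have e1 : Real.cos (T + G) * Real.cos (T + -G) = Real.cos T ^ 2 - Real.sin G ^ 2 := by
    rw [Real.cos_add, Real.cos_add, Real.cos_neg, Real.sin_neg]
    have h2 := Real.sin_sq_add_cos_sq T
    have h3 := Real.sin_sq_add_cos_sq G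
    have : Real.sin T ^ 2 = 1 - Real.cos T ^ 2 := by linarith
    have h4 : Real.cos G ^ 2 = 1 - Real.sin G ^ 2 := by linarith
    calc (Real.cos T * Real.cos G - Real.sin T * Real.sin G) *
          (Real.cos T * Real.cos G - Real.sin T * -Real.sin G)
        = Real.cos T ^ 2 * Real.cos G ^ 2 - Real.sin T ^ 2 * Real.sin G ^ 2 := by ring
      _ = Real.cos T ^ 2 * (1 - Real.sin G ^ 2) - (1 - Real.cos T ^ 2) * Real.sin G ^ 2 := by
          rw [this, h4]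
      _ = _ := by ring
  have hs : Real.sin G ^ 2 ≤ G ^ 2 := by
    rw [← sq_abs (Real.sin G), ← sq_abs G]
    exact pow_le_pow_left₀ (abs_nonneg _) (Real.abs_sin_le_abs (x := G)) 2
  have hG3 : G ^ 2 ≤ 1 / 16 := by
    rw [← sq_abs]
    calc |G| ^ 2 ≤ (1 / 4 : ℝ) ^ 2 := pow_le_pow_left₀ (abs_nonneg _) hG 2
      _ = 1 / 16 := by norm_num
  have he : Real.exp (-(8 * G ^ 2)) ≤ 1 - 4 * G ^ 2 := by
    have hx : |-(8 * G ^ 2)| ≤ 1 := by
      rw [abs_neg, abs_of_nonneg (by positivity)]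
      linarith
    have h5 := Real.abs_exp_sub_one_sub_id_le hx
    have h6 := (abs_le.1 h5).2
    have h7 : (-(8 * G ^ 2)) ^ 2 ≤ 4 * G ^ 2 := by nlinarith [sq_nonneg G]
    linarith
  rw [e1]
  have hc2 : 1 / 4 ≤ Real.cos T ^ 2 := by nlinarith
  calc Real.cos T ^ 2 * Real.exp (-(8 * G ^ 2)) ≤ Real.cos T ^ 2 * (1 - 4 * G ^ 2) :=
        mul_le_mul_of_nonneg_left he (by positivity)
    _ = Real.cos T ^ 2 - (4 * Real.cos T ^ 2) * G ^ 2 := by ring
    _ ≤ Real.cos T ^ 2 - 1 * G ^ 2 := by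
        have : 1 * G ^ 2 ≤ (4 * Real.cos T ^ 2) * G ^ 2 :=
          mul_le_mul_of_nonneg_right (by linarith) (sq_nonneg _)
        linarith
    _ ≤ _ := by linarith

variable {M L : ℕ} [NeZero M] [NeZero L] (hM : Even M) (hL : Even L)

include hM hL in
/-- AM-GM on a configuration whose orbits all carry a small flow. -/
lemma amgm {θ : ℝ} (h0 : 0 ≤ θ) (h1 : θ ≤ Real.pi / 3) (ρ : ZMod M × ZMod L → Bool)
    {a : Edge (ZMod M × ZMod L) → ℝ}
    (hG : ∀ O ∈ orbs ((torus M L hM hL).nxP ρ), |Gn (torus M L hM hL) a O| ≤ 1 / 4) :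
    0 < Wa θ M L a ρ ∧ 0 < Wa θ M L (-a) ρ ∧
    2 * (wT θ M L ρ * Real.exp (-(4 * ∑ O ∈ orbs ((torus M L hM hL).nxP ρ),
      Gn (torus M L hM hL) a O ^ 2))) ≤ Wa θ M L a ρ + Wa θ M L (-a) ρ := by
  classical
  set gT := torus M L hM hL with hgT
  have key := fun O (hO : O ∈ orbs (gT.nxP ρ)) =>
    factor_ge h0 h1 (Tn_cases hM hL θ ρ hO) (hG O hO)
  have p1 : 0 < Wa θ M L a ρ := by
    rw [Wa_eq hM hL]
    exact prod_pos fun O hO => by have := (key O hO).1; positivity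
  have p2 : 0 < Wa θ M L (-a) ρ := by
    rw [Wa_eq hM hL]
    refine prod_pos fun O hO => ?_
    rw [Gn_neg]
    have := (key O hO).2.1
    positivity
  refine ⟨p1, p2, ?_⟩
  have h2 : (wT θ M L ρ * Real.exp (-(4 * ∑ O ∈ orbs (gT.nxP ρ), Gn gT a O ^ 2))) ^ 2
      ≤ Wa θ M L a ρ * Wa θ M L (-a) ρ := by
    have e2 : Real.exp (-(4 * ∑ O ∈ orbs (gT.nxP ρ), Gn gT a O ^ 2)) ^ 2
        = ∏ O ∈ orbs (gT.nxP ρ), Real.exp (-(8 * Gn gT a O ^ 2)) := by
      rw [← Real.exp_nat_mul, ← Real.exp_sum]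
      congr 1
      rw [sum_neg_distrib, ← mul_sum]
      push_cast
      ring
    rw [mul_pow, e2, wT_eq hM hL, Wa_eq hM hL, Wa_eq hM hL, ← prod_pow, ← prod_mul_distrib,
      ← prod_mul_distrib]
    refine prod_le_prod (fun O _ => by positivity) fun O hO => ?_
    have := (key O hO).2.2
    rw [Gn_neg]
    calc (2 * Real.cos (Tn θ gT ρ O)) ^ 2 * Real.exp (-(8 * Gn gT a O ^ 2))
        = 4 * (Real.cos (Tn θ gT ρ O) ^ 2 * Real.exp (-(8 * Gn gT a O ^ 2))) := by ring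
      _ ≤ 4 * (Real.cos (Tn θ gT ρ O + Gn gT a O) * Real.cos (Tn θ gT ρ O + -Gn gT a O)) :=
          mul_le_mul_of_nonneg_left this (by norm_num)
      _ = _ := by ring
  have h3 : 0 < wT θ M L ρ := wT_pos' h0 h1 ρ
  set y := wT θ M L ρ * Real.exp (-(4 * ∑ O ∈ orbs (gT.nxP ρ), Gn gT a O ^ 2)) with hy
  have hy0 : 0 < y := mul_pos h3 (Real.exp_pos _)
  have h4 : (2 * y) ^ 2 ≤ (Wa θ M L a ρ + Wa θ M L (-a) ρ) ^ 2 := by
    nlinarith [sq_nonneg (Wa θ M L a ρ - Wa θ M L (-a) ρ)]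
  exact le_of_sq_le_sq h4 (by positivity)
where
  le_of_sq_le_sq {x y : ℝ} (h : x ^ 2 ≤ y ^ 2) (hy : 0 ≤ y) : x ≤ y :=
    le_trans (le_abs_self x) (abs_le_of_sq_le_sq h hy)

open Classical in
theorem k_S (harc : K_arc) : K_S := by
  intro θ h0 h1
  refine ⟨1 / 12, 36, by norm_num, by norm_num, ?_⟩
  intro b hb0 hb m R hm hR E a f hA M L _ _ hM hL hM2 hL2
  set gT := torus M L hM hL with hgT
  set x := pa M L E a with hx
  set Bad : Set Cfg := {ω | Tri m R ω ∨ TriD m R ω} with hBad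
  have hZ := ZT_pos (M := M) (L := L) h0 h1
  have hE : ∀ y ∉ E.image (redE M L), x y = 0 := fun y hy => pa_off hy
  have hE' : ∀ y ∉ E.image (redE M L), (-x) y = 0 := fun y hy => by simp [hE y hy]
  have hcard : (1 / Real.cos θ) ^ (E.image (redE M L)).card ≤ (1 / Real.cos θ) ^ E.card := by
    have := half_le_cos h0 h1
    have h2 := Real.cos_le_one θ
    refine pow_le_pow_right₀ ?_ card_image_le
    rw [le_div_iff₀ (by linarith)]; linarith
  -- pointwise bound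
  have hpt : ∀ ρ : ZMod M × ZMod L → Bool,
      2 * (wT θ M L ρ * (if Tri m R (unR ρ) ∨ TriD m R (unR ρ) then 0 else
        Real.exp (-36 * ∑ᶠ ℓ ∈ Lin R (unR ρ), G f ℓ ^ 2))) ≤
      Real.exp (36 * b ^ 2) * (Wa θ M L x ρ + Wa θ M L (-x) ρ
        + 2 * ((1 / Real.cos θ) ^ E.card * (wT θ M L ρ * Bad.indicator 1 (unR ρ)))) := by
    intro ρ
    have hw := wT_pos' h0 h1 ρ
    by_cases hbad : Tri m R (unR ρ) ∨ TriD m R (unR ρ)
    · rw [if_pos hbad, mul_zero, mul_zero]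
      have hmem : unR ρ ∈ Bad := hbad
      rw [Set.indicator_of_mem hmem, Pi.one_apply, mul_one]
      have a1 := (abs_le.1 ((abs_Wa_le hM hL h0 h1 ρ hE).trans
        (mul_le_mul_of_nonneg_right hcard hw.le))).1
      have a2 := (abs_le.1 ((abs_Wa_le hM hL h0 h1 ρ hE').trans
        (mul_le_mul_of_nonneg_right hcard hw.le))).1
      exact mul_nonneg (Real.exp_pos _).le (by linarith)
    · rw [if_neg hbad]
      have hmem : unR ρ ∉ Bad := hbad
      rw [Set.indicator_of_notMem hmem, mul_zero, mul_zero, mul_zero, add_zero]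
      push Not at hbad
      obtain ⟨k1, k2⟩ := harc m R b E a f hm hR hA M L hM hL hM2 hL2 ρ hbad.1 hbad.2
      obtain ⟨q1, q2, q3⟩ := amgm hM hL h0 h1 ρ (a := x) (fun O hO => by
        have := k1 O hO
        unfold Gn
        rw [hx]
        linarith)
      have hS : 0 ≤ ∑ᶠ ℓ ∈ Lin R (unR ρ), G f ℓ ^ 2 :=
        finsum_mem_nonneg' fun ℓ => sq_nonneg _
      calc 2 * (wT θ M L ρ * Real.exp (-36 * ∑ᶠ ℓ ∈ Lin R (unR ρ), G f ℓ ^ 2))
          ≤ 2 * (wT θ M L ρ * (Real.exp (36 * b ^ 2) *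
              Real.exp (-(4 * ∑ O ∈ orbs (gT.nxP ρ), Gn gT x O ^ 2)))) := by
            refine mul_le_mul_of_nonneg_left (mul_le_mul_of_nonneg_left ?_ hw.le) (by norm_num)
            rw [← Real.exp_add, Real.exp_le_exp]
            have : ∑ O ∈ orbs (gT.nxP ρ), Gn gT x O ^ 2 ≤
              (∑ᶠ ℓ ∈ Lin R (unR ρ), G f ℓ ^ 2) + 9 * b ^ 2 := k2
            linarith
        _ = Real.exp (36 * b ^ 2) * (2 * (wT θ M L ρ *
              Real.exp (-(4 * ∑ O ∈ orbs (gT.nxP ρ), Gn gT x O ^ 2)))) := by ring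
        _ ≤ _ := mul_le_mul_of_nonneg_left q3 (Real.exp_pos _).le
  -- sum
  have hsum := sum_le_sum fun ρ (_ : ρ ∈ (univ : Finset (ZMod M × ZMod L → Bool))) => hpt ρ
  rw [← mul_sum, ← mul_sum, sum_add_distrib, sum_add_distrib, ← mul_sum, ← mul_sum,
    sum_Wa_neg hM hL] at hsum
  rw [torU_eqT hM hL]
  unfold ET
  rw [div_le_iff₀ hZ]
  have e3 : Real.exp (36 * b ^ 2) * ((∑ ρ, Wa θ M L (pa M L E a) ρ) / ∑ ρ, wT θ M L ρ +
      (1 / Real.cos θ) ^ E.card *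
        ((∑ ρ, wT θ M L ρ * Bad.indicator 1 (unR ρ)) / ∑ ρ, wT θ M L ρ)) *
      ∑ ρ, wT θ M L ρ
      = Real.exp (36 * b ^ 2) * (∑ ρ, Wa θ M L (pa M L E a) ρ +
        (1 / Real.cos θ) ^ E.card * ∑ ρ, wT θ M L ρ * Bad.indicator 1 (unR ρ)) := by
    field_simp
  rw [e3]
  have h5 := half_le_of_two hsum
  exact h5
where
  finsum_mem_nonneg' {α : Type} {s : Set α} {F : α → ℝ} (h : ∀ x, 0 ≤ F x) :
      0 ≤ ∑ᶠ x ∈ s, F x := by
    refine finsum_nonneg fun x => finsum_nonneg fun _ => h x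
  half_le_of_two {s e w b k : ℝ} (h : 2 * s ≤ e * (w + w + 2 * (k * b))) :
      s ≤ e * (w + k * b) := by
    have : e * (w + w + 2 * (k * b)) = 2 * (e * (w + k * b)) := by ring
    linarith

end Vale.Agent.P167.H685
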