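import Vale.Agent.P167.H685.Torus

/-!
Block B, part 3: convergence of local expectations and the transfer theorem.
-/

namespace Vale.Agent.P167.H685

open Finset Filter Topology MeasureTheory Vale.Agent.P152

/-- Weights on the configurations of the tori with even sides whose density with respect to fair
coins is `exp (± O(M + L))`, invariant under even translations. -/
structure GoodWeight (W : (M L : ℕ) → [NeZero M] → [NeZero L] → (ZMod M × ZMod L → Bool) → ℝ)
    (C : ℝ) : Prop where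
  nonneg : ∀ (M L : ℕ) [NeZero M] [NeZero L], Even M → Even L → ∀ R, 0 ≤ W M L R
  le : ∀ (M L : ℕ) [NeZero M] [NeZero L], Even M → Even L → ∀ R,
    W M L R ≤ Real.exp (C * (M + L))
  inv : ∀ (M L : ℕ) [NeZero M] [NeZero L], Even M → Even L → ∀ (x y : ℤ) R,
    W M L (shift (((2 * x : ℤ) : ZMod M), ((2 * y : ℤ) : ZMod L)) R) = W M L R
  mass : ∀ (M L : ℕ) [NeZero M] [NeZero L], Even M → Even L →
    Real.exp (-(C * (M + L))) * (Fintype.card (ZMod M × ZMod L → Bool) : ℝ) ≤ ∑ R, W M L R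

lemma injOn_bx {M L K : ℕ} (hM : 2 * K + 1 ≤ M) (hL : 2 * K + 1 ≤ L) :
    Set.InjOn (fun v : ℤ × ℤ => ((v.1 : ZMod M), (v.2 : ZMod L))) (bx K) := by
  intro v hv w hw h
  rw [mem_coe, mem_bx] at hv hw
  simp only [Prod.mk.injEq] at h
  have key : ∀ (N : ℕ), 2 * K + 1 ≤ N → ∀ a b : ℤ, -(K : ℤ) ≤ a → a ≤ K → -(K : ℤ) ≤ b → b ≤ K →
      (a : ZMod N) = b → a = b := by
    intro N hN a b h1 h2 h3 h4 hab
    have : ((a - b : ℤ) : ZMod N) = 0 := by push_cast; rw [hab]; ring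
    rw [ZMod.intCast_zmod_eq_zero_iff_dvd] at this
    have h5 : (2 * K + 1 : ℤ) ≤ N := by exact_mod_cast hN
    have := Int.eq_zero_of_abs_lt_dvd this (by rw [abs_lt]; constructor <;> linarith)
    linarith
  exact Prod.ext (key M hM _ _ hv.1.1 hv.1.2 hw.1.1 hw.1.2 h.1)
    (key L hL _ _ hv.2.1 hv.2.2 hw.2.1 hw.2.2 h.2)

lemma half_le_div {M k : ℕ} (hk : 0 < k) (h : k ≤ M) : (M : ℝ) / (2 * k) ≤ ((M / k : ℕ) : ℝ) := by
  have hk' : (0 : ℝ) < k := by exact_mod_cast hk
  rw [div_le_iff₀ (by positivity)]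
  have h1 : M < (M / k + 1) * k := by
    rw [add_mul, one_mul]
    have := Nat.div_add_mod M k
    have h2 := Nat.mod_lt M hk
    nlinarith [Nat.div_add_mod M k]
  have h3 : 1 ≤ M / k := (Nat.one_le_div_iff hk).2 h
  have h4 : (M : ℝ) < ((M / k : ℕ) + 1) * k := by exact_mod_cast h1
  have h5 : (1 : ℝ) ≤ ((M / k : ℕ) : ℝ) := by exact_mod_cast h3
  nlinarith

lemma local_conv_one {μ : Measure (ℤ × ℤ → Bool)} [IsProbabilityMeasure μ] (hμ : IsFair μ)
    {W : (M L : ℕ) → [NeZero M] → [NeZero L] → (ZMod M × ZMod L → Bool) → ℝ} {C : ℝ} (hC : 0 ≤ C) (hW : GoodWeight W C)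
    {F : (ℤ × ℤ → Bool) → ℝ} {K : ℕ} (hF : Dep F (bx K : Set (ℤ × ℤ))) (hF1 : ∀ R, |F R| ≤ 1)
    {ε : ℝ} (hε : 0 < ε) :
    ∃ N : ℕ, ∀ (M L : ℕ) [NeZero M] [NeZero L], N ≤ M → N ≤ L → Even M → Even L →
      |(∑ R, W M L R * F (unR R)) / (∑ R, W M L R) - ∫ R, F R ∂μ| ≤ ε := by
  classical
  set k : ℕ := 2 * (K + 1) with hk
  have hk0 : 0 < k := by omega
  have hkR : (0 : ℝ) < k := by exact_mod_cast hk0
  set t : ℝ := min 1 (ε / 4) with ht
  have ht0 : 0 < t := lt_min one_pos (by positivity)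
  have ht1 : t ≤ 1 := min_le_left _ _
  obtain ⟨N₁, hN₁⟩ := exists_nat_gt (64 * C * k ^ 2 / (t * ε))
  have hN₁pos : (0 : ℝ) < N₁ := lt_of_le_of_lt (by positivity) hN₁
  refine ⟨max (max N₁ k) 1, fun M L _ _ hM hL heM heL => ?_⟩
  have hM1 : N₁ ≤ M := le_trans (le_trans (le_max_left _ _) (le_max_left _ _)) hM
  have hL1 : N₁ ≤ L := le_trans (le_trans (le_max_left _ _) (le_max_left _ _)) hL
  have hMk : k ≤ M := le_trans (le_trans (le_max_right _ _) (le_max_left _ _)) hM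
  have hLk : k ≤ L := le_trans (le_trans (le_max_right _ _) (le_max_left _ _)) hL
  obtain ⟨S, A, hdep, hcard, hA2, hdisj⟩ := translates (M := M) (L := L) (K := K) (k := k)
    (by omega) F hF
  have hMpos : (0 : ℝ) < M := by
    have : 0 < M := by omega
    exact_mod_cast this
  have hLpos : (0 : ℝ) < L := by
    have : 0 < L := by omega
    exact_mod_cast this
  have hAne : A.Nonempty := by
    rw [← card_pos, hcard]
    exact Nat.mul_pos (Nat.div_pos hMk hk0) (Nat.div_pos hLk hk0)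
  have main := weighted_abs_le (W := W M L) (F := fun R => F (unR R)) (S := S) (A := A)
    (B := Real.exp (C * (M + L))) (z := Real.exp (-(C * (M + L)))) (t := t)
    (hW.nonneg M L heM heL) (hW.le M L heM heL)
    (fun a ha R => by
      obtain ⟨x, y, rfl⟩ := hA2 a ha
      have := hW.inv M L heM heL ((K + 1) * x) ((K + 1) * y) R
      rw [← this]
      congr 2
      simp only [hk]
      push_cast
      ext <;> simp <;> ring)
    (Real.exp_pos _) (hW.mass M L heM heL) hdep (fun R => hF1 _) hAne hdisj ht0 ht1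
  rw [avg_unR hμ hF (injOn_bx (by omega) (by omega))] at main
  refine main.trans ?_
  rw [← Real.exp_sub, Real.log_exp, hcard]
  have hn : (M : ℝ) * L / (4 * k ^ 2) ≤ (((M / k) * (L / k) : ℕ) : ℝ) := by
    push_cast
    calc (M : ℝ) * L / (4 * k ^ 2) = (M / (2 * k)) * (L / (2 * k)) := by field_simp; ring
      _ ≤ _ := mul_le_mul (half_le_div hk0 hMk) (half_le_div hk0 hLk) (by positivity)
          (by positivity)
  have hnpos : (0 : ℝ) < (M : ℝ) * L / (4 * k ^ 2) := by positivity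
  have hb : (C * (M + L) - -(C * (M + L))) / (t * (((M / k) * (L / k) : ℕ) : ℝ))
      ≤ ε / 4 := by
    calc (C * (M + L) - -(C * (M + L))) / (t * (((M / k) * (L / k) : ℕ) : ℝ))
        ≤ (C * (M + L) - -(C * (M + L))) / (t * ((M : ℝ) * L / (4 * k ^ 2))) := by
          apply div_le_div_of_nonneg_left
          · have : 0 ≤ C * (M + L) := by positivity
            linarith
          · positivity
          · exact mul_le_mul_of_nonneg_left hn ht0.le
      _ = 8 * C * k ^ 2 / t * (1 / M + 1 / L) := by field_simp; ring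
      _ ≤ 8 * C * k ^ 2 / t * (1 / N₁ + 1 / N₁) := by
          apply mul_le_mul_of_nonneg_left _ (by positivity)
          exact add_le_add (one_div_le_one_div_of_le hN₁pos (by exact_mod_cast hM1))
            (one_div_le_one_div_of_le hN₁pos (by exact_mod_cast hL1))
      _ = (64 * C * k ^ 2 / (t * ε)) / N₁ * (ε / 4) := by field_simp; ring
      _ ≤ 1 * (ε / 4) := by
          apply mul_le_mul_of_nonneg_right _ (by positivity)
          rw [div_le_one hN₁pos]
          exact hN₁.le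
      _ = ε / 4 := one_mul _
  have : t ≤ ε / 4 := min_le_right _ _
  linarith

theorem local_conv {μ : Measure (ℤ × ℤ → Bool)} [IsProbabilityMeasure μ] (hμ : IsFair μ)
    {W : (M L : ℕ) → [NeZero M] → [NeZero L] → (ZMod M × ZMod L → Bool) → ℝ} {C : ℝ} (hC : 0 ≤ C) (hW : GoodWeight W C)
    {F : (ℤ × ℤ → Bool) → ℝ} {K : ℕ} (hF : Dep F (bx K : Set (ℤ × ℤ))) {D : ℝ}
    (hFD : ∀ R, |F R| ≤ D) {ε : ℝ} (hε : 0 < ε) :
    ∃ N : ℕ, ∀ (M L : ℕ) [NeZero M] [NeZero L], N ≤ M → N ≤ L → Even M → Even L →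
      |(∑ R, W M L R * F (unR R)) / (∑ R, W M L R) - ∫ R, F R ∂μ| ≤ ε := by
  have hD : 0 ≤ D := le_trans (abs_nonneg _) (hFD fun _ => true)
  have hD1 : 0 < D + 1 := by linarith
  obtain ⟨N, hN⟩ := local_conv_one hμ hC hW (F := fun R => F R / (D + 1)) (K := K)
    (fun R R' h => by simp only [hF R R' h])
    (fun R => by
      rw [abs_div, abs_of_pos hD1, div_le_one hD1]
      linarith [hFD R]) (ε := ε / (D + 1)) (div_pos hε hD1)
  refine ⟨N, fun M L _ _ hM hL heM heL => ?_⟩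
  have := hN M L hM hL heM heL
  have e1 : ∑ R, W M L R * (F (unR R) / (D + 1)) = (∑ R, W M L R * F (unR R)) / (D + 1) := by
    rw [sum_div]; exact sum_congr rfl fun R _ => by ring
  have e2 : ∫ R, F R / (D + 1) ∂μ = (∫ R, F R ∂μ) / (D + 1) := integral_div _ _
  rw [e1, e2] at this
  have e3 : (∑ R, W M L R * F (unR R)) / (D + 1) / (∑ R, W M L R) - (∫ R, F R ∂μ) / (D + 1)
      = ((∑ R, W M L R * F (unR R)) / (∑ R, W M L R) - ∫ R, F R ∂μ) / (D + 1) := by
    rw [sub_div, div_right_comm]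
  rw [e3, abs_div, abs_of_pos hD1, div_le_div_iff_of_pos_right hD1] at this
  exact this

/-- A function of finitely many coins is measurable. -/
lemma Dep.measurable {F : (ℤ × ℤ → Bool) → ℝ} {Λ : Finset (ℤ × ℤ)}
    (hF : Dep F (Λ : Set (ℤ × ℤ))) : Measurable F := by
  classical
  have hms : ∀ ξ : ℤ × ℤ → Bool, MeasurableSet {R : ℤ × ℤ → Bool | ∀ v ∈ Λ, R v = ξ v} := by
    intro ξ
    have : {R : ℤ × ℤ → Bool | ∀ v ∈ Λ, R v = ξ v} = ⋂ v ∈ Λ, {R | R v = ξ v} := by
      ext R; simp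
    rw [this]
    exact Finset.measurableSet_biInter _ fun v _ =>
      measurableSet_eq_fun (measurable_pi_apply v) measurable_const
  have e : F = fun R => ∑ ξ : Λ → Bool, F (ext Λ ξ) *
      (if ∀ v ∈ Λ, R v = ext Λ ξ v then 1 else 0) := by
    funext R; exact local_expand hF _
  rw [e]
  refine Finset.measurable_sum _ fun ξ _ => measurable_const.mul ?_
  exact Measurable.ite (hms _) measurable_const measurable_const

/-- **Transfer theorem.** The numbers `T M L` converge to `a` (first `M → ∞`, then `L → ∞` through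
even values) and are represented by `Φ` and a good weight `W`, where `|Φ| ≤ D W` and `Φ = W X` on
the event `G K`; here `G K` and `X` on `G K` only depend on the coins in the box `[-K,K]²`, and
almost surely `G K` holds for large `K`. Then `a = E_μ X`. -/
theorem transfer {a : ℝ} {T : (M L : ℕ) → [NeZero M] → [NeZero L] → ℝ}
    (hT : ∀ ε > 0, ∃ q0 : ℕ, ∀ l : ℕ, q0 ≤ l → ∀ᶠ M : ℕ in atTop,
      |T (M + 1) (2 * (l + 1)) - a| ≤ ε)
    {μ : Measure (ℤ × ℤ → Bool)} [IsProbabilityMeasure μ] (hμ : IsFair μ)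
    {W : (M L : ℕ) → [NeZero M] → [NeZero L] → (ZMod M × ZMod L → Bool) → ℝ} {C : ℝ} (hC : 0 ≤ C) (hW : GoodWeight W C)
    {X : (ℤ × ℤ → Bool) → ℝ} {D : ℝ} (hXD : ∀ R, |X R| ≤ D)
    {G : ℕ → Set (ℤ × ℤ → Bool)}
    (hG : ∀ K, Dep (fun R => R ∈ G K) (bx K : Set (ℤ × ℤ)))
    (hGX : ∀ K, ∀ R ∈ G K, ∀ R' ∈ G K, (∀ v ∈ bx K, R v = R' v) → X R = X R')
    (hGae : ∀ᵐ R ∂μ, ∀ᶠ K in atTop, R ∈ G K)
    {Φ : (M L : ℕ) → [NeZero M] → [NeZero L] → (ZMod M × ZMod L → Bool) → ℝ}
    (hΦD : ∀ (M L : ℕ) [NeZero M] [NeZero L], Even M → Even L → ∀ R, |Φ M L R| ≤ D * W M L R)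
    (hΦ : ∀ K, ∃ N : ℕ, ∀ (M L : ℕ) [NeZero M] [NeZero L], Even M → Even L → N ≤ M → N ≤ L →
      ∀ R : ZMod M × ZMod L → Bool, unR R ∈ G K → Φ M L R = W M L R * X (unR R))
    (hZ : ∃ N : ℕ, ∀ (M L : ℕ) [NeZero M] [NeZero L], Even M → Even L → N ≤ M → N ≤ L →
      T M L = (∑ R, Φ M L R) / ∑ R, W M L R) :
    a = ∫ R, X R ∂μ := by
  classical
  have hD : 0 ≤ D := le_trans (abs_nonneg _) (hXD fun _ => true)
  set FX : ℕ → (ℤ × ℤ → Bool) → ℝ := fun K => (G K).indicator X with hFX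
  set F1 : ℕ → (ℤ × ℤ → Bool) → ℝ := fun K => (G K).indicator 1 with hF1
  have hdepF1 : ∀ K, Dep (F1 K) (bx K : Set (ℤ × ℤ)) := by
    intro K R R' h
    have : (R ∈ G K) = (R' ∈ G K) := hG K R R' h
    by_cases hR : R ∈ G K
    · simp only [hF1]
      rw [Set.indicator_of_mem hR, Set.indicator_of_mem (this ▸ hR)]; rfl
    · simp only [hF1]
      rw [Set.indicator_of_notMem hR, Set.indicator_of_notMem (this ▸ hR)]
  have hdepFX : ∀ K, Dep (FX K) (bx K : Set (ℤ × ℤ)) := by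
    intro K R R' h
    have : (R ∈ G K) = (R' ∈ G K) := hG K R R' h
    by_cases hR : R ∈ G K
    · have hR' : R' ∈ G K := this ▸ hR
      simp only [hFX]
      rw [Set.indicator_of_mem hR, Set.indicator_of_mem hR']
      exact hGX K R hR R' hR' h
    · simp only [hFX]
      rw [Set.indicator_of_notMem hR, Set.indicator_of_notMem (this ▸ hR)]
  have hbX : ∀ K R, |FX K R| ≤ D := by
    intro K R
    by_cases hR : R ∈ G K
    · simp only [hFX]
      rw [Set.indicator_of_mem hR]; exact hXD R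
    · simp only [hFX]
      rw [Set.indicator_of_notMem hR, abs_zero]; exact hD
  have hb1 : ∀ K R, |F1 K R| ≤ 1 := by
    intro K R
    by_cases hR : R ∈ G K
    · simp only [hF1]
      rw [Set.indicator_of_mem hR]; simp
    · simp only [hF1]
      rw [Set.indicator_of_notMem hR]; simp
  have hmX : ∀ K, Measurable (FX K) := fun K => (hdepFX K).measurable
  have hm1 : ∀ K, Measurable (F1 K) := fun K => (hdepF1 K).measurable
  -- limits of the plane expectations
  have limX : Tendsto (fun K => ∫ R, FX K R ∂μ) atTop (𝓝 (∫ R, X R ∂μ)) := by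
    refine tendsto_integral_of_dominated_convergence (fun _ => D)
      (fun K => (hmX K).aestronglyMeasurable) (integrable_const D)
      (fun K => Eventually.of_forall fun R => hbX K R) ?_
    filter_upwards [hGae] with R hR
    refine tendsto_const_nhds.congr' ?_
    filter_upwards [hR] with K hK
    simp only [hFX]
    rw [Set.indicator_of_mem hK]
  have lim1 : Tendsto (fun K => ∫ R, F1 K R ∂μ) atTop (𝓝 1) := by
    have : (1 : ℝ) = ∫ _R : ℤ × ℤ → Bool, (1 : ℝ) ∂μ := by simp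
    rw [this]
    refine tendsto_integral_of_dominated_convergence (fun _ => 1)
      (fun K => (hm1 K).aestronglyMeasurable) (integrable_const 1)
      (fun K => Eventually.of_forall fun R => hb1 K R) ?_
    filter_upwards [hGae] with R hR
    refine tendsto_const_nhds.congr' ?_
    filter_upwards [hR] with K hK
    simp only [hF1]
    rw [Set.indicator_of_mem hK]; rfl
  -- comparison on the torus
  obtain ⟨N₂, hN₂⟩ := hZ
  have tor : ∀ K, ∃ N₁ : ℕ, ∀ (M L : ℕ) [NeZero M] [NeZero L], Even M → Even L → N₁ ≤ M → N₁ ≤ L →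
      |T M L - (∑ R, W M L R * FX K (unR R)) / (∑ R, W M L R)|
        ≤ D * (1 - (∑ R, W M L R * F1 K (unR R)) / (∑ R, W M L R)) := by
    intro K
    obtain ⟨N₁, hN₁⟩ := hΦ K
    refine ⟨max N₁ N₂, fun M L _ _ heM heL h1 h2 => ?_⟩
    have hZpos : 0 < ∑ R, W M L R :=
      lt_of_lt_of_le (mul_pos (Real.exp_pos _) card_pos') (hW.mass M L heM heL)
    rw [hN₂ M L heM heL (le_trans (le_max_right _ _) h1) (le_trans (le_max_right _ _) h2),
      ← sub_div, ← sum_sub_distrib, abs_div, abs_of_pos hZpos]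
    have : D * (1 - (∑ R, W M L R * F1 K (unR R)) / (∑ R, W M L R))
        = (∑ R, D * (W M L R - W M L R * F1 K (unR R))) / (∑ R, W M L R) := by
      rw [← mul_sum, sum_sub_distrib, mul_div_assoc, sub_div, div_self hZpos.ne']
    rw [this]
    apply div_le_div_of_nonneg_right _ hZpos.le
    refine (abs_sum_le_sum_abs _ _).trans (sum_le_sum fun R _ => ?_)
    by_cases hR : unR R ∈ G K
    · simp only [hFX, hF1]
      rw [Set.indicator_of_mem hR, Set.indicator_of_mem hR,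
        hN₁ M L heM heL (le_trans (le_max_left _ _) h1) (le_trans (le_max_left _ _) h2) R hR]
      simp
    · simp only [hFX, hF1]
      rw [Set.indicator_of_notMem hR, Set.indicator_of_notMem hR]
      simpa using hΦD M L heM heL R
  -- pass to the limit
  have key : ∀ K, ∀ ε > 0, |a - ∫ R, FX K R ∂μ| ≤ D * (1 - ∫ R, F1 K R ∂μ) + ε := by
    intro K ε hε
    set η := ε / (D + 2) with hη
    have hη0 : 0 < η := by positivity
    obtain ⟨N₁, hN₁⟩ := tor K
    obtain ⟨N₃, hN₃⟩ := local_conv hμ hC hW (hdepFX K) (hbX K) hη0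
    obtain ⟨N₄, hN₄⟩ := local_conv hμ hC hW (hdepF1 K) (hb1 K) hη0
    obtain ⟨q0, hq0⟩ := hT η hη0
    obtain ⟨m0, hm0⟩ := eventually_atTop.1 (hq0 (q0 + N₁ + N₃ + N₄) (by omega))
    set l := q0 + N₁ + N₃ + N₄ with hl
    set m := 2 * (m0 + l) + 1 with hm
    have a0 := hm0 m (by omega)
    have heM : Even (m + 1) := ⟨m0 + l + 1, by omega⟩
    have heL : Even (2 * (l + 1)) := ⟨l + 1, by omega⟩
    have a1 := hN₁ (m + 1) (2 * (l + 1)) heM heL (by omega) (by omega)
    have a2 := hN₃ (m + 1) (2 * (l + 1)) (by omega) (by omega) heM heL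
    have a3 := hN₄ (m + 1) (2 * (l + 1)) (by omega) (by omega) heM heL
    generalize (∑ R, W (m + 1) (2 * (l + 1)) R * FX K (unR R)) /
        (∑ R, W (m + 1) (2 * (l + 1)) R) = x2 at a1 a2
    generalize (∑ R, W (m + 1) (2 * (l + 1)) R * F1 K (unR R)) /
        (∑ R, W (m + 1) (2 * (l + 1)) R) = x3 at a1 a3
    generalize T (m + 1) (2 * (l + 1)) = x1 at a0 a1
    have b3 : 1 - x3 ≤ 1 - (∫ R, F1 K R ∂μ) + η := by
      have := (abs_le.1 a3).1
      linarith
    have b4 : D * (1 - x3) ≤ D * (1 - (∫ R, F1 K R ∂μ) + η) := mul_le_mul_of_nonneg_left b3 hD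
    calc |a - ∫ R, FX K R ∂μ| = |(-(x1 - a) + (x1 - x2)) + (x2 - ∫ R, FX K R ∂μ)| := by ring_nf
      _ ≤ |-(x1 - a) + (x1 - x2)| + |x2 - ∫ R, FX K R ∂μ| := abs_add_le _ _
      _ ≤ (|-(x1 - a)| + |x1 - x2|) + |x2 - ∫ R, FX K R ∂μ| := by gcongr; exact abs_add_le _ _
      _ = |x1 - a| + |x1 - x2| + |x2 - ∫ R, FX K R ∂μ| := by rw [abs_neg]
      _ ≤ D * (1 - (∫ R, F1 K R ∂μ) + η) + 2 * η := by linarith
      _ = D * (1 - ∫ R, F1 K R ∂μ) + (D + 2) * η := by ring
      _ = D * (1 - ∫ R, F1 K R ∂μ) + ε := by rw [hη]; field_simp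
  have key2 : ∀ K, |a - ∫ R, FX K R ∂μ| ≤ D * (1 - ∫ R, F1 K R ∂μ) := fun K =>
    le_of_forall_pos_le_add (key K)
  have l1 : Tendsto (fun K => |a - ∫ R, FX K R ∂μ|) atTop (𝓝 |a - ∫ R, X R ∂μ|) :=
    (limX.const_sub a).abs
  have l2 : Tendsto (fun K => D * (1 - ∫ R, F1 K R ∂μ)) atTop (𝓝 (D * (1 - 1))) :=
    (lim1.const_sub 1).const_mul D
  have h0 := le_of_tendsto_of_tendsto' l1 l2 key2
  have h1 : |a - ∫ R, X R ∂μ| ≤ 0 := by simpa using h0
  have := abs_nonpos_iff.1 h1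
  linarith

end Vale.Agent.P167.H685
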