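import Vale.Agent.P167.A.Grid
import Vale.Agent.P167.H685.Limit

/-!
Block B, identity: orbits of a permutation of a finite type as finsets, products over the orbits.
-/

namespace Vale.Agent.P167.H685

open Finset
open Vale.Agent.P167.A (Grid)
open Vale.Agent.P152 (Edge Ori vw wt)

section orbs

variable {α : Type*} [Fintype α] [DecidableEq α] (σ : Equiv.Perm α)

open Classical in
/-- The orbit of `x` as a finset. -/
noncomputable def orb (x : α) : Finset α := univ.filter fun y => σ.SameCycle x y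

/-- The finset of all orbits. -/
noncomputable def orbs : Finset (Finset α) := univ.image (orb σ)

variable {σ}

lemma mem_orb {x y : α} : y ∈ orb σ x ↔ σ.SameCycle x y := by
  classical
  simp [orb]

lemma self_mem_orb (x : α) : x ∈ orb σ x := mem_orb.2 (Equiv.Perm.SameCycle.refl _ _)

lemma orb_eq_iff {x y : α} : orb σ x = orb σ y ↔ σ.SameCycle x y := by
  constructor
  · intro h
    rw [← mem_orb, h]
    exact self_mem_orb y
  · intro h
    ext z
    rw [mem_orb, mem_orb]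
    exact ⟨fun h' => h.symm.trans h', fun h' => h.trans h'⟩

lemma mem_orbs {ℓ : Finset α} : ℓ ∈ orbs σ ↔ ∃ x, orb σ x = ℓ := by simp [orbs]

lemma orb_mem_orbs (x : α) : orb σ x ∈ orbs σ := mem_orbs.2 ⟨x, rfl⟩

lemma eq_orb_of_mem {ℓ : Finset α} (h : ℓ ∈ orbs σ) {x : α} (hx : x ∈ ℓ) : ℓ = orb σ x := by
  obtain ⟨y, rfl⟩ := mem_orbs.1 h
  rw [orb_eq_iff]
  exact mem_orb.1 hx

lemma orbs_disjoint {ℓ ℓ' : Finset α} (h : ℓ ∈ orbs σ) (h' : ℓ' ∈ orbs σ) {x : α} (hx : x ∈ ℓ)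
    (hx' : x ∈ ℓ') : ℓ = ℓ' := by
  rw [eq_orb_of_mem h hx, eq_orb_of_mem h' hx']

lemma nonempty_of_mem_orbs {ℓ : Finset α} (h : ℓ ∈ orbs σ) : ℓ.Nonempty := by
  obtain ⟨y, rfl⟩ := mem_orbs.1 h
  exact ⟨y, self_mem_orb y⟩

open Classical in
/-- Product over the quotient by `SameCycle` as a product over `orbs`. -/
lemma prod_quotient (F : Finset α → ℝ) :
    ∏ O : Quotient (Equiv.Perm.SameCycle.setoid σ), F (univ.filter fun e => ⟦e⟧ = O)
      = ∏ ℓ ∈ orbs σ, F ℓ := by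
  have h : ∀ x : α, (univ.filter fun e =>
      (⟦e⟧ : Quotient (Equiv.Perm.SameCycle.setoid σ)) = ⟦x⟧) = orb σ x := by
    intro x
    ext y
    rw [mem_filter, mem_orb]
    constructor
    · rintro ⟨_, h⟩
      exact (Quotient.exact h).symm
    · intro h
      exact ⟨mem_univ _, Quotient.sound h.symm⟩
  have him : orbs σ = univ.image (fun O : Quotient (Equiv.Perm.SameCycle.setoid σ) =>
      univ.filter fun e => ⟦e⟧ = O) := by
    ext ℓ
    rw [mem_orbs, mem_image]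
    constructor
    · rintro ⟨x, rfl⟩
      exact ⟨⟦x⟧, mem_univ _, h x⟩
    · rintro ⟨O, _, rfl⟩
      obtain ⟨x, rfl⟩ := Quotient.exists_rep O
      exact ⟨x, (h x).symm⟩
  rw [him, prod_image]
  intro O _ O' _ hO
  obtain ⟨x, rfl⟩ := Quotient.exists_rep O
  have h1 : x ∈ univ.filter fun e => (⟦e⟧ : Quotient (Equiv.Perm.SameCycle.setoid σ)) = ⟦x⟧ := by
    simp
  simp only at hO
  rw [hO, mem_filter] at h1
  exact h1.2

/-- Conjugation. -/
lemma orbs_conj {σ τ : Equiv.Perm α} (φ : Equiv.Perm α) (h : ∀ x, φ (σ x) = τ (φ x)) :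
    orbs τ = (orbs σ).image (fun ℓ => ℓ.map φ.toEmbedding) := by
  have hz : ∀ (n : ℤ) (x : α), φ ((σ ^ n) x) = (τ ^ n) (φ x) := by
    intro n x
    have hc : τ = φ * σ * φ⁻¹ := by
      ext y
      have := h (φ⁻¹ y)
      simp only [Equiv.Perm.mul_apply]
      rw [this]
      simp
    rw [hc, conj_zpow]
    simp
  have horb : ∀ x, orb τ (φ x) = (orb σ x).map φ.toEmbedding := by
    intro x
    ext y
    rw [mem_orb, mem_map]
    constructor
    · rintro ⟨n, hn⟩
      exact ⟨(σ ^ n) x, mem_orb.2 ⟨n, rfl⟩, by simpa [hz] using hn⟩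
    · rintro ⟨z, hz', rfl⟩
      obtain ⟨n, rfl⟩ := mem_orb.1 hz'
      exact ⟨n, by simp [hz]⟩
  ext ℓ
  rw [mem_orbs, mem_image]
  constructor
  · rintro ⟨x, rfl⟩
    refine ⟨orb σ (φ.symm x), orb_mem_orbs _, ?_⟩
    rw [← horb, Equiv.apply_symm_apply]
  · rintro ⟨ℓ', hℓ', rfl⟩
    obtain ⟨x, rfl⟩ := mem_orbs.1 hℓ'
    exact ⟨φ x, horb x⟩

/-- Number of the orbits meeting a finite set. -/
lemma card_orbs_meet_le (E : Finset α) :
    ((orbs σ).filter fun ℓ => ∃ e ∈ E, e ∈ ℓ).card ≤ E.card := by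
  classical
  refine (card_le_card ?_).trans (card_image_le (s := E) (f := orb σ))
  intro ℓ hℓ
  rw [mem_filter] at hℓ
  obtain ⟨h1, e, he, heℓ⟩ := hℓ
  rw [mem_image]
  exact ⟨e, he, (eq_orb_of_mem h1 heℓ).symm⟩

/-- Number of the orbits with at least `k` elements. -/
lemma card_large_le (k : ℕ) :
    ((orbs σ).filter fun ℓ => k ≤ ℓ.card).card * k ≤ Fintype.card α := by
  classical
  set S := (orbs σ).filter fun ℓ => k ≤ ℓ.card with hS
  have hdis : ∀ ℓ ∈ S, ∀ ℓ' ∈ S, ℓ ≠ ℓ' → Disjoint ℓ ℓ' := by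
    intro ℓ h ℓ' h' hne
    rw [Finset.disjoint_left]
    intro x hx hx'
    exact hne (orbs_disjoint (mem_filter.1 h).1 (mem_filter.1 h').1 hx hx')
  calc S.card * k = ∑ ℓ ∈ S, k := by rw [sum_const, smul_eq_mul]
    _ ≤ ∑ ℓ ∈ S, ℓ.card := sum_le_sum fun ℓ hℓ => (mem_filter.1 hℓ).2
    _ = (S.biUnion id).card := by
        rw [card_biUnion]
        · rfl
        · intro ℓ h ℓ' h' hne
          exact hdis ℓ h ℓ' h' hne
    _ ≤ Fintype.card α := card_le_univ _

end orbs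

end Vale.Agent.P167.H685
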