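import Vale.Agent.P167.H685.Orbs

/-!
Block B, identity: loops of the plane and orbits on the torus.
-/

namespace Vale.Agent.P167.H685

open Finset
open Vale.Agent.P167.A (Grid plane torus red redE plane_nx plane_hd plane_sg par_red e1_red e2_red
  e1s_red e2s_red nx_red)
open Vale.Agent.P152 (Edge Ori vw wt)

/-! ### the plane -/

lemma nx_inj (ω : Cfg) : Function.Injective (nx ω) := by
  intro e e' h
  rw [← plane_nx, ← plane_nx] at h
  have := congrArg (plane.pv ω) h
  rwa [plane.pv_nx, plane.pv_nx] at this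

lemma nx_surj (ω : Cfg) : Function.Surjective (nx ω) := by
  intro e
  exact ⟨plane.pv ω e, by rw [← plane_nx, plane.nx_pv]⟩

/-- A finite forward orbit of an injective map is periodic: every point of it generates it. -/
lemma orbit_gen {α : Type*} {f : α → α} (hf : Function.Injective f) {ℓ : Finset α} {x : α}
    (hx : ∀ y, y ∈ ℓ ↔ ∃ n : ℕ, f^[n] x = y) :
    (∃ p, 0 < p ∧ f^[p] x = x) ∧ ∀ y ∈ ℓ, ∀ z, z ∈ ℓ ↔ ∃ n : ℕ, f^[n] y = z := by
  have hper : ∃ p, 0 < p ∧ f^[p] x = x := by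
    have hni : ¬ Function.Injective (fun n : ℕ => f^[n] x) := by
      intro hinj
      have hsub : Set.range (fun n : ℕ => f^[n] x) ⊆ (ℓ : Set α) := by
        rintro _ ⟨n, rfl⟩
        exact (hx _).2 ⟨n, rfl⟩
      exact Set.infinite_range_of_injective hinj (ℓ.finite_toSet.subset hsub)
    simp only [Function.Injective] at hni
    push Not at hni
    obtain ⟨i, j, hij, hne⟩ := hni
    wlog hlt : i < j generalizing i j
    · exact this j i hij.symm hne.symm (lt_of_le_of_ne (not_lt.1 hlt) hne.symm)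
    refine ⟨j - i, by omega, ?_⟩
    have : f^[i] (f^[j - i] x) = f^[i] x := by
      rw [← Function.iterate_add_apply, show i + (j - i) = j by omega, hij]
    exact (hf.iterate i) this
  refine ⟨hper, ?_⟩
  obtain ⟨p, hp0, hp⟩ := hper
  have hpk : ∀ k : ℕ, f^[p * k] x = x := by
    intro k
    induction k with
    | zero => simp
    | succ k ih => rw [Nat.mul_succ, Function.iterate_add_apply, hp, ih]
  intro y hy z
  obtain ⟨i, rfl⟩ := (hx y).1 hy
  rw [hx]
  constructor
  · rintro ⟨n, rfl⟩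
    refine ⟨n + (p * i - i), ?_⟩
    rw [← Function.iterate_add_apply]
    have h1 : i ≤ p * i := Nat.le_mul_of_pos_left i hp0
    rw [show n + (p * i - i) + i = n + p * i by omega, Function.iterate_add_apply, hpk]
  · rintro ⟨n, rfl⟩
    exact ⟨n + i, by rw [Function.iterate_add_apply]⟩

lemma loop_gen {ω : Cfg} {ℓ : Finset Ed} (h : IsLoop ω ℓ) {e : Ed} (he : e ∈ ℓ) (e' : Ed) :
    e' ∈ ℓ ↔ ∃ n : ℕ, (nx ω)^[n] e = e' := by
  obtain ⟨x, hx⟩ := h
  exact (orbit_gen (nx_inj ω) hx).2 e he e'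

lemma loop_unique {ω : Cfg} {ℓ ℓ' : Finset Ed} (h : IsLoop ω ℓ) (h' : IsLoop ω ℓ') {e : Ed}
    (he : e ∈ ℓ) (he' : e ∈ ℓ') : ℓ = ℓ' := by
  ext x
  rw [loop_gen h he, loop_gen h' he']

lemma loop_nonempty {ω : Cfg} {ℓ : Finset Ed} (h : IsLoop ω ℓ) : ℓ.Nonempty := by
  obtain ⟨x, hx⟩ := h
  exact ⟨x, (hx x).2 ⟨0, rfl⟩⟩

/-- Base point of an edge. -/
def bs : Ed → ℤ × ℤ
  | Sum.inl v => v
  | Sum.inr v => v

lemma bs_hdv (e : Ed) : |(bs e).1 - (hdv e).1| ≤ 1 ∧ |(bs e).2 - (hdv e).2| ≤ 1 := by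
  rcases e with v | v <;> simp only [bs, hdv] <;> split_ifs <;> simp

lemma nx_loc {ω ω' : Cfg} {e : Ed} (h : ω (hdv e) = ω' (hdv e)) : nx ω e = nx ω' e := by
  rcases e with v | v <;> simp only [hdv] at h <;> simp only [nx] <;> split_ifs at h ⊢ <;>
    simp_all

lemma loop_loc {ω ω' : Cfg} {ℓ : Finset Ed} (h : IsLoop ω ℓ) (hh : ∀ v ∈ vs ℓ, ω v = ω' v) :
    IsLoop ω' ℓ := by
  obtain ⟨x, hx⟩ := h
  refine ⟨x, fun y => ?_⟩
  rw [hx]
  have key : ∀ n : ℕ, (nx ω)^[n] x = (nx ω')^[n] x := by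
    intro n
    induction n with
    | zero => rfl
    | succ n ih =>
      rw [Function.iterate_succ_apply', Function.iterate_succ_apply', ← ih]
      apply nx_loc
      apply hh
      exact mem_image_of_mem _ ((hx _).2 ⟨n, rfl⟩)
  simp only [key]

/-! ### reduction to the torus -/

section torus

variable {M L : ℕ} [NeZero M] [NeZero L] (hM : Even M) (hL : Even L)

lemma hd_red (e : Ed) : (torus M L hM hL).hd (redE M L e) = red M L (plane.hd e) := by
  rcases e with v | v <;> simp only [redE, Sum.map_inl, Sum.map_inr, Grid.hd, par_red, e1_red,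
    e2_red] <;> split_ifs <;> rfl

lemma turn_red (ρ : ZMod M × ZMod L → Bool) (e : Ed) :
    (torus M L hM hL).turn ρ (redE M L e) = plane.turn (unR ρ) e := by
  unfold Grid.turn
  rw [hd_red]
  rfl

lemma sg_red (e : Ed) : (torus M L hM hL).sg (redE M L e) = sg e := by
  rw [← plane_sg]
  rcases e with v | v <;> simp only [redE, Sum.map_inl, Sum.map_inr, Grid.sg, par_red]

lemma nx_iter_red (ρ : ZMod M × ZMod L → Bool) (e : Ed) (n : ℕ) :
    ((torus M L hM hL).nx ρ)^[n] (redE M L e) = redE M L ((nx (unR ρ))^[n] e) := by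
  induction n with
  | zero => rfl
  | succ n ih =>
    rw [Function.iterate_succ_apply', Function.iterate_succ_apply', ih, nx_red]
    rfl

lemma redE_surj (x : Edge (ZMod M × ZMod L)) : ∃ e : Ed, redE M L e = x := by
  have key : ∀ v : ZMod M × ZMod L, ∃ w : ℤ × ℤ, red M L w = v := by
    intro v
    obtain ⟨a, ha⟩ := ZMod.intCast_surjective v.1
    obtain ⟨b, hb⟩ := ZMod.intCast_surjective v.2
    exact ⟨(a, b), Prod.ext ha hb⟩
  rcases x with v | v
  · obtain ⟨w, hw⟩ := key v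
    exact ⟨Sum.inl w, by simp [redE, hw]⟩
  · obtain ⟨w, hw⟩ := key v
    exact ⟨Sum.inr w, by simp [redE, hw]⟩

/-- Translation of an edge. -/
def trE (a b : ℤ) : Ed → Ed := Sum.map (fun v => (v.1 + a, v.2 + b)) (fun v => (v.1 + a, v.2 + b))

lemma redE_eq {e e' : Ed} (h : redE M L e = redE M L e') :
    ∃ a b : ℤ, e' = trE (M * a) (L * b) e := by
  have key : ∀ v w : ℤ × ℤ, red M L v = red M L w → ∃ a b : ℤ, w = (v.1 + M * a, v.2 + L * b) := by
    intro v w h
    simp only [red, Prod.mk.injEq] at h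
    obtain ⟨h1, h2⟩ := h
    rw [ZMod.intCast_eq_intCast_iff_dvd_sub] at h1 h2
    obtain ⟨a, ha⟩ := h1
    obtain ⟨b, hb⟩ := h2
    exact ⟨a, b, Prod.ext (by simp only; linarith) (by simp only; linarith)⟩
  rcases e with v | v <;> rcases e' with w | w
  · simp only [redE, Sum.map_inl, Sum.inl.injEq] at h
    obtain ⟨a, b, hab⟩ := key v w h
    exact ⟨a, b, by simp [trE, hab]⟩
  · simp [redE] at h
  · simp [redE] at h
  · simp only [redE, Sum.map_inr, Sum.inr.injEq] at h
    obtain ⟨a, b, hab⟩ := key v w h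
    exact ⟨a, b, by simp [trE, hab]⟩

lemma bs_nx (ω : Cfg) (e : Ed) : |(bs (nx ω e)).1 - (bs e).1| ≤ 1 ∧
    |(bs (nx ω e)).2 - (bs e).2| ≤ 1 := by
  rcases e with v | v <;> simp only [nx, bs] <;> split_ifs <;> simp

lemma bs_iter (ω : Cfg) (e : Ed) (n : ℕ) : |(bs ((nx ω)^[n] e)).1 - (bs e).1| ≤ n ∧
    |(bs ((nx ω)^[n] e)).2 - (bs e).2| ≤ n := by
  induction n with
  | zero => simp
  | succ n ih =>
    rw [Function.iterate_succ_apply']
    have h := bs_nx ω ((nx ω)^[n] e)
    have h1 := ih.1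
    have h2 := ih.2
    push_cast
    constructor
    · calc |(bs (nx ω ((nx ω)^[n] e))).1 - (bs e).1|
          = |((bs (nx ω ((nx ω)^[n] e))).1 - (bs ((nx ω)^[n] e)).1)
            + ((bs ((nx ω)^[n] e)).1 - (bs e).1)| := by ring_nf
        _ ≤ _ := abs_add_le _ _
        _ ≤ n + 1 := by linarith [h.1]
    · calc |(bs (nx ω ((nx ω)^[n] e))).2 - (bs e).2|
          = |((bs (nx ω ((nx ω)^[n] e))).2 - (bs ((nx ω)^[n] e)).2)
            + ((bs ((nx ω)^[n] e)).2 - (bs e).2)| := by ring_nf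
        _ ≤ _ := abs_add_le _ _
        _ ≤ n + 1 := by linarith [h.2]

end torus

/-! ### turning numbers -/

/-- A2, plane. -/
def S_turn : Prop := ∀ (ω : Cfg) (ℓ : Finset Ed), IsLoop ω ℓ →
  (∑ e ∈ ℓ, plane.turn ω e = 4 ∧ ∀ s, W ℓ s = 0 ∨ W ℓ s = 1) ∨
  (∑ e ∈ ℓ, plane.turn ω e = -4 ∧ ∀ s, W ℓ s = 0 ∨ W ℓ s = -1)

/-- A2, periodic case. -/
def S_turn0 : Prop := ∀ (ω : Cfg) (a b : ℤ) (e : Ed) (n : ℕ), 1 ≤ n → Even (a + b) →
  (∀ x y, ω (x + a, y + b) = ω (x, y)) → (nx ω)^[n] e = trE a b e → (a, b) ≠ (0, 0) →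
  ∑ i ∈ range n, plane.turn ω ((nx ω)^[i] e) = 0

section cases

variable {M L : ℕ} [NeZero M] [NeZero L] (hM : Even M) (hL : Even L)

lemma mem_orb_iff (ρ : ZMod M × ZMod L → Bool) (x y : Edge (ZMod M × ZMod L)) :
    y ∈ orb ((torus M L hM hL).nxP ρ) x ↔ ∃ n : ℕ, ((torus M L hM hL).nx ρ)^[n] x = y := by
  rw [mem_orb]
  have hp : ∀ n : ℕ, (((torus M L hM hL).nxP ρ) ^ n) x = ((torus M L hM hL).nx ρ)^[n] x := by
    intro n
    rw [← Equiv.Perm.iterate_eq_pow]
    rfl
  constructor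
  · intro h
    obtain ⟨n, _, hn⟩ := h.exists_pow_eq'
    exact ⟨n, by rw [← hp, hn]⟩
  · rintro ⟨n, hn⟩
    exact ⟨n, by rw [zpow_natCast, hp, hn]⟩

/-- The turning number of an orbit of the torus is `±4`, or it is `0` and the orbit is long. -/
lemma turn_cases (h1 : S_turn) (h2 : S_turn0) (ρ : ZMod M × ZMod L → Bool)
    {ℓ : Finset (Edge (ZMod M × ZMod L))} (hℓ : ℓ ∈ orbs ((torus M L hM hL).nxP ρ)) :
    (∑ e ∈ ℓ, (torus M L hM hL).turn ρ e = 4 ∨ ∑ e ∈ ℓ, (torus M L hM hL).turn ρ e = -4) ∨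
    (∑ e ∈ ℓ, (torus M L hM hL).turn ρ e = 0 ∧ min M L ≤ ℓ.card) := by
  classical
  obtain ⟨x, rfl⟩ := mem_orbs.1 hℓ
  obtain ⟨e, rfl⟩ := redE_surj x
  set gT := torus M L hM hL with hgT
  set ω : Cfg := unR ρ with hω
  set n := Function.minimalPeriod (gT.nx ρ) (redE M L e) with hn
  have hnpos : 0 < n := by
    rw [hn]
    apply Function.minimalPeriod_pos_of_mem_periodicPts
    have : Function.Injective (gT.nx ρ) := by
      intro a b hab
      have := congrArg (gT.pv ρ) hab
      rwa [gT.pv_nx, gT.pv_nx] at this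
    exact this.mem_periodicPts _
  -- the orbit as an image
  have himg : orb (gT.nxP ρ) (redE M L e)
      = (range n).image (fun i => (gT.nx ρ)^[i] (redE M L e)) := by
    ext y
    rw [mem_orb_iff, mem_image]
    constructor
    · rintro ⟨i, rfl⟩
      exact ⟨i % n, mem_range.2 (Nat.mod_lt _ hnpos), Function.iterate_mod_minimalPeriod_eq⟩
    · rintro ⟨i, _, rfl⟩
      exact ⟨i, rfl⟩
  have hinj : Set.InjOn (fun i => (gT.nx ρ)^[i] (redE M L e)) (range n : Set ℕ) := by
    intro i hi j hj hij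
    rw [coe_range, Set.mem_Iio] at hi hj
    exact Function.iterate_injOn_Iio_minimalPeriod (f := gT.nx ρ) (x := redE M L e) hi hj hij
  have hcard : (orb (gT.nxP ρ) (redE M L e)).card = n := by
    rw [himg, card_image_of_injOn hinj, card_range]
  have hsum : ∑ y ∈ orb (gT.nxP ρ) (redE M L e), gT.turn ρ y
      = ∑ i ∈ range n, plane.turn ω ((nx ω)^[i] e) := by
    rw [himg, sum_image hinj]
    refine sum_congr rfl fun i _ => ?_
    rw [hgT, nx_iter_red, turn_red]
  -- displacement of the lift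
  have hper : redE M L e = redE M L ((nx ω)^[n] e) := by
    rw [← nx_iter_red hM hL ρ e n]
    exact (Function.iterate_minimalPeriod (f := gT.nx ρ) (x := redE M L e)).symm
  obtain ⟨a, b, hab⟩ := redE_eq hper
  by_cases h0 : ((M : ℤ) * a, (L : ℤ) * b) = (0, 0)
  · left
    have hback : (nx ω)^[n] e = e := by
      rw [hab]
      simp only [Prod.mk.injEq] at h0
      rw [h0.1, h0.2]
      rcases e with v | v <;> simp [trE]
    have hinj2 : Set.InjOn (fun i => (nx ω)^[i] e) (range n : Set ℕ) := by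
      intro i hi j hj hij
      apply hinj hi hj
      simp only
      rw [hgT, nx_iter_red, nx_iter_red]
      simp only at hij
      rw [← hω, hij]
    have hloop : IsLoop ω ((range n).image fun i => (nx ω)^[i] e) := by
      refine ⟨e, fun e' => ?_⟩
      rw [mem_image]
      constructor
      · rintro ⟨i, _, rfl⟩
        exact ⟨i, rfl⟩
      · rintro ⟨i, rfl⟩
        refine ⟨i % n, mem_range.2 (Nat.mod_lt _ hnpos), ?_⟩
        have hp : Function.IsPeriodicPt (nx ω) n e := hback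
        exact hp.iterate_mod_apply i
    have hT := h1 ω _ hloop
    rw [sum_image hinj2] at hT
    rw [hsum]
    rcases hT with h | h
    · exact Or.inl h.1
    · exact Or.inr h.1
  · right
    constructor
    · rw [hsum]
      refine h2 ω (M * a) (L * b) e n hnpos ?_ ?_ hab h0
      · have e1 : Even ((M : ℤ) * a) := ((Int.even_coe_nat M).2 hM).mul_right _
        have e2 : Even ((L : ℤ) * b) := ((Int.even_coe_nat L).2 hL).mul_right _
        exact e1.add e2
      · intro x y
        simp [hω, unR]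
    · rw [hcard]
      have hb := bs_iter ω e n
      rw [hab] at hb
      have hbs : bs (trE (M * a) (L * b) e) = ((bs e).1 + M * a, (bs e).2 + L * b) := by
        rcases e with v | v <;> rfl
      rw [hbs] at hb
      simp only [add_sub_cancel_left] at hb
      simp only [Prod.mk.injEq, mul_eq_zero, not_and_or, not_or] at h0
      rcases h0 with h | h
      · have : (1 : ℤ) ≤ |a| := Int.one_le_abs h.2
        have h3 : (M : ℤ) ≤ n := by
          calc (M : ℤ) = M * 1 := by ring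
            _ ≤ M * |a| := by gcongr
            _ = |(M : ℤ) * a| := by rw [abs_mul]; simp
            _ ≤ n := hb.1
        exact le_trans (min_le_left _ _) (by exact_mod_cast h3)
      · have : (1 : ℤ) ≤ |b| := Int.one_le_abs h.2
        have h3 : (L : ℤ) ≤ n := by
          calc (L : ℤ) = L * 1 := by ring
            _ ≤ L * |b| := by gcongr
            _ = |(L : ℤ) * b| := by rw [abs_mul]; simp
            _ ≤ n := hb.2
        exact le_trans (min_le_right _ _) (by exact_mod_cast h3)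

end cases

end Vale.Agent.P167.H685
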