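import Vale.Agent.P167.H685.TLoop

/-!
Block B, identity: the torus weight is a good weight.
-/

set_option linter.unusedSimpArgs false

namespace Vale.Agent.P167.H685

open Finset
open Vale.Agent.P167.A (Grid plane torus red redE plane_nx plane_hd plane_sg par_red e1_red e2_red
  e1s_red e2s_red nx_red)
open Vale.Agent.P152 (Edge Ori vw wt)

/-- The factor of an orbit. -/
noncomputable def fac {V : Type} (g : Grid V) (a : Edge V → ℝ) (ρ : V → Bool)
    (ℓ : Finset (Edge V)) : ℝ :=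
  2 * Real.cos (∑ e ∈ ℓ, (Real.pi / 3 / 4 * g.turn ρ e + a e * g.sg e))

/-- The product of the factors of the orbits. -/
noncomputable def Pr {V : Type} [Fintype V] [DecidableEq V] (g : Grid V) (a : Edge V → ℝ)
    (ρ : V → Bool) : ℝ := ∏ ℓ ∈ orbs (g.nxP ρ), fac g a ρ ℓ

lemma fac_zero {V : Type} (g : Grid V) (ρ : V → Bool) (ℓ : Finset (Edge V)) :
    fac g 0 ρ ℓ = 2 * Real.cos (Real.pi / 3 / 4 * ((∑ e ∈ ℓ, g.turn ρ e : ℤ) : ℝ)) := by
  unfold fac
  congr 2
  rw [Int.cast_sum, mul_sum]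
  refine sum_congr rfl fun e _ => by simp

lemma fac_of_off {V : Type} (g : Grid V) {a : Edge V → ℝ} (ρ : V → Bool) {ℓ : Finset (Edge V)}
    (h : ∀ e ∈ ℓ, a e = 0) : fac g a ρ ℓ = fac g 0 ρ ℓ := by
  unfold fac
  congr 2
  exact sum_congr rfl fun e he => by rw [h e he]; simp

lemma abs_fac_le {V : Type} (g : Grid V) (a : Edge V → ℝ) (ρ : V → Bool) (ℓ : Finset (Edge V)) :
    |fac g a ρ ℓ| ≤ 2 := by
  unfold fac
  rw [abs_mul, abs_two]
  have := Real.abs_cos_le_one (∑ e ∈ ℓ, (Real.pi / 3 / 4 * g.turn ρ e + a e * g.sg e))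
  linarith

/-- Product bound. -/
lemma abs_Pr_le {V : Type} [Fintype V] [DecidableEq V] (g : Grid V) (ρ : V → Bool)
    (h1 : ∀ ℓ ∈ orbs (g.nxP ρ), 1 ≤ fac g 0 ρ ℓ) {a : Edge V → ℝ} {E : Finset (Edge V)}
    (ha : ∀ e ∉ E, a e = 0) : |Pr g a ρ| ≤ 2 ^ E.card * Pr g 0 ρ := by
  classical
  unfold Pr
  rw [abs_prod]
  have h2 : ∀ ℓ ∈ orbs (g.nxP ρ), |fac g a ρ ℓ| ≤
      (if ∃ e ∈ E, e ∈ ℓ then (2 : ℝ) else 1) * fac g 0 ρ ℓ := by
    intro ℓ hℓ
    split_ifs with h
    · have := abs_fac_le g a ρ ℓ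
      have := h1 ℓ hℓ
      linarith
    · rw [fac_of_off g ρ (fun e he => ha e fun hE => h ⟨e, hE, he⟩), one_mul,
        abs_of_pos (by linarith [h1 ℓ hℓ])]
  refine (prod_le_prod (fun ℓ _ => abs_nonneg _) h2).trans ?_
  rw [prod_mul_distrib]
  have hnn : 0 ≤ ∏ ℓ ∈ orbs (g.nxP ρ), fac g 0 ρ ℓ :=
    prod_nonneg fun ℓ hℓ => by linarith [h1 ℓ hℓ]
  apply mul_le_mul_of_nonneg_right _ hnn
  rw [prod_ite, prod_const, prod_const_one, mul_one]
  exact pow_le_pow_right₀ (by norm_num) (card_orbs_meet_le E)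

/-! ### the torus -/

section torus

variable {M L : ℕ} [NeZero M] [NeZero L] (hM : Even M) (hL : Even L)

lemma fac_cases (h1 : S_turn) (h2 : S_turn0) (ρ : ZMod M × ZMod L → Bool)
    {ℓ : Finset (Edge (ZMod M × ZMod L))} (hℓ : ℓ ∈ orbs ((torus M L hM hL).nxP ρ)) :
    fac (torus M L hM hL) 0 ρ ℓ = 1 ∨
      (fac (torus M L hM hL) 0 ρ ℓ = 2 ∧ min M L ≤ ℓ.card) := by
  rw [fac_zero]
  rcases turn_cases hM hL h1 h2 ρ hℓ with (h | h) | h
  · left
    rw [h]
    have : Real.pi / 3 / 4 * ((4 : ℤ) : ℝ) = Real.pi / 3 := by push_cast; ring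
    rw [this, Real.cos_pi_div_three]; norm_num
  · left
    rw [h]
    have : Real.pi / 3 / 4 * ((-4 : ℤ) : ℝ) = -(Real.pi / 3) := by push_cast; ring
    rw [this, Real.cos_neg, Real.cos_pi_div_three]; norm_num
  · right
    refine ⟨?_, h.2⟩
    rw [h.1]
    simp

lemma one_le_fac (h1 : S_turn) (h2 : S_turn0) (ρ : ZMod M × ZMod L → Bool)
    {ℓ : Finset (Edge (ZMod M × ZMod L))} (hℓ : ℓ ∈ orbs ((torus M L hM hL).nxP ρ)) :
    1 ≤ fac (torus M L hM hL) 0 ρ ℓ := by
  rcases fac_cases hM hL h1 h2 ρ hℓ with h | h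
  · rw [h]
  · rw [h.1]; norm_num

lemma one_le_Pr (h1 : S_turn) (h2 : S_turn0) (ρ : ZMod M × ZMod L → Bool) :
    1 ≤ Pr (torus M L hM hL) 0 ρ := by
  unfold Pr
  calc (1 : ℝ) = ∏ ℓ ∈ orbs ((torus M L hM hL).nxP ρ), (1 : ℝ) := by rw [prod_const_one]
    _ ≤ _ := prod_le_prod (fun _ _ => zero_le_one) fun ℓ hℓ => one_le_fac hM hL h1 h2 ρ hℓ

lemma Pr_le (h1 : S_turn) (h2 : S_turn0) (ρ : ZMod M × ZMod L → Bool) :
    Pr (torus M L hM hL) 0 ρ ≤ Real.exp (2 * Real.log 2 * (M + L)) := by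
  classical
  set gT := torus M L hM hL with hgT
  have hle : Pr gT 0 ρ ≤ ∏ ℓ ∈ orbs (gT.nxP ρ), (if min M L ≤ ℓ.card then (2 : ℝ) else 1) := by
    unfold Pr
    refine prod_le_prod (fun ℓ hℓ => ?_) (fun ℓ hℓ => ?_)
    · linarith [one_le_fac hM hL h1 h2 ρ hℓ]
    · rcases fac_cases hM hL h1 h2 ρ hℓ with h | h
      · rw [h]; split_ifs <;> norm_num
      · rw [h.1, if_pos h.2]
  refine hle.trans ?_
  rw [prod_ite, prod_const, prod_const_one, mul_one]
  set N := ((orbs (gT.nxP ρ)).filter fun ℓ => min M L ≤ ℓ.card).card with hN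
  have hcard := card_large_le (σ := gT.nxP ρ) (min M L)
  rw [← hN] at hcard
  have hE : Fintype.card (Edge (ZMod M × ZMod L)) = 2 * (M * L) := by
    rw [Fintype.card_sum, Fintype.card_prod, ZMod.card, ZMod.card]; ring
  rw [hE, ← min_mul_max M L] at hcard
  have hMpos : 0 < M := Nat.pos_of_ne_zero (NeZero.ne M)
  have hLpos : 0 < L := Nat.pos_of_ne_zero (NeZero.ne L)
  have hmin : 0 < min M L := lt_min hMpos hLpos
  have hN2 : N ≤ 2 * (M + L) := by
    have h3 : N * min M L ≤ 2 * max M L * min M L := by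
      calc N * min M L ≤ 2 * (min M L * max M L) := hcard
        _ = 2 * max M L * min M L := by ring
    have h4 : N ≤ 2 * max M L := Nat.le_of_mul_le_mul_right h3 hmin
    have h5 : max M L ≤ M + L := max_le (by omega) (by omega)
    omega
  calc (2 : ℝ) ^ N ≤ 2 ^ (2 * (M + L)) := pow_le_pow_right₀ (by norm_num) hN2
    _ = Real.exp (((2 * (M + L) : ℕ) : ℝ) * Real.log 2) := by
        rw [Real.exp_nat_mul, Real.exp_log (by norm_num)]
    _ = _ := by
        congr 1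
        push_cast
        ring

/-- Even translations. -/
lemma Pr_shift (x y : ℤ) (ρ : ZMod M × ZMod L → Bool) :
    Pr (torus M L hM hL) 0 (shift (((2 * x : ℤ) : ZMod M), ((2 * y : ℤ) : ZMod L)) ρ)
      = Pr (torus M L hM hL) 0 ρ := by
  classical
  set gT := torus M L hM hL with hgT
  set a : ZMod M × ZMod L := (((2 * x : ℤ) : ZMod M), ((2 * y : ℤ) : ZMod L)) with ha
  set φ : Equiv.Perm (ZMod M × ZMod L) := Equiv.addRight a with hφ
  have c1 : ∀ v, gT.e1 (φ v) = φ (gT.e1 v) := by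
    intro v
    apply Prod.ext
    · simp [hgT, torus, hφ, ha]; ring
    · simp [hgT, torus, hφ, ha]
  have c2 : ∀ v, gT.e2 (φ v) = φ (gT.e2 v) := by
    intro v
    apply Prod.ext
    · simp [hgT, torus, hφ, ha]
    · simp [hgT, torus, hφ, ha]; ring
  have c1s : ∀ v, gT.e1.symm (φ v) = φ (gT.e1.symm v) := by
    intro v
    rw [Equiv.symm_apply_eq, c1, Equiv.apply_symm_apply]
  have c2s : ∀ v, gT.e2.symm (φ v) = φ (gT.e2.symm v) := by
    intro v
    rw [Equiv.symm_apply_eq, c2, Equiv.apply_symm_apply]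
  have cp : ∀ v, gT.par (φ v) = gT.par v := by
    intro v
    obtain ⟨p, hp⟩ := ZMod.intCast_surjective v.1
    obtain ⟨q, hq⟩ := ZMod.intCast_surjective v.2
    have hv : v = red M L (p, q) := Prod.ext hp.symm hq.symm
    have hv2 : φ v = red M L (p + 2 * x, q + 2 * y) := by
      rw [hv]
      simp [hφ, ha, red]
    rw [hv2, hv, par_red, par_red]
    have : Even (p + 2 * x + (q + 2 * y)) ↔ Even (p + q) := by
      rw [show p + 2 * x + (q + 2 * y) = p + q + 2 * (x + y) by ring, Int.even_add]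
      simp
    simp [plane, this]
  set φE : Equiv.Perm (Edge (ZMod M × ZMod L)) := Equiv.sumCongr φ φ with hφE
  have hsh : shift a ρ = ρ ∘ φ := rfl
  have hnx : ∀ e, φE (gT.nxP (ρ ∘ φ) e) = gT.nxP ρ (φE e) := by
    intro e
    rcases e with v | v
    · simp only [hφE, Grid.nxP_apply, Equiv.sumCongr_apply, Sum.map_inl, Grid.nx, cp, c1, c2, c1s,
        c2s, Function.comp_apply]
      split_ifs <;> rfl
    · simp only [hφE, Grid.nxP_apply, Equiv.sumCongr_apply, Sum.map_inr, Grid.nx, cp, c1, c2, c1s,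
        c2s, Function.comp_apply]
      split_ifs <;> rfl
  have hhd : ∀ e, gT.hd (φE e) = φ (gT.hd e) := by
    intro e
    rcases e with v | v
    · simp only [hφE, Equiv.sumCongr_apply, Sum.map_inl, Grid.hd, cp, c1]
      split_ifs <;> rfl
    · simp only [hφE, Equiv.sumCongr_apply, Sum.map_inr, Grid.hd, cp, c2]
      split_ifs <;> rfl
  have hturn : ∀ e, gT.turn ρ (φE e) = gT.turn (ρ ∘ φ) e := by
    intro e
    unfold Grid.turn
    rw [hhd]
    rfl
  rw [hsh]
  unfold Pr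
  rw [orbs_conj φE hnx, prod_image (fun _ _ _ _ h => map_injective _ h)]
  refine prod_congr rfl fun ℓ _ => ?_
  rw [fac_zero, fac_zero, sum_map]
  congr 4
  exact sum_congr rfl fun e _ => (hturn e).symm

end torus

/-- The torus weight. -/
noncomputable def Wt (M L : ℕ) [NeZero M] [NeZero L] (ρ : ZMod M × ZMod L → Bool) : ℝ :=
  open Classical in
  if h : Even M ∧ Even L then Pr (torus M L h.1 h.2) 0 ρ else 1

theorem goodWeight (h1 : S_turn) (h2 : S_turn0) :
    GoodWeight (fun M L _ _ => Wt M L) (2 * Real.log 2) where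
  nonneg := by
    intro M L _ _ hM hL R
    simp only [Wt]
    rw [dif_pos ⟨hM, hL⟩]
    linarith [one_le_Pr hM hL h1 h2 R]
  le := by
    intro M L _ _ hM hL R
    simp only [Wt]
    rw [dif_pos ⟨hM, hL⟩]
    exact Pr_le hM hL h1 h2 R
  inv := by
    intro M L _ _ hM hL x y R
    simp only [Wt]
    rw [dif_pos ⟨hM, hL⟩, dif_pos ⟨hM, hL⟩]
    exact Pr_shift hM hL x y R
  mass := by
    intro M L _ _ hM hL
    have hpos : (0 : ℝ) < (Fintype.card (ZMod M × ZMod L → Bool) : ℝ) := card_pos'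
    have h3 : Real.exp (-(2 * Real.log 2 * (M + L))) ≤ 1 := by
      rw [Real.exp_le_one_iff]
      have : 0 ≤ Real.log 2 := Real.log_nonneg (by norm_num)
      have : 0 ≤ 2 * Real.log 2 * ((M : ℝ) + L) := by positivity
      linarith
    calc Real.exp (-(2 * Real.log 2 * (M + L))) * (Fintype.card (ZMod M × ZMod L → Bool) : ℝ)
        ≤ 1 * (Fintype.card (ZMod M × ZMod L → Bool) : ℝ) := by gcongr
      _ = ∑ _R : ZMod M × ZMod L → Bool, (1 : ℝ) := by simp
      _ ≤ ∑ R, Wt M L R := by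
          refine sum_le_sum fun R _ => ?_
          simp only [Wt]
          rw [dif_pos ⟨hM, hL⟩]
          exact one_le_Pr hM hL h1 h2 R

end Vale.Agent.P167.H685
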